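import Vale.Agent.P211.H237.Leaf6

set_option linter.all false

/-! P211 (helper626): interface of the leaves with exactly eliminated multiplier. The form in the
rows `(u, h, g, z')` has entries of degree at most two in `p` and one in `κ`. -/

namespace Vale.Agent.P211.H237

/-- the ten entries; an item `(a, b, i)` means `p ^ a * κ ^ b * w i`, with `a ≤ 2` and `b ≤ 1` -/
structure Tm7 where
  a11 : List (ℕ × ℕ × ℕ)
  a12 : List (ℕ × ℕ × ℕ)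
  a13 : List (ℕ × ℕ × ℕ)
  a14 : List (ℕ × ℕ × ℕ)
  a22 : List (ℕ × ℕ × ℕ)
  a23 : List (ℕ × ℕ × ℕ)
  a24 : List (ℕ × ℕ × ℕ)
  a33 : List (ℕ × ℕ × ℕ)
  a34 : List (ℕ × ℕ × ℕ)
  a44 : List (ℕ × ℕ × ℕ)

/-- value of an entry -/
noncomputable def ent7 (w : ℕ → ℝ) (p k : ℝ) (l : List (ℕ × ℕ × ℕ)) : ℝ :=
  zsV w (sel 1 p (p ^ 2)) (sel 1 k (k ^ 2)) l

/-- the form; the last diagonal entry is multiplied by the number `n` of the leaf -/
noncomputable def Tm7.form (t : Tm7) (w : ℕ → ℝ) (p k n z1 z2 z3 z4 : ℝ) : ℝ :=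
  form4 (ent7 w p k t.a11) (ent7 w p k t.a12) (ent7 w p k t.a13) (ent7 w p k t.a14)
    (ent7 w p k t.a22) (ent7 w p k t.a23) (ent7 w p k t.a24) (ent7 w p k t.a33)
    (ent7 w p k t.a34) (n * ent7 w p k t.a44) z1 z2 z3 z4

/-- the templates -/
structure Id7 where
  tm : Tm7
  r0 : ℕ
  ss : List (ℕ × ℕ)
  cons : List (ℕ × ℕ × ℕ)

/-- the conclusion of a leaf -/
def Id7.Good (I : Id7) (w : ℕ → ℝ) (p k : ℝ) : Prop :=
  (∀ c ∈ I.cons, 0 ≤ w c.1 + p * w c.2.1 + k * w c.2.2) →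
  ∃ n : ℝ, 0 < n ∧ (∀ z1 z2 z3 z4, 0 ≤ I.tm.form w p k n z1 z2 z3 z4) ∧
    n * msV w (sel 1 k (k ^ 2)) I.ss ≤ w I.r0

end Vale.Agent.P211.H237
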