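import Vale.Agent.P211.H626.Fn

set_option linter.all false

/-! P211 (helper626): the scalar conditions at a point imply the vertex certificate. -/

namespace Vale.Agent.P211.H626

open Vale.Agent.P211 Vale.Agent.P211.S4

/-- the domain of the scalar variables -/
structure Dom (N M p κ : ℝ) : Prop where
  N0 : 0 ≤ N
  M0 : 0 ≤ M
  NM : N + M ≤ 2
  ne : ¬ (N = 1 ∧ M = 1)
  p0 : 0 ≤ p
  k1 : -1 ≤ κ
  k2 : κ ≤ 1
  kmin : 3 * N ^ 2 * (2 - M) - (2 - M) ^ 3 ≤ 2 * κ * N ^ 3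
  kmin' : 6 * N ^ 2 - 8 ≤ 2 * κ * N ^ 3
  ap : p + 4 * κ * N ^ 3 - 9 / 2 * N ^ 2 ≤ 442 / 11
  ap2 : p ≤ 20 * (6 * (2 - N - M) + 2 / 5 * (N - M) ^ 2)

/-- the form in `(h, g, σ z)` after elimination of `u`, without the multipliers -/
noncomputable def F3 (c : H129.Co) (e : H129.Ex) (N M p κ lam nu X Y Z : ℝ) : ℝ :=
  H129.q3 (H129.Qhh c e N M p) (H129.Qgg c e N M p κ + lam) nu (H129.Qhg c e N M p κ)
    (3 * N ^ 2 * (3 * c.AM - M * c.B1)) (3 * N ^ 2 * (3 * c.AN - N * c.C1)) X Y Z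

/-- the scalar conditions at a point, with margin `δ` -/
def PwOk (c : H129.Co) (e : H129.Ex) (N M p κ δ : ℝ) : Prop :=
  0 < c.A ∧ 0 ≤ c.B0 + p * c.B1 ∧ ∃ lam mu nu : ℝ, 0 ≤ lam ∧ 0 ≤ mu ∧ 0 ≤ nu ∧
    (∀ X Y Z, 0 ≤ F3 c e N M p κ lam nu X Y Z) ∧
    δ ≤ H129.Sc c e N M p (κ * N ^ 3) - lam * p - mu * (1 - κ ^ 2) * p ∧
    0 ≤ lam + (mu - nu) * (1 - κ ^ 2)

open H129 in
/-- **the reduction** for `p > 0` -/
theorem RR_ge4 (c : Co) (e : Ex) (N M p κ σ lam mu nu : ℝ) (u h g z : Fin 4 → ℝ) (hA : 0 < c.A)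
    (hp : 0 < p) (hlam : 0 ≤ lam) (hmu : 0 ≤ mu) (hgz : H129.dt g g + H129.dt z z ≤ p)
    (hκ : κ ^ 2 + σ ^ 2 = 1) (hQ : ∀ X Y Z, 0 ≤ F3 c e N M p κ lam nu X Y Z)
    (hrel : 0 ≤ lam + (mu - nu) * (1 - κ ^ 2)) :
    Sc c e N M p (κ * N ^ 3) - lam * p - mu * (1 - κ ^ 2) * p ≤ RR c e N M p κ σ u h g z := by
  have hgg : 0 ≤ H129.dt g g := Finset.sum_nonneg fun i _ => mul_self_nonneg _
  have hzz : 0 ≤ H129.dt z z := Finset.sum_nonneg fun i _ => mul_self_nonneg _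
  have hs : σ ^ 2 = 1 - κ ^ 2 := by linarith
  have h2 : ∀ i, 0 ≤ (c.A * ((6/7) * (u i * u i) / p)
    + (c.AN * g i + c.AM * h i) * (u i - 6 * N * g i + 9 * N^2 * (κ * g i + σ * z i))
    + (c.B0 + p * c.B1) * ((5/3) * (h i * h i))
    + M * (((c.B0N + p * c.B1N) * g i + (c.B0M + p * c.B1M) * h i
        + c.B1 * (u i + 3 * N * g i - 3 * N^2 * (κ * g i + σ * z i))) * h i)
    + N * (((c.C0N + p * c.C1N) * g i + (c.C0M + p * c.C1M) * h i
        + c.C1 * (u i + 3 * N * g i - 3 * N^2 * (κ * g i + σ * z i))) * g i)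
    + (e.hh * (h i * h i) + e.gh * (g i * h i) + e.gg * (g i * g i))
    + lam * (g i * g i) + nu * (1 - κ ^ 2) * (z i * z i)) := by
    intro i
    have h3 := H129.coord c e N M p κ σ 0 (u i) (h i) (g i) (z i) hA hp
    have h4 := hQ (h i) (g i) (σ * z i)
    have h5 : F3 c e N M p κ lam nu (h i) (g i) (σ * z i) =
        q3 (Qhh c e N M p) (Qgg c e N M p κ + 0) 0 (Qhg c e N M p κ) (Qhz c N M σ)
          (Qgz c N σ) (h i) (g i) (z i) + lam * (g i * g i) + nu * σ ^ 2 * (z i * z i) := by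
      unfold F3 q3 Qhz Qgz
      ring
    rw [h5, hs] at h4
    linarith
  have h3 : RR c e N M p κ σ u h g z - Sc c e N M p (κ * N^3) + lam * H129.dt g g +
      nu * (1 - κ ^ 2) * H129.dt z z = ∑ i, (c.A * ((6/7) * (u i * u i) / p)
    + (c.AN * g i + c.AM * h i) * (u i - 6 * N * g i + 9 * N^2 * (κ * g i + σ * z i))
    + (c.B0 + p * c.B1) * ((5/3) * (h i * h i))
    + M * (((c.B0N + p * c.B1N) * g i + (c.B0M + p * c.B1M) * h i
        + c.B1 * (u i + 3 * N * g i - 3 * N^2 * (κ * g i + σ * z i))) * h i)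
    + N * (((c.C0N + p * c.C1N) * g i + (c.C0M + p * c.C1M) * h i
        + c.C1 * (u i + 3 * N * g i - 3 * N^2 * (κ * g i + σ * z i))) * g i)
    + (e.hh * (h i * h i) + e.gh * (g i * h i) + e.gg * (g i * g i))
    + lam * (g i * g i) + nu * (1 - κ ^ 2) * (z i * z i)) := by
    unfold RR Sc H129.dt
    simp only [Fin.sum_univ_four]
    ring
  have h6 := Finset.sum_nonneg fun i (_ : i ∈ (Finset.univ : Finset (Fin 4))) => h2 i
  rw [← h3] at h6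
  have hk : 0 ≤ 1 - κ ^ 2 := by rw [← hs]; positivity
  have h7 : lam * H129.dt g g + nu * (1 - κ ^ 2) * H129.dt z z ≤
      (lam + mu * (1 - κ ^ 2)) * (H129.dt g g + H129.dt z z) := by
    have a1 : 0 ≤ mu * (1 - κ ^ 2) * H129.dt g g := by positivity
    have a2 : nu * (1 - κ ^ 2) * H129.dt z z ≤ (lam + mu * (1 - κ ^ 2)) * H129.dt z z :=
      mul_le_mul_of_nonneg_right (by linarith) hzz
    linarith
  have h8 : (lam + mu * (1 - κ ^ 2)) * (H129.dt g g + H129.dt z z) ≤ (lam + mu * (1 - κ ^ 2)) * p :=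
    mul_le_mul_of_nonneg_left hgz (by positivity)
  linarith

/-- a point satisfies the constraints of the domain -/
theorem dom_of {P : H56.Pt} (hP : P.Ok) (hE : E3 P) (hne : ¬ (P.N = 1 ∧ P.M = 1)) :
    Dom P.N P.M P.p P.κ where
  N0 := hP.N0
  M0 := hP.M0
  NM := hP.NM
  ne := hne
  p0 := by
    rw [hP.norm]
    have h1 := H56.dt_self_nonneg P.g
    have h2 := H56.dt_self_nonneg P.z
    have h3 := H56.dt_self_nonneg P.t
    positivity
  k1 := by nlinarith [hP.ks, sq_nonneg P.σ]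
  k2 := by nlinarith [hP.ks, sq_nonneg P.σ]
  kmin := hP.kmin
  kmin' := hP.kmin'
  ap := hP.apriori
  ap2 := hE.p_le

theorem dt_zero_imp {x : Fin 4 → ℝ} (h : H56.dt x x = 0) : x = 0 := by
  unfold H56.dt at h
  rw [Finset.sum_eq_zero_iff_of_nonneg (fun i _ => mul_self_nonneg _)] at h
  funext i
  exact mul_self_eq_zero.mp (h i (Finset.mem_univ i))

/-- **the scalar conditions imply the pointwise inequality** -/
theorem RR_of_pw {c : H129.Co} {e : H129.Ex} {P : H56.Pt} (hP : P.Ok) {δ : ℝ}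
    (h : PwOk c e P.N P.M P.p P.κ δ) :
    δ ≤ H129.RR c e P.N P.M P.p P.κ P.σ P.u P.h P.g P.z := by
  obtain ⟨hA, hB, lam, mu, nu, hlam, hmu, hnu, hQ, hS, hrel⟩ := h
  have e1 := H56.dt_self_nonneg P.g
  have e2 := H56.dt_self_nonneg P.z
  have e3 := H56.dt_self_nonneg P.t
  have hn := hP.norm
  rcases lt_or_eq_of_le (show 0 ≤ P.p by rw [hn]; positivity) with hp | hp
  · refine hS.trans (RR_ge4 c e P.N P.M P.p P.κ P.σ lam mu nu P.u P.h P.g P.z hA hp hlam hmu ?_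
      hP.ks hQ hrel)
    show H56.dt P.g P.g + H56.dt P.z P.z ≤ P.p
    linarith
  · have g0 : P.g = 0 := dt_zero_imp (by linarith)
    have z0 : P.z = 0 := dt_zero_imp (by linarith)
    have u0 : P.u = 0 := hP.u0 hp.symm
    have h1 := hQ 1 0 0
    have h2 : 0 ≤ H129.dt P.h P.h := H56.dt_self_nonneg P.h
    have h3 : H129.RR c e P.N P.M P.p P.κ P.σ P.u P.h P.g P.z =
        H129.Sc c e P.N P.M P.p (P.κ * P.N ^ 3) +
          F3 c e P.N P.M P.p P.κ lam nu 1 0 0 * H129.dt P.h P.h := by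
      rw [g0, z0, u0, ← hp]
      unfold H129.RR H129.Sc F3 H129.q3 H129.Qhh H129.dt
      simp only [Fin.sum_univ_four, Pi.zero_apply]
      ring
    have h4 := mul_nonneg h1 h2
    rw [h3]
    rw [← hp] at hS ⊢
    linarith [hS, h4, show H129.Sc c e P.N P.M 0 (P.κ * P.N ^ 3) - lam * 0 -
      mu * (1 - P.κ ^ 2) * 0 = H129.Sc c e P.N P.M 0 (P.κ * P.N ^ 3) by ring,
      show 0 ≤ F3 c e P.N P.M 0 P.κ lam nu 1 0 0 * H129.dt P.h P.h by
        have := h4; rwa [← hp] at this]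

variable {M 𝒪 V : Type*} [TopologicalSpace M] [CommRing 𝒪] [Algebra ℝ 𝒪]
    [AddCommGroup V] [Module 𝒪 V] {G : Geo2 M 𝒪 V}

/-- **A vertex certificate from the scalar conditions.** -/
theorem vc_of_pw {c : Cert} (h : c.Sm G) {a a' : ℝ → ℝ} {x y : ℝ} (δ : ℝ → ℝ → ℝ)
    (hδ : ∀ N M, 0 ≤ N → 0 ≤ M → 0 ≤ δ N M) (hδ' : ∀ N M, 0 < N → 0 < M → 0 < δ N M)
    (hpw : ∀ N M p κ, Dom N M p κ →
      PwOk (c.co N M) (Cert.exP a a' x y N M) N M p κ (δ N M)) :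
    VC G E3 a a' x y := by
  refine Cert.vc h fun P hP hE hne => ?_
  have h1 := hpw P.N P.M P.p P.κ (dom_of hP hE hne)
  have h2 := RR_of_pw hP h1
  obtain ⟨hA, hB, -⟩ := h1
  exact ⟨hA.le, hB, (hδ _ _ hP.N0 hP.M0).trans h2, fun h3 h4 => (hδ' _ _ h3 h4).trans_le h2⟩

end Vale.Agent.P211.H626
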