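import Vale.Agent.P211.H626.Glue7
import Vale.Agent.P211.H626.D.Ok1
import Vale.Agent.P211.H626.D.F1I
import Vale.Agent.P211.H626.D.F1II
import Vale.Agent.P211.H626.D.F1C
import Vale.Agent.P211.H129.BV1

set_option linter.all false

/-! P211 (helper626): the vertex certificate v1 from the three covered root boxes. -/

namespace Vale.Agent.P211.H626

open Vale.Agent.P211 Vale.Agent.P211.S4 Vale.Agent.P211.H237

theorem vok1_of (hI : F1I.Cov ⟨0, 255, 0, 255, 0, 3211264, -64, 64⟩)
    (hII : F1II.Cov ⟨0, 510, 127, 255, 0, 65536, 0, 1024⟩)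
    (hC : F1C.Cov ⟨0, 256, -511, 511, 0, 65536, 0, 1280⟩) :
    H210.VOk v1.d.cert (3 / 2) (1 / 2) :=
  vok_of (v := v1) ok1 (by norm_num [v1]) (by norm_num [v1]) H129.BV1.bpos
    (by norm_num) (by norm_num) (by norm_num) (by norm_num) (by norm_num) (by norm_num)
    ok1I ok1II ok1C
    (gI_of (f := F1I) rfl hI (by decide) (by decide) (by decide) (by decide) (by decide))
    (gII_of (f := F1II) rfl hII (by decide) (by decide) (by decide) (by decide) (by decide))
    (gC_of (f := F1C) rfl hC (by decide) (by decide) (by decide) (by decide) (by decide))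

end Vale.Agent.P211.H626
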