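import Vale.Agent.P211.H626.Glue7
import Vale.Agent.P211.H626.D.Ok2
import Vale.Agent.P211.H626.D.F2I
import Vale.Agent.P211.H626.D.F2II
import Vale.Agent.P211.H626.D.F2C
import Vale.Agent.P211.H129.BV2

set_option linter.all false

/-! P211 (helper626): the vertex certificate v2 from the three covered root boxes. -/

namespace Vale.Agent.P211.H626

open Vale.Agent.P211 Vale.Agent.P211.S4 Vale.Agent.P211.H237

theorem vok2_of (hI : F2I.Cov ⟨0, 255, 0, 255, 0, 3211264, -64, 64⟩)
    (hII : F2II.Cov ⟨0, 510, 127, 255, 0, 65536, 0, 1024⟩)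
    (hC : F2C.Cov ⟨0, 256, -511, 511, 0, 65536, 0, 1280⟩) :
    H210.VOk v2.d.cert 3 (1 / 3) :=
  vok_of (v := v2) ok2 (by norm_num [v2]) (by norm_num [v2]) H129.BV2.bpos
    (by norm_num) (by norm_num) (by norm_num) (by norm_num) (by norm_num) (by norm_num)
    ok2I ok2II ok2C
    (gI_of (f := F2I) rfl hI (by decide) (by decide) (by decide) (by decide) (by decide))
    (gII_of (f := F2II) rfl hII (by decide) (by decide) (by decide) (by decide) (by decide))
    (gC_of (f := F2C) rfl hC (by decide) (by decide) (by decide) (by decide) (by decide))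

end Vale.Agent.P211.H626
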