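import Mathlib

set_option linter.all false

/-! P211 (helper626): the algebraic inequality behind the second a-priori bound
`p ≤ 20 (6 (2 - N - M) + (2/5) (N - M)²)`. -/

namespace Vale.Agent.P211.H626

theorem q1 {x : ℝ} (h1 : -2 ≤ x) (h2 : x ≤ 0) : 0 ≤ 40 / 3 * (6 + 4 / 5 * x) *
    (5 * (6 - 4 / 5 * x) ^ 2 - 16 - (4 + 17 * x + 3 * x ^ 3)) -
    (1 - x / 2) * (11520 + (4 + 17 * x + 3 * x ^ 3) * (5 * (6 + 4 / 5 * x) ^ 2 - 16)) := by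
  have key : ∀ u v : ℝ, 0 ≤ u → 0 ≤ v → 0 ≤ (911/12) * v ^ 6 +
      (12751/40) * u ^ 1 * v ^ 5 +
      (30097/60) * u ^ 2 * v ^ 4 +
      (24817/60) * u ^ 3 * v ^ 3 +
      (4409/20) * u ^ 4 * v ^ 2 +
      (1693/24) * u ^ 5 * v ^ 1 +
      (39/4) * u ^ 6 := fun u v hu hv => by
    positivity
  exact (key (x - (-2)) (0 - x) (sub_nonneg.2 h1) (sub_nonneg.2 h2)).trans_eq (by ring)

theorem q2 {x : ℝ} (h1 : 0 ≤ x) (h2 : x ≤ 2) : 0 ≤ 40 / 3 * (6 + 4 / 5 * x) *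
    (5 * (6 - 4 / 5 * x) ^ 2 - 16 - (4 + 17 * x + 3 * x ^ 3)) -
    (1 - x / 2) * (11520 + (4 + 17 * x + 3 * x ^ 3) * (5 * (6 + 4 / 5 * x) ^ 2 - 16)) := by
  have key : ∀ u v : ℝ, 0 ≤ u → 0 ≤ v → 0 ≤ (39/4) * v ^ 6 +
      (1115/24) * u ^ 1 * v ^ 5 +
      (3001/30) * u ^ 2 * v ^ 4 +
      (5299/60) * u ^ 3 * v ^ 3 +
      (443/60) * u ^ 4 * v ^ 2 +
      (883/120) * u ^ 5 * v ^ 1 +
      (893/30) * u ^ 6 := fun u v hu hv => by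
    positivity
  exact (key (x - 0) (2 - x) (sub_nonneg.2 h1) (sub_nonneg.2 h2)).trans_eq (by ring)

theorem T1 {x : ℝ} (h1 : -2 ≤ x) (h2 : x ≤ 2) : 0 ≤ 11520 + (4 + 17 * x + 3 * x ^ 3) * (5 * (6 + 4 / 5 * x) ^ 2 - 16) := by
  have key : ∀ u v : ℝ, 0 ≤ u → 0 ≤ v → 0 ≤ (4473/640) * v ^ 5 +
      (28319/640) * u ^ 1 * v ^ 4 +
      (7093/64) * u ^ 2 * v ^ 3 +
      (39371/320) * u ^ 3 * v ^ 2 +
      (8657/128) * u ^ 4 * v ^ 1 +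
      (17771/640) * u ^ 5 := fun u v hu hv => by
    positivity
  exact (key (x - (-2)) (2 - x) (sub_nonneg.2 h1) (sub_nonneg.2 h2)).trans_eq (by ring)

theorem g1 {N : ℝ} (h1 : (2/3) ≤ N) (h2 : N ≤ 4/3) : 0 ≤ 40 / 3 * (38 / 5 - 8 / 5 * N) +
    N * (4 + 17 * (2 * N - 2) + 3 * (2 * N - 2) ^ 3) - 381 / 20 * N - 32 * N ^ 2 := by
  have key : ∀ u v : ℝ, 0 ≤ u → 0 ≤ v → 0 ≤ (44313/160) * v ^ 4 +
      (28617/32) * u ^ 1 * v ^ 3 +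
      (161217/160) * u ^ 2 * v ^ 2 +
      (68511/160) * u ^ 3 * v ^ 1 +
      (4953/80) * u ^ 4 := fun u v hu hv => by
    positivity
  exact (key (N - (2/3)) ((4/3) - N) (sub_nonneg.2 h1) (sub_nonneg.2 h2)).trans_eq (by ring)

theorem g2 {N : ℝ} (h1 : (4/3) ≤ N) (h2 : N ≤ 5/3) : 0 ≤ 40 / 3 * (38 / 5 - 8 / 5 * N) +
    N * (4 + 17 * (2 * N - 2) + 3 * (2 * N - 2) ^ 3) - 381 / 20 * N - 32 * N ^ 2 := by
  have key : ∀ u v : ℝ, 0 ≤ u → 0 ≤ v → 0 ≤ (4953/5) * v ^ 4 +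
      (50361/20) * u ^ 1 * v ^ 3 +
      (39771/20) * u ^ 2 * v ^ 2 +
      (11067/20) * u ^ 3 * v ^ 1 +
      (465/4) * u ^ 4 := fun u v hu hv => by
    positivity
  exact (key (N - (4/3)) ((5/3) - N) (sub_nonneg.2 h1) (sub_nonneg.2 h2)).trans_eq (by ring)

theorem g3 {N : ℝ} (h1 : (5/3) ≤ N) (h2 : N ≤ 2) : 0 ≤ 40 / 3 * (38 / 5 - 8 / 5 * N) +
    N * (4 + 17 * (2 * N - 2) + 3 * (2 * N - 2) ^ 3) - 381 / 20 * N - 32 * N ^ 2 := by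
  have key : ∀ u v : ℝ, 0 ≤ u → 0 ≤ v → 0 ≤ (465/4) * v ^ 4 +
      (7533/20) * u ^ 1 * v ^ 3 +
      (29169/20) * u ^ 2 * v ^ 2 +
      (50319/20) * u ^ 3 * v ^ 1 +
      (13419/10) * u ^ 4 := fun u v hu hv => by
    positivity
  exact (key (N - (5/3)) (2 - N) (sub_nonneg.2 h1) (sub_nonneg.2 h2)).trans_eq (by ring)

theorem z1 {N : ℝ} (h1 : 1 ≤ N) (h2 : N ≤ 2) : 0 ≤ 200 * N - 80 / 3 * N ^ 2 + 96 * N ^ 2 - 128 - 913 / 8 * N ^ 2 - 5 / 2 * N ^ 5 := by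
  have key : ∀ u v : ℝ, 0 ≤ u → 0 ≤ v → 0 ≤ (593/24) * v ^ 5 +
      (5315/24) * u ^ 1 * v ^ 4 +
      (13655/24) * u ^ 2 * v ^ 3 +
      (14405/24) * u ^ 3 * v ^ 2 +
      (730/3) * u ^ 4 * v ^ 1 +
      (77/6) * u ^ 5 := fun u v hu hv => by
    positivity
  exact (key (N - 1) (2 - N) (sub_nonneg.2 h1) (sub_nonneg.2 h2)).trans_eq (by ring)

/-- one-variable inequality -/
theorem q_nonneg {x : ℝ} (h1 : -2 ≤ x) (h2 : x ≤ 2) :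
    (1 - x / 2) * (11520 + (4 + 17 * x + 3 * x ^ 3) * (5 * (6 + 4 / 5 * x) ^ 2 - 16)) ≤
      40 / 3 * (6 + 4 / 5 * x) * (5 * (6 - 4 / 5 * x) ^ 2 - 16 - (4 + 17 * x + 3 * x ^ 3)) := by
  rcases le_total x 0 with h | h
  · have := q1 h1 h; linarith
  · have := q2 h h2; linarith

/-- step A -/
theorem stepA {x M : ℝ} (h1 : -2 ≤ x) (h2 : x ≤ 2) (hM : 0 < M) (hM2 : M ≤ 1 - x / 2) (g h : ℝ) :
    0 ≤ 40 / 3 * ((6 + 4 / 5 * x) / M) * h ^ 2 - 16 * (g - h) ^ 2 +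
      5 * ((6 - 4 / 5 * x) * g + (6 + 4 / 5 * x) * h) ^ 2 - (4 + 17 * x + 3 * x ^ 3) * g ^ 2 := by
  have hq := q_nonneg h1 h2
  have hT := T1 h1 h2
  obtain ⟨α, hα⟩ : ∃ α : ℝ, α = 4 + 17 * x + 3 * x ^ 3 := ⟨_, rfl⟩
  rw [← hα] at hq hT ⊢
  obtain ⟨r, hr⟩ : ∃ r : ℝ, r = (6 + 4 / 5 * x) / M := ⟨_, rfl⟩
  rw [← hr]
  have hrM : r * M = 6 + 4 / 5 * x := by rw [hr]; field_simp
  have hR : 0 < 6 + 4 / 5 * x := by linarith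
  have hr0 : 0 < r := by rw [hr]; positivity
  have hdet : 11520 + α * (5 * (6 + 4 / 5 * x) ^ 2 - 16) ≤
      40 / 3 * r * (5 * (6 - 4 / 5 * x) ^ 2 - 16 - α) := by
    have h3 : M * (11520 + α * (5 * (6 + 4 / 5 * x) ^ 2 - 16)) ≤
        M * (40 / 3 * r * (5 * (6 - 4 / 5 * x) ^ 2 - 16 - α)) := by
      calc M * (11520 + α * (5 * (6 + 4 / 5 * x) ^ 2 - 16)) ≤
          (1 - x / 2) * (11520 + α * (5 * (6 + 4 / 5 * x) ^ 2 - 16)) :=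
            mul_le_mul_of_nonneg_right hM2 hT
        _ ≤ _ := hq
        _ = M * (40 / 3 * r * (5 * (6 - 4 / 5 * x) ^ 2 - 16 - α)) := by rw [← hrM]; ring
    exact le_of_mul_le_mul_left h3 hM
  have hc : 0 < 40 / 3 * r - 16 + 5 * (6 + 4 / 5 * x) ^ 2 := by nlinarith
  have key : 0 ≤ (40 / 3 * r - 16 + 5 * (6 + 4 / 5 * x) ^ 2) * (40 / 3 * r * h ^ 2
      - 16 * (g - h) ^ 2 + 5 * ((6 - 4 / 5 * x) * g + (6 + 4 / 5 * x) * h) ^ 2 - α * g ^ 2) := by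
    have e : (40 / 3 * r - 16 + 5 * (6 + 4 / 5 * x) ^ 2) * (40 / 3 * r * h ^ 2
      - 16 * (g - h) ^ 2 + 5 * ((6 - 4 / 5 * x) * g + (6 + 4 / 5 * x) * h) ^ 2 - α * g ^ 2) =
      ((40 / 3 * r - 16 + 5 * (6 + 4 / 5 * x) ^ 2) * h +
        (16 + 5 * (6 - 4 / 5 * x) * (6 + 4 / 5 * x)) * g) ^ 2 +
      (40 / 3 * r * (5 * (6 - 4 / 5 * x) ^ 2 - 16 - α) -
        (11520 + α * (5 * (6 + 4 / 5 * x) ^ 2 - 16))) * g ^ 2 := by ring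
    rw [e]
    have := mul_nonneg (sub_nonneg.2 hdet) (sq_nonneg g)
    positivity
  exact nonneg_of_mul_nonneg_right key hc

/-- step T -/
theorem stepT {N x : ℝ} (hN : 0 < N) (hN2 : N ≤ 2) (h2 : x ≤ 2) (z t : ℝ) :
    0 ≤ (-(8 / 5) + 20 / 3 * ((6 - 4 / 5 * x) / N)) * t ^ 2 - 16 * N * (z * t) +
      5 / 2 * N ^ 3 * z ^ 2 := by
  have h3 : 128 / 5 / N ≤ -(8 / 5) + 20 / 3 * ((6 - 4 / 5 * x) / N) := by
    rw [div_le_iff₀ hN]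
    have : (-(8 / 5) + 20 / 3 * ((6 - 4 / 5 * x) / N)) * N = -(8 / 5) * N +
      20 / 3 * (6 - 4 / 5 * x) := by field_simp
    rw [this]; linarith
  have h4 := mul_le_mul_of_nonneg_right h3 (sq_nonneg t)
  have h5 : 128 / 5 / N * t ^ 2 - 16 * N * (z * t) + 5 / 2 * N ^ 3 * z ^ 2 =
      (128 / 5) * (t - 5 / 16 * N ^ 2 * z) ^ 2 / N := by
    field_simp
    ring
  have h6 : 0 ≤ (128 / 5) * (t - 5 / 16 * N ^ 2 * z) ^ 2 / N := by positivity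
  linarith

/-- bound of `N(1-κN)` -/
theorem b1 {N κ : ℝ} (hN : 0 < N) (hN2 : N ≤ 2) (hκ : κ ≤ 1) (hκ' : -1 ≤ κ)
    (hm : 6 * N ^ 2 - 8 ≤ 2 * κ * N ^ 3) : (N * (1 - κ * N)) ^ 2 ≤ 4 := by
  have u1 : -2 ≤ N * (1 - κ * N) := by nlinarith [mul_nonneg hN.le hN.le]
  have u2 : N * (1 - κ * N) ≤ 2 := by
    rcases le_total N 1 with h | h
    · nlinarith [mul_nonneg hN.le hN.le]
    · have h3 : N * (N * (1 - κ * N)) ≤ N * 2 := by nlinarith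
      exact le_of_mul_le_mul_left h3 hN
  nlinarith

/-- bound of `σ²N⁴` -/
theorem b2 {N κ : ℝ} (hN : 0 < N) (hN2 : N ≤ 2) (hκ : κ ≤ 1) (hκ' : -1 ≤ κ)
    (hm : 6 * N ^ 2 - 8 ≤ 2 * κ * N ^ 3) : (1 - κ ^ 2) * N ^ 4 ≤ 5 / 2 := by
  rcases le_total (N ^ 2) (4 / 3) with h | h
  · have h1 : (1 - κ ^ 2) * N ^ 4 ≤ N ^ 4 := by nlinarith [sq_nonneg (κ * N ^ 2)]
    have h2 : N ^ 4 = N ^ 2 * N ^ 2 := by ring
    nlinarith [sq_nonneg N]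
  · obtain ⟨y, hy⟩ : ∃ y, y = κ * N ^ 3 := ⟨_, rfl⟩
    obtain ⟨n, hn⟩ : ∃ n, n = N ^ 2 := ⟨_, rfl⟩
    have h1 : 3 * n - 4 ≤ y := by rw [hn, hy]; linarith
    have h2 : (3 * n - 4) ^ 2 ≤ y ^ 2 := by
      have : 0 ≤ 3 * n - 4 := by rw [hn]; linarith
      nlinarith
    have hn0 : 0 < n := by rw [hn]; positivity
    have hn4 : n ≤ 4 := by rw [hn]; nlinarith
    have hn3 : 4 / 3 ≤ n := by rw [hn]; exact h
    have h3 : n * ((1 - κ ^ 2) * N ^ 4) = n ^ 3 - y ^ 2 := by rw [hn, hy]; ring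
    have h4 : n * ((1 - κ ^ 2) * N ^ 4) ≤ n * (5 / 2) := by
      rw [h3]
      nlinarith [mul_nonneg (sub_nonneg.2 hn3) (sq_nonneg (n - 5 / 3)), sq_nonneg (n - 5/3), mul_nonneg (sub_nonneg.2 hn4) (sq_nonneg (n - 5 / 3))]
    exact le_of_mul_le_mul_left h4 hn0

/-- coefficient of `g²` -/
theorem G1 {N x : ℝ} (hN : 0 < N) (hN2 : N ≤ 2) (h1 : 2 * N - 2 ≤ x) (h2 : x ≤ N) :
    7 + 241 / 20 + 32 * N ≤ 40 / 3 * ((6 - 4 / 5 * x) / N) + (4 + 17 * x + 3 * x ^ 3) := by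
  have e : N * (40 / 3 * ((6 - 4 / 5 * x) / N) + (4 + 17 * x + 3 * x ^ 3)) =
    40 / 3 * (6 - 4 / 5 * x) + N * (4 + 17 * x + 3 * x ^ 3) := by field_simp
  have key : N * (7 + 241 / 20 + 32 * N) ≤ N * (40 / 3 * ((6 - 4 / 5 * x) / N) +
      (4 + 17 * x + 3 * x ^ 3)) := by
    rw [e]
    rcases le_total N (2 / 3) with h | h
    · have w1 : -24 ≤ 3 * x ^ 3 := by
        have : (-2 : ℝ) ^ 3 ≤ x ^ 3 := Odd.pow_le_pow (by decide) |>.2 (by linarith)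
        linarith
      have w2 : N * (-54) ≤ N * (4 + 17 * x + 3 * x ^ 3) :=
        mul_le_mul_of_nonneg_left (by linarith) hN.le
      nlinarith
    · have w1 : (2 * N - 2) ^ 3 ≤ x ^ 3 := Odd.pow_le_pow (by decide) |>.2 h1
      have w2 : N * (4 + 17 * x + 3 * (2 * N - 2) ^ 3) ≤ N * (4 + 17 * x + 3 * x ^ 3) :=
        mul_le_mul_of_nonneg_left (by linarith) hN.le
      have w3 : 0 ≤ (x - (2 * N - 2)) * (17 * N - 32 / 3) := mul_nonneg (by linarith) (by linarith)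
      have w4 : 0 ≤ 40 / 3 * (38 / 5 - 8 / 5 * N) +
        N * (4 + 17 * (2 * N - 2) + 3 * (2 * N - 2) ^ 3) - 381 / 20 * N - 32 * N ^ 2 := by
        rcases le_total N (4 / 3) with h' | h'
        · exact g1 h h'
        · rcases le_total N (5 / 3) with h'' | h''
          · exact g2 h' h''
          · exact g3 h'' hN2
      linarith
  exact le_of_mul_le_mul_left key hN

/-- coefficient of `z²` -/
theorem Z1 {N x κ : ℝ} (hN : 0 < N) (hN2 : N ≤ 2) (h2 : x ≤ N) (hκ' : -1 ≤ κ)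
    (hm : 6 * N ^ 2 - 8 ≤ 2 * κ * N ^ 3) :
    96 + 8 + 81 / 8 + 5 / 2 * N ^ 3 ≤ 100 / 3 * ((6 - 4 / 5 * x) / N) + 32 * κ * N := by
  have e : N * (100 / 3 * ((6 - 4 / 5 * x) / N) + 32 * κ * N) =
    100 / 3 * (6 - 4 / 5 * x) + 32 * κ * N ^ 2 := by field_simp
  have key : N * (96 + 8 + 81 / 8 + 5 / 2 * N ^ 3) ≤ N * (100 / 3 * ((6 - 4 / 5 * x) / N) +
      32 * κ * N) := by
    rw [e]
    rcases le_total N 1 with h | h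
    · have w1 : N ^ 2 ≤ 1 := by nlinarith
      have w2 : N ^ 4 ≤ 1 := by nlinarith [sq_nonneg N]
      have w3 : -N ^ 2 ≤ κ * N ^ 2 := by nlinarith [sq_nonneg N]
      have e4 : N * (96 + 8 + 81 / 8 + 5 / 2 * N ^ 3) = 913 / 8 * N + 5 / 2 * N ^ 4 := by ring
      rw [e4]
      linarith
    · have w := z1 h hN2
      have h3 : N * (N * (96 + 8 + 81 / 8 + 5 / 2 * N ^ 3)) ≤
          N * (100 / 3 * (6 - 4 / 5 * x) + 32 * κ * N ^ 2) := by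
        have w5 : N * x ≤ N * N := mul_le_mul_of_nonneg_left h2 hN.le
        linarith
      exact le_of_mul_le_mul_left h3 hN
  exact le_of_mul_le_mul_left key hN

/-- the discriminant -/
theorem disc {N κ : ℝ} (hN : 0 < N) (hN2 : N ≤ 2) (hκ : κ ≤ 1) (hκ' : -1 ≤ κ)
    (hm : 6 * N ^ 2 - 8 ≤ 2 * κ * N ^ 3) :
    1024 * N ^ 2 * (1 - κ ^ 2) ≤ 96 * (7 + 32 * N * (1 - κ)) := by
  have w1 : 0 ≤ N * (1 - κ) := mul_nonneg hN.le (by linarith)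
  have hNκ : N * (1 + κ) ≤ N * 2 := mul_le_mul_of_nonneg_left (by linarith) hN.le
  rcases le_total N (3 / 2) with h | h
  · have w2 : 0 ≤ 3072 - 1024 * (N * (1 + κ)) := by linarith
    have w3 := mul_nonneg w1 w2
    have e : N * (1 - κ) * (3072 - 1024 * (N * (1 + κ))) =
      96 * (32 * N * (1 - κ)) - 1024 * N ^ 2 * (1 - κ ^ 2) := by ring
    linarith
  · have w0 : 7 / 10 ≤ κ := by
      by_contra hc
      push Not at hc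
      have h3 : 0 < N ^ 3 := by positivity
      have h4 : κ * N ^ 3 < 7 / 10 * N ^ 3 := mul_lt_mul_of_pos_right hc h3
      have h5 : 7 / 5 * N ^ 3 - 6 * N ^ 2 + 8 ≤ 0 := by
        have w := mul_nonneg (mul_nonneg (sub_nonneg.2 h) (sub_nonneg.2 hN2)) hN.le
        nlinarith
      linarith
    have w2 : 0 ≤ 1 - κ := by linarith
    have w3 : N * (N * (1 + κ)) ≤ N * (N * 2) := mul_le_mul_of_nonneg_left hNκ hN.le
    have w4 : 1024 * (N * (N * (1 + κ))) - 3072 * N ≤ 2048 := by nlinarith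
    have w5 : (1 - κ) * (1024 * (N * (N * (1 + κ))) - 3072 * N) ≤ (1 - κ) * 2048 :=
      mul_le_mul_of_nonneg_left w4 w2
    have e : (1 - κ) * (1024 * (N * (N * (1 + κ))) - 3072 * N) =
      1024 * N ^ 2 * (1 - κ ^ 2) - 96 * (32 * N * (1 - κ)) := by ring
    linarith

/-- step E, the form -/
theorem stepE1 {N κ σ : ℝ} (hN : 0 < N) (hN2 : N ≤ 2) 
    (hks : κ ^ 2 + σ ^ 2 = 1) (hm : 6 * N ^ 2 - 8 ≤ 2 * κ * N ^ 3) (g z : ℝ) :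
    0 ≤ (7 + 32 * N * (1 - κ)) * g ^ 2 + 96 * z ^ 2 - 64 * N * σ * (g * z) := by
  have hκ : κ ≤ 1 := by nlinarith [sq_nonneg σ]
  have hκ' : -1 ≤ κ := by nlinarith [sq_nonneg σ]
  have hd := disc hN hN2 hκ hκ' hm
  have hσ : σ ^ 2 = 1 - κ ^ 2 := by linarith
  have e : 96 * ((7 + 32 * N * (1 - κ)) * g ^ 2 + 96 * z ^ 2 - 64 * N * σ * (g * z)) =
      (96 * z - 32 * N * σ * g) ^ 2 + (96 * (7 + 32 * N * (1 - κ)) -
        1024 * N ^ 2 * σ ^ 2) * g ^ 2 := by ring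
  have h3 : 0 ≤ (96 * (7 + 32 * N * (1 - κ)) - 1024 * N ^ 2 * σ ^ 2) * g ^ 2 := by
    rw [hσ]; exact mul_nonneg (sub_nonneg.2 hd) (sq_nonneg g)
  have h4 := sq_nonneg (96 * z - 32 * N * σ * g)
  linarith

/-- step E, the square -/
theorem stepE2 {N κ σ : ℝ} (hN : 0 < N) (hN2 : N ≤ 2) 
    (hks : κ ^ 2 + σ ^ 2 = 1) (hm : 6 * N ^ 2 - 8 ≤ 2 * κ * N ^ 3) (g z : ℝ) :
    (N * g - N ^ 2 * (κ * g + σ * z)) ^ 2 ≤ 5 * g ^ 2 + 25 / 2 * z ^ 2 := by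
  have hκ : κ ≤ 1 := by nlinarith [sq_nonneg σ]
  have hκ' : -1 ≤ κ := by nlinarith [sq_nonneg σ]
  have c1 := b1 hN hN2 hκ hκ' hm
  have c2 := b2 hN hN2 hκ hκ' hm
  have hσ : 1 - κ ^ 2 = σ ^ 2 := by linarith
  rw [hσ] at c2
  have e2 := mul_le_mul_of_nonneg_right c1 (sq_nonneg g)
  have e3 := mul_le_mul_of_nonneg_right c2 (sq_nonneg z)
  have e4 := sq_nonneg (1 / 2 * (N * (1 - κ * N) * g) + 2 * (N ^ 2 * σ * z))
  linarith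

/-- step E -/
theorem stepE {N x κ σ : ℝ} (hN : 0 < N) (hN2 : N ≤ 2) (h1 : 2 * N - 2 ≤ x) (h2 : x ≤ N)
    (hks : κ ^ 2 + σ ^ 2 = 1) (hm : 6 * N ^ 2 - 8 ≤ 2 * κ * N ^ 3) (g z : ℝ) :
    0 ≤ (-8 + 40 / 3 * ((6 - 4 / 5 * x) / N) - 32 * κ * N + (4 + 17 * x + 3 * x ^ 3)) * g ^ 2 +
      (-8 + 100 / 3 * ((6 - 4 / 5 * x) / N) + 32 * κ * N - 5 / 2 * N ^ 3) * z ^ 2 -
      64 * N * σ * (g * z) - 81 / 100 * (N * g - N ^ 2 * (κ * g + σ * z)) ^ 2 := by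
  have hκ' : -1 ≤ κ := by nlinarith [sq_nonneg σ]
  have c3 := G1 hN hN2 h1 h2
  have c4 := Z1 hN hN2 h2 hκ' hm
  have hD := stepE2 hN hN2 hks hm g z
  have hmain := stepE1 hN hN2 hks hm g z
  obtain ⟨r, hr⟩ : ∃ r : ℝ, r = (6 - 4 / 5 * x) / N := ⟨_, rfl⟩
  obtain ⟨α, hα⟩ : ∃ α : ℝ, α = 4 + 17 * x + 3 * x ^ 3 := ⟨_, rfl⟩
  rw [← hr, ← hα] at c3 ⊢
  rw [← hr] at c4
  have hg := mul_le_mul_of_nonneg_right c3 (sq_nonneg g)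
  have hz := mul_le_mul_of_nonneg_right c4 (sq_nonneg z)
  linarith

/-- **the algebraic inequality**, one coordinate -/
theorem coord {N M κ σ : ℝ} (hN : 0 < N) (hM : 0 < M) (hNM : N + M ≤ 2)
    (hks : κ ^ 2 + σ ^ 2 = 1) (hm : 6 * N ^ 2 - 8 ≤ 2 * κ * N ^ 3) (g h z t : ℝ) :
    0 ≤ -8 * (g ^ 2 + z ^ 2 + t ^ 2 / 5) +
      20 * ((6 - 4 / 5 * (N - M)) / N * (2 / 3 * g ^ 2 + 5 / 3 * z ^ 2 + 1 / 3 * t ^ 2) +
        2 / 3 * ((6 + 4 / 5 * (N - M)) / M) * h ^ 2 - 4 / 5 * (g - h) ^ 2) -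
      4 * N * (8 * κ * (g ^ 2 - z ^ 2) + 16 * σ * (g * z) + 4 * (z * t)) +
      6 * ((6 - 4 / 5 * (N - M)) * g + (6 + 4 / 5 * (N - M)) * h) ^ 2 +
      9 / 5 * ((N * g - N ^ 2 * (κ * g + σ * z)) *
        ((6 - 4 / 5 * (N - M)) * g + (6 + 4 / 5 * (N - M)) * h)) := by
  have hN2 : N ≤ 2 := by linarith
  have a1 := stepA (x := N - M) (M := M) (by linarith) (by linarith) hM (by linarith) g h
  have a2 := stepT (N := N) (x := N - M) hN hN2 (by linarith) z t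
  have a3 := stepE (N := N) (x := N - M) hN hN2 (by linarith) (by linarith) hks hm g z
  have a4 := sq_nonneg (((6 - 4 / 5 * (N - M)) * g + (6 + 4 / 5 * (N - M)) * h) +
    9 / 10 * (N * g - N ^ 2 * (κ * g + σ * z)))
  linarith

/-- the form multiplied by `K - 20` -/
theorem coordF {N M : ℝ} (hN : 0 < N) (hM : 0 < M) (hNM : N + M ≤ 2) (g h z t : ℝ) :
    0 ≤ (6 - 4 / 5 * (N - M)) / N * (2 / 3 * g ^ 2 + 5 / 3 * z ^ 2 + 1 / 3 * t ^ 2) +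
        2 / 3 * ((6 + 4 / 5 * (N - M)) / M) * h ^ 2 - 4 / 5 * (g - h) ^ 2 := by
  obtain ⟨A, hA⟩ : ∃ A : ℝ, A = (6 - 4 / 5 * (N - M)) / N := ⟨_, rfl⟩
  obtain ⟨B, hB⟩ : ∃ B : ℝ, B = (6 + 4 / 5 * (N - M)) / M := ⟨_, rfl⟩
  have hAN : A * N = 6 - 4 / 5 * (N - M) := by rw [hA]; field_simp
  have hBM : B * M = 6 + 4 / 5 * (N - M) := by rw [hB]; field_simp
  rw [← hA, ← hB]
  have hA1 : 11 / 5 ≤ A := by
    by_contra hc
    push Not at hc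
    nlinarith
  have hNM0 : 0 < N * M := mul_pos hN hM
  have hdet : 6 / 5 * (A + B) ≤ A * B := by
    have h3 : N * M * (6 / 5 * (A + B)) ≤ N * M * (A * B) := by
      have e1 : N * M * (6 / 5 * (A + B)) = 6 / 5 * ((A * N) * M + (B * M) * N) := by ring
      have e2 : N * M * (A * B) = (A * N) * (B * M) := by ring
      rw [e1, e2, hAN, hBM]
      nlinarith
    exact le_of_mul_le_mul_left h3 hNM0
  have h5 : 0 ≤ (2 / 3 * A - 4 / 5) * (2 / 3 * A * g ^ 2 + 2 / 3 * B * h ^ 2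
      - 4 / 5 * (g - h) ^ 2) := by
    have e : (2 / 3 * A - 4 / 5) * (2 / 3 * A * g ^ 2 + 2 / 3 * B * h ^ 2
      - 4 / 5 * (g - h) ^ 2) = ((2 / 3 * A - 4 / 5) * g + 4 / 5 * h) ^ 2 +
        4 / 9 * (A * B - 6 / 5 * (A + B)) * h ^ 2 := by ring
    rw [e]
    have : 0 ≤ 4 / 9 * (A * B - 6 / 5 * (A + B)) * h ^ 2 :=
      mul_nonneg (by linarith) (sq_nonneg h)
    positivity
  have h6 := nonneg_of_mul_nonneg_right h5 (by linarith)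
  have h7 : 0 ≤ A * (5 / 3 * z ^ 2 + 1 / 3 * t ^ 2) := by
    have : 0 ≤ A := by linarith
    positivity
  linarith

/-- Young's inequality for the square of `u` -/
theorem young {K p Y D : ℝ} (hp0 : 0 < p) (hp2 : p ≤ 618 / 11) :
    (3 / 5 * K - 6) * Y ^ 2 + 9 / 5 * (D * Y) ≤ 6 / 7 * ((K * Y + 3 * D) ^ 2 / p) := by
  have e : 6 / 7 * ((K * Y + 3 * D) ^ 2 / p) = 3 / 5 * (K * Y + 3 * D) * Y -
      21 / 200 * p * Y ^ 2 + 6 / 7 * ((K * Y + 3 * D - 7 / 20 * p * Y) ^ 2 / p) := by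
    field_simp
    ring
  rw [e]
  have h1 : 0 ≤ 6 / 7 * ((K * Y + 3 * D - 7 / 20 * p * Y) ^ 2 / p) := by positivity
  have h2 : p * Y ^ 2 ≤ 618 / 11 * Y ^ 2 := mul_le_mul_of_nonneg_right hp2 (sq_nonneg Y)
  have h3 := sq_nonneg Y
  linarith

/-- the constant part -/
theorem const_ge {K N M κ : ℝ} (hK : 0 ≤ K) (hN : 0 < N) (hM : 0 < M) (hNM : N + M ≤ 2)
    (hκ : κ ≤ 1) :
    0 ≤ K * (6 - 4 / 5 * (N - M)) * (6 * N * (1 - κ * N)) +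
      K * (6 + 4 / 5 * (N - M)) * (6 * M * (1 - M)) +
      33 * (K * (6 * (2 - N - M) + 2 / 5 * (N - M) ^ 2)) := by
  have h1 : 6 * N * (1 - N) ≤ 6 * N * (1 - κ * N) := by nlinarith [mul_pos hN hN]
  have h2 : (6 - 4 / 5 * (N - M)) * (6 * N * (1 - N)) ≤
      (6 - 4 / 5 * (N - M)) * (6 * N * (1 - κ * N)) :=
    mul_le_mul_of_nonneg_left h1 (by linarith)
  have h3 : 0 ≤ (6 - 4 / 5 * (N - M)) * (6 * N * (1 - N)) +
      (6 + 4 / 5 * (N - M)) * (6 * M * (1 - M)) +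
      33 * (6 * (2 - N - M) + 2 / 5 * (N - M) ^ 2) := by
    have e : (6 - 4 / 5 * (N - M)) * (6 * N * (1 - N)) +
      (6 + 4 / 5 * (N - M)) * (6 * M * (1 - M)) +
      33 * (6 * (2 - N - M) + 2 / 5 * (N - M) ^ 2) =
      (2 - N - M) * (234 - 18 * (2 - N - M) - 24 / 5 * (N - M) ^ 2) := by ring
    rw [e]
    have : (N - M) ^ 2 ≤ 4 := by nlinarith
    exact mul_nonneg (by linarith) (by linarith)
  have h4 := mul_nonneg hK h3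
  have h5 := mul_le_mul_of_nonneg_left h2 hK
  linarith

end Vale.Agent.P211.H626
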