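import Vale.Agent.P211.H56.CoreOf2
import Vale.Agent.P211.H626.ApAlg

set_option linter.all false

/-! P211 (helper626): the second a-priori bound
`|∇W⁺|²/10 ≤ 20 (6 (2 - N - M) + (2/5) (N - M)²)`. -/

namespace Vale.Agent.P211.H626

open Topology Filter MeasureTheory Set
open scoped ContDiff
open Vale.Agent.P211 Vale.Agent.P211.S4 Vale.Agent.P211.H56

/-! ### the algebra with vectors -/

/-- the total inequality -/
theorem fin_pos {K N M κ σ p : ℝ} {g z t u h : Fin 4 → ℝ} (hK : 20 ≤ K) (hN : 0 < N) (hM : 0 < M)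
    (hNM : N + M ≤ 2) (hks : κ ^ 2 + σ ^ 2 = 1) (hm : 6 * N ^ 2 - 8 ≤ 2 * κ * N ^ 3)
    (hp : p = H56.dt g g + H56.dt z z + H56.dt t t / 5)
    (hpK : p = K * (6 * (2 - N - M) + 2 / 5 * (N - M) ^ 2)) (hp0 : 0 < p) (hp2 : p ≤ 618 / 11)
    (hu : ∀ i, u i = -(K * ((6 - 4 / 5 * (N - M)) * g i + (6 + 4 / 5 * (N - M)) * h i)
      + 3 * (N * g i - N ^ 2 * (κ * g i + σ * z i)))) :
    0 < 6 / 7 * (H56.dt u u / p) + 18 * (N ^ 2 - 2 * κ * N ^ 3 + N ^ 4) + 26 * p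
      - 4 * N * (8 * κ * (H56.dt g g - H56.dt z z) + 16 * σ * H56.dt g z + 4 * H56.dt z t)
      + K * (6 - 4 / 5 * (N - M)) * ((5 / 3 * p + 6 * N ^ 2 - 6 * κ * N ^ 3 - H56.dt g g) / N)
      + K * (6 + 4 / 5 * (N - M)) * ((2 / 3 * H56.dt h h + 6 * M ^ 2 - 6 * M ^ 3) / M)
      - 4 / 5 * K * (H56.dt g g - 2 * H56.dt g h + H56.dt h h) := by
  have hκ : κ ≤ 1 := by nlinarith [sq_nonneg σ]
  have hκ' : -1 ≤ κ := by nlinarith [sq_nonneg σ]
  -- the square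
  have s1 : ∑ i, ((3 / 5 * K - 6) * ((6 - 4 / 5 * (N - M)) * g i +
        (6 + 4 / 5 * (N - M)) * h i) ^ 2 + 9 / 5 * ((N * g i - N ^ 2 * (κ * g i + σ * z i)) *
        ((6 - 4 / 5 * (N - M)) * g i + (6 + 4 / 5 * (N - M)) * h i))) ≤
      6 / 7 * (H56.dt u u / p) := by
    have e : 6 / 7 * (H56.dt u u / p) = ∑ i, 6 / 7 * ((K * ((6 - 4 / 5 * (N - M)) * g i +
        (6 + 4 / 5 * (N - M)) * h i) + 3 * (N * g i - N ^ 2 * (κ * g i + σ * z i))) ^ 2 / p) := by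
      unfold H56.dt
      rw [Finset.sum_div, Finset.mul_sum]
      refine Finset.sum_congr rfl fun i _ => ?_
      rw [hu i]; ring
    rw [e]
    exact Finset.sum_le_sum fun i _ => young hp0 hp2
  -- the constant part
  have s2 := const_ge (K := K) (κ := κ) (by linarith) hN hM hNM hκ
  rw [← hpK] at s2
  -- the coordinates
  have s3 : 0 ≤ ∑ i, (-8 * (g i ^ 2 + z i ^ 2 + t i ^ 2 / 5) +
      20 * ((6 - 4 / 5 * (N - M)) / N * (2 / 3 * g i ^ 2 + 5 / 3 * z i ^ 2 + 1 / 3 * t i ^ 2) +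
        2 / 3 * ((6 + 4 / 5 * (N - M)) / M) * h i ^ 2 - 4 / 5 * (g i - h i) ^ 2) -
      4 * N * (8 * κ * (g i ^ 2 - z i ^ 2) + 16 * σ * (g i * z i) + 4 * (z i * t i)) +
      6 * ((6 - 4 / 5 * (N - M)) * g i + (6 + 4 / 5 * (N - M)) * h i) ^ 2 +
      9 / 5 * ((N * g i - N ^ 2 * (κ * g i + σ * z i)) *
        ((6 - 4 / 5 * (N - M)) * g i + (6 + 4 / 5 * (N - M)) * h i))) :=
    Finset.sum_nonneg fun i _ => coord hN hM hNM hks hm _ _ _ _
  have s4 : 0 ≤ ∑ i, (K - 20) * ((6 - 4 / 5 * (N - M)) / N * (2 / 3 * g i ^ 2 +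
      5 / 3 * z i ^ 2 + 1 / 3 * t i ^ 2) + 2 / 3 * ((6 + 4 / 5 * (N - M)) / M) * h i ^ 2 -
      4 / 5 * (g i - h i) ^ 2 + 3 / 5 * ((6 - 4 / 5 * (N - M)) * g i +
        (6 + 4 / 5 * (N - M)) * h i) ^ 2) :=
    Finset.sum_nonneg fun i _ => mul_nonneg (by linarith) (add_nonneg (coordF hN hM hNM _ _ _ _)
      (by positivity))
  have s5 : 0 ≤ 18 * (N ^ 2 - 2 * κ * N ^ 3 + N ^ 4) := by
    have : N ^ 2 - 2 * κ * N ^ 3 + N ^ 4 = (N * (1 - N)) ^ 2 + 2 * (1 - κ) * N ^ 3 := by ring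
    rw [this]
    have : 0 ≤ 2 * (1 - κ) * N ^ 3 := mul_nonneg (by linarith) (by positivity)
    positivity
  have e1 : K * (6 - 4 / 5 * (N - M)) * ((5 / 3 * p + 6 * N ^ 2 - 6 * κ * N ^ 3 - H56.dt g g) / N) =
      K * ((6 - 4 / 5 * (N - M)) / N) * (5 / 3 * p - H56.dt g g) +
      K * (6 - 4 / 5 * (N - M)) * (6 * N * (1 - κ * N)) := by
    field_simp
    ring
  have e2 : K * (6 + 4 / 5 * (N - M)) * ((2 / 3 * H56.dt h h + 6 * M ^ 2 - 6 * M ^ 3) / M) =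
      K * ((6 + 4 / 5 * (N - M)) / M) * (2 / 3 * H56.dt h h) +
      K * (6 + 4 / 5 * (N - M)) * (6 * M * (1 - M)) := by
    field_simp
    ring
  rw [e1, e2]
  generalize (6 - 4 / 5 * (N - M)) / N = A at *
  generalize (6 + 4 / 5 * (N - M)) / M = B at *
  generalize 6 / 7 * (H56.dt u u / p) = V at *
  have e3 : (26 : ℝ) * p = p + 33 * p - 8 * p := by ring
  rw [e3]
  have e4 : 8 * p = 8 * (H56.dt g g + H56.dt z z + H56.dt t t / 5) := by rw [hp]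
  have e5 : K * A * (5 / 3 * p - H56.dt g g) = K * A * (5 / 3 * (H56.dt g g + H56.dt z z + H56.dt t t / 5) - H56.dt g g) := by
    rw [← hp]
  rw [e4, e5]
  simp only [H56.dt, Fin.sum_univ_four] at *
  linarith

/-! ### a smooth square root -/

theorem exists_sqrt {a : ℝ} (ha : 0 < a) :
    ∃ γ : ℝ → ℝ, ContDiff ℝ ∞ γ ∧ ∀ᶠ x in 𝓝 a, γ x = Real.sqrt x := by
  obtain ⟨ρ, hρ⟩ : ∃ ρ : ℝ → ℝ, ρ = fun x => a / 4 + (x - a / 4) *
    Real.smoothTransition ((x - a / 4) / (a / 4)) := ⟨_, rfl⟩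
  have h1 : ContDiff ℝ ∞ ρ := by
    rw [hρ]
    have h2 : ContDiff ℝ ∞ (fun x : ℝ => Real.smoothTransition ((x - a / 4) / (a / 4))) :=
      Real.smoothTransition.contDiff.comp (by fun_prop)
    fun_prop
  have h2 : ∀ x, 0 < ρ x := by
    intro x
    rw [hρ]
    show 0 < a / 4 + (x - a / 4) * Real.smoothTransition ((x - a / 4) / (a / 4))
    rcases le_total x (a / 4) with h | h
    · rw [Real.smoothTransition.zero_of_nonpos (div_nonpos_of_nonpos_of_nonneg (by linarith)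
        (by linarith))]
      linarith
    · have := Real.smoothTransition.nonneg ((x - a / 4) / (a / 4))
      have h3 : 0 ≤ (x - a / 4) * Real.smoothTransition ((x - a / 4) / (a / 4)) :=
        mul_nonneg (by linarith) this
      linarith
  refine ⟨fun x => Real.sqrt (ρ x), h1.sqrt fun x => (h2 x).ne', ?_⟩
  filter_upwards [Ioi_mem_nhds (show a / 2 < a by linarith)] with x hx
  have hx' : a / 2 < x := hx
  have : ρ x = x := by
    rw [hρ]
    show a / 4 + (x - a / 4) * Real.smoothTransition ((x - a / 4) / (a / 4)) = x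
    rw [Real.smoothTransition.one_of_one_le (by rw [le_div_iff₀ (by linarith)]; linarith)]
    ring
  rw [this]

theorem sqrt_derivs {N : ℝ} (hN : 0 < N) {γ : ℝ → ℝ}
    (h : ∀ᶠ x in 𝓝 (N ^ 2), γ x = Real.sqrt x) :
    γ (N ^ 2) = N ∧ deriv γ (N ^ 2) = 1 / (2 * N) ∧ deriv (deriv γ) (N ^ 2) = -1 / (4 * N ^ 3) := by
  have hs : Real.sqrt (N ^ 2) = N := Real.sqrt_sq hN.le
  have hN2 : 0 < N ^ 2 := by positivity
  have h1 : γ =ᶠ[𝓝 (N ^ 2)] Real.sqrt := h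
  have h2 : deriv γ =ᶠ[𝓝 (N ^ 2)] fun x => 1 / (2 * Real.sqrt x) := by
    filter_upwards [h1.eventuallyEq_nhds, Ioi_mem_nhds hN2] with x hx hx0
    rw [hx.deriv_eq]
    exact (Real.hasDerivAt_sqrt (ne_of_gt hx0)).deriv
  refine ⟨by rw [h1.self_of_nhds, hs], ?_, ?_⟩
  · rw [h2.self_of_nhds]
    show 1 / (2 * Real.sqrt (N ^ 2)) = _
    rw [hs]
  rw [h2.deriv_eq]
  have h3 : HasDerivAt (fun x : ℝ => 1 / (2 * Real.sqrt x)) (-(2 * (1 / (2 * N))) /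
      (2 * N) ^ 2) (N ^ 2) := by
    have h4 := (Real.hasDerivAt_sqrt hN2.ne').const_mul 2
    rw [hs] at h4
    have h5 := h4.inv (by rw [hs]; positivity)
    rw [hs] at h5
    have e : (fun x : ℝ => 1 / (2 * Real.sqrt x)) = (fun y : ℝ => 2 * Real.sqrt y)⁻¹ := by
      funext x
      show 1 / (2 * Real.sqrt x) = (2 * Real.sqrt x)⁻¹
      rw [one_div]
    rw [e]
    exact h5
  rw [h3.deriv]
  field_simp
  ring

variable {M 𝒪 V : Type*} [TopologicalSpace M] [CommRing 𝒪] [Algebra ℝ 𝒪]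
    [AddCommGroup V] [Module 𝒪 V] {G : Geo2 M 𝒪 V} {om : V → V → V → V → 𝒪}

/-- local square root of a function -/
theorem exists_root (n : 𝒪) {q0 : M} {N : ℝ} (hN : 0 < N) (hn : G.ev q0 n = N ^ 2) :
    ∃ ν : 𝒪, (∀ᶠ q in 𝓝 q0, G.ev q ν = Real.sqrt (G.ev q n)) ∧ G.ev q0 ν = N ∧
      (∀ X, G.ev q0 (G.D X ν) = G.ev q0 (G.D X n) / (2 * N)) ∧
      G.ev q0 (G.lap ν) = G.ev q0 (G.lap n) / (2 * N) -
        G.ev q0 (G.g (G.grad n) (G.grad n)) / (4 * N ^ 3) := by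
  obtain ⟨γ, hγ, hγ2⟩ := exists_sqrt (show 0 < N ^ 2 by positivity)
  obtain ⟨ν, h1, h2, h3⟩ := comp_lap (G := G) n γ fun q => hγ.contDiffAt
  obtain ⟨k1, k2, k3⟩ := sqrt_derivs hN hγ2
  refine ⟨ν, ?_, by rw [h1, hn, k1], fun X => by rw [h2, hn, k2]; ring, by
    rw [h3, hn, k2, k3]; ring⟩
  have h4 : Tendsto (fun q => G.ev q n) (𝓝 q0) (𝓝 (N ^ 2)) := by
    rw [← hn]; exact (G.ev_cont n).tendsto q0
  filter_upwards [h4.eventually hγ2] with q hq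
  rw [h1, hq]

/-- the comparison function -/
noncomputable def Th (G : Geo2 M 𝒪 V) (n m : 𝒪) (q : M) : ℝ :=
  6 * (2 - Real.sqrt (G.ev q n) - Real.sqrt (G.ev q m)) +
    2 / 5 * (Real.sqrt (G.ev q n) - Real.sqrt (G.ev q m)) ^ 2

theorem Th_cont (n m : 𝒪) : Continuous (Th G n m) := by
  have h1 : Continuous fun q => Real.sqrt (G.ev q n) := Real.continuous_sqrt.comp (G.ev_cont n)
  have h2 : Continuous fun q => Real.sqrt (G.ev q m) := Real.continuous_sqrt.comp (G.ev_cont m)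
  unfold Th
  fun_prop

/-- **the interior case** -/
theorem interior {n dl b m dl' b' : 𝒪} {q0 : M} {P : Pt} (hP : AtP G n dl b m dl' b' q0 P)
    (hN : 0 < P.N) (hM : 0 < P.M) {K : ℝ} (hK : 20 ≤ K) (hmax : ∀ q, G.ev q b ≤ K * Th G n m q)
    (heq : G.ev q0 b = K * Th G n m q0) (hp0 : 0 < P.p) (hp2 : P.p ≤ 618 / 11) : False := by
  obtain ⟨F, Q, κ', σ', Q', z', t', u', hF, hok, hPN, hPM, hPp, hSV, hSV'⟩ := hP
  obtain ⟨ν, a1, a2, a3, a4⟩ := exists_root (G := G) n hN hSV.n_eq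
  obtain ⟨μ, c1, c2, c3, c4⟩ := exists_root (G := G) m hM hSV'.n_eq
  obtain ⟨δ, hδ⟩ : ∃ δ : 𝒪, δ = ν - μ := ⟨_, rfl⟩
  obtain ⟨f, hf⟩ : ∃ f : 𝒪, f = algebraMap ℝ 𝒪 (12 * K) + (-(6 * K)) • ν + (-(6 * K)) • μ +
    (2 / 5 * K) • (δ * δ) + (-1 : ℝ) • b := ⟨_, rfl⟩
  have hev : ∀ q, G.ev q f = 12 * K - 6 * K * G.ev q ν - 6 * K * G.ev q μ +
      2 / 5 * K * (G.ev q ν - G.ev q μ) ^ 2 - G.ev q b := by
    intro q
    rw [hf, hδ]
    simp only [map_add, map_smul, map_mul, map_sub, Geom.ev_alg, smul_eq_mul]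
    ring
  have hmin : IsLocalMin (fun q => G.ev q f) q0 := by
    have h0 : G.ev q0 f = 0 := by
      rw [hev, heq, Th, a1.self_of_nhds, c1.self_of_nhds]
      ring
    show ∀ᶠ q in 𝓝 q0, G.ev q0 f ≤ G.ev q f
    rw [h0]
    filter_upwards [a1, c1] with q h1 h2
    have h3 := hmax q
    rw [hev, h1, h2]
    unfold Th at h3
    linarith
  have hD := D_zero_of_min hmin
  have hL := lap_nonneg_of_min hmin
  -- the differential
  have hDδ : ∀ X, G.ev q0 (G.D X δ) = G.ev q0 (G.D X ν) - G.ev q0 (G.D X μ) := fun X => by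
    rw [hδ, D_sub, map_sub]
  have hδ0 : G.ev q0 δ = P.N - P.M := by rw [hδ, map_sub, a2, c2]
  have hDf : ∀ X, G.ev q0 (G.D X f) = -(6 * K) * G.ev q0 (G.D X ν) - 6 * K * G.ev q0 (G.D X μ) +
      4 / 5 * K * ((P.N - P.M) * (G.ev q0 (G.D X ν) - G.ev q0 (G.D X μ))) -
        G.ev q0 (G.D X b) := by
    intro X
    rw [hf, G.D_add, G.D_add, G.D_add, G.D_add, D_alg, D_smul_real, D_smul_real, D_smul_real,
      D_smul_real, G.D_mul]
    simp only [map_add, map_smul, map_mul, map_zero, smul_eq_mul, hDδ, hδ0]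
    ring
  have hg : ∀ i, G.ev q0 (G.D (F i) ν) = P.g i := fun i => by rw [a3, hSV.dn0 i]
  have hh : ∀ i, G.ev q0 (G.D (F i) μ) = P.h i := fun i => by rw [c3, hSV'.dn0 i]
  have hu : ∀ i, P.u i = -(K * ((6 - 4 / 5 * (P.N - P.M)) * P.g i +
      (6 + 4 / 5 * (P.N - P.M)) * P.h i)
      + 3 * (P.N * P.g i - P.N ^ 2 * (P.κ * P.g i + P.σ * P.z i))) := by
    intro i
    have h1 := hD (F i)
    rw [hDf, hg, hh, hSV.db i] at h1
    linarith
  -- the Laplacian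
  have hgg : G.ev q0 (G.g (G.grad n) (G.grad n)) = 4 * P.N ^ 2 * H56.dt P.g P.g := by
    have := ipg_dt (G := G) n n hF
    unfold ipg at this
    rw [this]
    simp only [hSV.dn, H56.dt, Fin.sum_univ_four]
    ring
  have hhh : G.ev q0 (G.g (G.grad m) (G.grad m)) = 4 * P.M ^ 2 * H56.dt P.h P.h := by
    have := ipg_dt (G := G) m m hF
    unfold ipg at this
    rw [this]
    simp only [hSV'.dn, H56.dt, Fin.sum_univ_four]
    ring
  have hdd : G.ev q0 (G.g (G.grad δ) (G.grad δ)) =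
      H56.dt P.g P.g - 2 * H56.dt P.g P.h + H56.dt P.h P.h := by
    have := ipg_dt (G := G) δ δ hF
    unfold ipg at this
    rw [this]
    simp only [hDδ, hg, hh, H56.dt, Fin.sum_univ_four]
    ring
  have hLf : G.ev q0 (G.lap f) = -(K * (6 - 4 / 5 * (P.N - P.M))) * G.ev q0 (G.lap ν) -
      K * (6 + 4 / 5 * (P.N - P.M)) * G.ev q0 (G.lap μ) +
      4 / 5 * K * (H56.dt P.g P.g - 2 * H56.dt P.g P.h + H56.dt P.h P.h) - G.ev q0 (G.lap b) := by
    rw [hf, H56.lap_add, H56.lap_add, H56.lap_add, H56.lap_add, lap_alg', H56.lap_smul, H56.lap_smul,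
      H56.lap_smul, H56.lap_smul, H56.lap_mul]
    simp only [map_add, map_smul, map_mul, map_zero, smul_eq_mul, hdd, hδ0]
    have h1 : G.ev q0 (G.lap δ) = G.ev q0 (G.lap ν) - G.ev q0 (G.lap μ) := by
      rw [hδ, H56.lap_sub, map_sub]
    have h2 : G.ev q0 (2 : 𝒪) = 2 := map_ofNat _ 2
    rw [h1, h2]
    ring
  have hlb := lapb_ge hPp hSV hp0.le
  have hp : P.p = H56.dt P.g P.g + H56.dt P.z P.z + H56.dt P.t P.t / 5 := hok.norm
  have hbm : H56.dt P.h P.h ≤ G.ev q0 b' := by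
    rw [hSV'.b_eq]
    have := H56.dt_self_nonneg z'
    have := H56.dt_self_nonneg t'
    linarith
  have hκ' : κ' ≤ 1 := by nlinarith [hSV'.ks, sq_nonneg σ']
  have hLν : G.ev q0 (G.lap ν) = (5 / 3 * P.p + 6 * P.N ^ 2 - 6 * P.κ * P.N ^ 3
      - H56.dt P.g P.g) / P.N := by
    rw [a4, hSV.lap_n, ← hPp, hgg]
    field_simp
    ring
  have hLμ : (2 / 3 * H56.dt P.h P.h + 6 * P.M ^ 2 - 6 * P.M ^ 3) / P.M ≤ G.ev q0 (G.lap μ) := by
    rw [c4, hSV'.lap_n, hhh]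
    have e : (10 / 3 * G.ev q0 b' + 12 * P.M ^ 2 - 12 * κ' * P.M ^ 3) / (2 * P.M) -
        4 * P.M ^ 2 * H56.dt P.h P.h / (4 * P.M ^ 3) = (5 / 3 * G.ev q0 b' + 6 * P.M ^ 2 -
        6 * κ' * P.M ^ 3 - H56.dt P.h P.h) / P.M := by
      field_simp
      ring
    rw [e]
    refine div_le_div_of_nonneg_right ?_ hM.le
    have : κ' * P.M ^ 3 ≤ 1 * P.M ^ 3 := mul_le_mul_of_nonneg_right hκ' (by positivity)
    linarith
  have hNM := hok.NM
  have hpK : P.p = K * (6 * (2 - P.N - P.M) + 2 / 5 * (P.N - P.M) ^ 2) := by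
    rw [hPp, heq, Th, ← a1.self_of_nhds, ← c1.self_of_nhds, a2, c2]
  have key := fin_pos (K := K) (t := P.t) hK hN hM hNM hok.ks hok.kmin' hp hpK hp0 hp2 hu
  rw [hLf, hLν] at hL
  have h5 : K * (6 + 4 / 5 * (P.N - P.M)) *
      ((2 / 3 * H56.dt P.h P.h + 6 * P.M ^ 2 - 6 * P.M ^ 3) / P.M) ≤
      K * (6 + 4 / 5 * (P.N - P.M)) * G.ev q0 (G.lap μ) :=
    mul_le_mul_of_nonneg_left hLμ (mul_nonneg (by linarith) (by linarith))
  unfold Pt.lB at hlb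
  linarith

/-- **the case `N = 0`** -/
theorem zero_case {n dl b m dl' b' : 𝒪} {q0 : M} {P : Pt} (hP : AtP G n dl b m dl' b' q0 P)
    (hn0 : ∀ q, 0 ≤ G.ev q n)
    (hN : P.N = 0) (hM : 0 < P.M) {K : ℝ} (hK : 0 < K) (hmax : ∀ q, G.ev q b ≤ K * Th G n m q)
    (heq : G.ev q0 b = K * Th G n m q0) (hp0 : 0 < P.p) : False := by
  obtain ⟨F, Q, κ', σ', Q', z', t', u', hF, hok, hPN, hPM, hPp, hSV, hSV'⟩ := hP
  obtain ⟨μ, c1, c2, c3, c4⟩ := exists_root (G := G) m hM hSV'.n_eq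
  have hev0 : G.ev q0 n = 0 := by rw [hSV.n_eq, hN]; norm_num
  have hL0 : 0 < G.ev q0 (G.lap n) := by
    rw [hSV.lap_n, ← hPp, hN]
    norm_num
    exact hp0
  obtain ⟨S, hS⟩ : ∃ S : ℝ, S = -(6 * K) * G.ev q0 (G.lap μ) + 2 / 5 * K * (G.ev q0 (G.lap (μ * μ)))
    - G.ev q0 (G.lap b) := ⟨_, rfl⟩
  obtain ⟨C, hC⟩ : ∃ C : ℝ, C = (S + 1) / G.ev q0 (G.lap n) := ⟨_, rfl⟩
  have hCL : C * G.ev q0 (G.lap n) = S + 1 := by rw [hC]; field_simp
  obtain ⟨f, hf⟩ : ∃ f : 𝒪, f = algebraMap ℝ 𝒪 (12 * K) + (-(6 * K)) • μ +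
    (2 / 5 * K) • (μ * μ) + (-C) • n + (-1 : ℝ) • b := ⟨_, rfl⟩
  have hev : ∀ q, G.ev q f = 12 * K - 6 * K * G.ev q μ +
      2 / 5 * K * (G.ev q μ) ^ 2 - C * G.ev q n - G.ev q b := by
    intro q
    rw [hf]
    simp only [map_add, map_smul, map_mul, Geom.ev_alg, smul_eq_mul]
    ring
  have hmin : IsLocalMin (fun q => G.ev q f) q0 := by
    have h0 : G.ev q0 f = 0 := by
      rw [hev, heq, Th, c1.self_of_nhds, hev0, Real.sqrt_zero]
      ring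
    show ∀ᶠ q in 𝓝 q0, G.ev q0 f ≤ G.ev q f
    rw [h0]
    have hcont : Continuous fun q => Real.sqrt (G.ev q n) :=
      Real.continuous_sqrt.comp (G.ev_cont n)
    have ht : Tendsto (fun q => Real.sqrt (G.ev q n)) (𝓝 q0) (𝓝 0) := by
      have := hcont.tendsto q0
      rwa [hev0, Real.sqrt_zero] at this
    have ht2 : Tendsto (fun q => C * Real.sqrt (G.ev q n)) (𝓝 q0) (𝓝 0) := by
      have := ht.const_mul C
      rwa [mul_zero] at this
    filter_upwards [c1, ht.eventually_lt_const (show (0 : ℝ) < 2 by norm_num),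
      ht2.eventually_lt_const (show (0 : ℝ) < 5 * K by linarith)] with q h2 h3 h4
    have h5 := hmax q
    rw [hev, h2]
    unfold Th at h5
    obtain ⟨x, hx⟩ : ∃ x, x = Real.sqrt (G.ev q n) := ⟨_, rfl⟩
    have hx2 : G.ev q n = x ^ 2 := by rw [hx, Real.sq_sqrt (hn0 q)]
    have hx0 : 0 ≤ x := by rw [hx]; exact Real.sqrt_nonneg _
    have hy0 := Real.sqrt_nonneg (G.ev q m)
    rw [← hx] at h3 h4 h5
    rw [hx2]
    have h6 : 0 ≤ x * (K * (6 - 2 / 5 * x + 4 / 5 * Real.sqrt (G.ev q m)) - C * x) := by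
      refine mul_nonneg hx0 ?_
      have : K * 5 ≤ K * (6 - 2 / 5 * x + 4 / 5 * Real.sqrt (G.ev q m)) :=
        mul_le_mul_of_nonneg_left (by linarith) hK.le
      linarith
    linarith
  have hL := lap_nonneg_of_min hmin
  rw [hf, H56.lap_add, H56.lap_add, H56.lap_add, H56.lap_add, lap_alg', H56.lap_smul, H56.lap_smul,
      H56.lap_smul, H56.lap_smul] at hL
  simp only [map_add, map_smul, map_zero, smul_eq_mul] at hL
  linarith

/-- **The second a-priori bound.** -/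
theorem apriori2 [CompactSpace M] (hE : G.Einstein 3) (hK : G.SecGe 0) (ho : Orient G om)
    {n dl b m dl' b' : 𝒪} (hB : Basic G om n dl b) (hB' : Basic G (omn om) m dl' b')
    (h : ∀ q, ¬ (G.ev q n = 1 ∧ G.ev q m = 1)) (q : M) : G.ev q b ≤ 20 * Th G n m q := by
  have hdata : ∀ q, ∃ P, AtP G n dl b m dl' b' q P := fun q => by
    obtain ⟨F, P, Q, κ', σ', Q', z', t', u', hF, hok, hN, hM, hp, hSV, hSV'⟩ :=
      exists_Pt hE hK ho hB hB' q
    exact ⟨P, F, Q, κ', σ', Q', z', t', u', hF, hok, hN, hM, hp, hSV, hSV'⟩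
  have hThP : ∀ q P, AtP G n dl b m dl' b' q P →
      Th G n m q = 6 * (2 - P.N - P.M) + 2 / 5 * (P.N - P.M) ^ 2 := by
    rintro q P ⟨F, Q, κ', σ', Q', z', t', u', hF, hok, hN, hM, hp, hSV, hSV'⟩
    unfold Th
    rw [hSV.n_eq, hSV'.n_eq, Real.sqrt_sq hok.N0, Real.sqrt_sq hok.M0]
  have hpos : ∀ q, 0 < Th G n m q := by
    intro q
    obtain ⟨P, hP⟩ := hdata q
    rw [hThP q P hP]
    obtain ⟨F, Q, κ', σ', Q', z', t', u', hF, hok, hN, hM, hp, hSV, hSV'⟩ := hP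
    have h1 : 0 ≤ 2 - P.N - P.M := by linarith [hok.NM]
    rcases h1.lt_or_eq with h2 | h2
    · positivity
    · have h3 : P.N - P.M ≠ 0 := by
        intro h3
        apply h q
        have e1 : P.N = 1 := by linarith
        have e2 : P.M = 1 := by linarith
        rw [hSV.n_eq, hSV'.n_eq, e1, e2]
        norm_num
      positivity
  haveI : Nonempty M := ⟨q⟩
  have hc : Continuous fun q => G.ev q b / Th G n m q :=
    (G.ev_cont b).div (Th_cont n m) fun q => (hpos q).ne'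
  obtain ⟨q0, -, hq0⟩ := isCompact_univ.exists_isMaxOn univ_nonempty hc.continuousOn
  obtain ⟨K, hKd⟩ : ∃ K, K = G.ev q0 b / Th G n m q0 := ⟨_, rfl⟩
  have hmax : ∀ q, G.ev q b ≤ K * Th G n m q := fun q => by
    have h1 : G.ev q b / Th G n m q ≤ K := by rw [hKd]; exact hq0 (mem_univ q)
    rwa [div_le_iff₀ (hpos q)] at h1
  have heq : G.ev q0 b = K * Th G n m q0 := by
    rw [hKd]; field_simp [(hpos q0).ne']
  by_cases hK20 : K ≤ 20
  · exact (hmax q).trans (mul_le_mul_of_nonneg_right hK20 (hpos q).le)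
  exfalso
  push Not at hK20
  have hn0 : ∀ q, 0 ≤ G.ev q n := fun q => by
    obtain ⟨P, F, Q, κ', σ', Q', z', t', u', hF, hok, hN, hM, hp, hSV, hSV'⟩ := hdata q
    rw [hSV.n_eq]; positivity
  obtain ⟨P, hP⟩ := hdata q0
  have hTh := hThP q0 P hP
  obtain ⟨F, Q, κ', σ', Q', z', t', u', hF, hok, hN, hM, hp, hSV, hSV'⟩ := id hP
  have hpK : P.p = K * (6 * (2 - P.N - P.M) + 2 / 5 * (P.N - P.M) ^ 2) := by
    rw [hp, heq, hTh]
  have hp0 : 0 < P.p := by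
    rw [hp, heq]
    exact mul_pos (by linarith) (hpos q0)
  have hp1 : P.p ≤ 618 / 11 - 15 / 2 * P.N ^ 2 := by
    have h1 := hok.apriori
    have h2 := hok.kmin'
    linarith
  have hp2 : P.p ≤ 618 / 11 := by nlinarith [sq_nonneg P.N]
  have hTh0 : 0 < 6 * (2 - P.N - P.M) + 2 / 5 * (P.N - P.M) ^ 2 := by
    rw [← hTh]; exact hpos q0
  rcases hok.M0.lt_or_eq with hM0 | hM0
  · rcases hok.N0.lt_or_eq with hN0 | hN0
    · exact interior hP hN0 hM0 hK20.le hmax heq hp0 hp2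
    · exact zero_case hP hn0 hN0.symm hM0 (by linarith) hmax heq hp0
  · have h1 := mul_lt_mul_of_pos_right hK20 hTh0
    rw [← hpK, ← hM0] at h1
    have h2 : P.N ≤ 2 := by linarith [hok.NM]
    have h3 := hok.N0
    nlinarith

/-- the form needed for the certificate -/
theorem apriori2_E [CompactSpace M] (hE : G.Einstein 3) (hK : G.SecGe 0) (ho : Orient G om)
    {n dl b m dl' b' : 𝒪} (hB : Basic G om n dl b) (hB' : Basic G (omn om) m dl' b')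
    (h : ∀ q, ¬ (G.ev q n = 1 ∧ G.ev q m = 1)) (q : M) (P : Pt)
    (hP : AtP G n dl b m dl' b' q P) :
    P.p ≤ 20 * (6 * (2 - P.N - P.M) + 2 / 5 * (P.N - P.M) ^ 2) := by
  have h1 := apriori2 hE hK ho hB hB' h q
  obtain ⟨F, Q, κ', σ', Q', z', t', u', hF, hok, hN, hM, hp, hSV, hSV'⟩ := hP
  unfold Th at h1
  rw [hSV.n_eq, hSV'.n_eq, Real.sqrt_sq hok.N0, Real.sqrt_sq hok.M0, ← hp] at h1
  exact h1

end Vale.Agent.P211.H626
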