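import Vale.Agent.P211.H626.Sem

set_option linter.all false

/-! P211 (helper626): the entries of the form and of the scalar part as polynomial expressions in
chart coordinates. Power of `Θ`: `K + 1` for the form, `K` for the scalar part. -/

namespace Vale.Agent.P211.H626

open Vale.Agent.P211 Vale.Agent.P211.S4 Vale.Agent.P211.H237

/-- parameters: certificate, vertex `(x1 / 6, y1 / 6)`, chart, `K` -/
structure En where
  d : CD
  x1 : ℤ
  y1 : ℤ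
  h : Ch
  K : ℕ
  /-- the margin is `dn N² M² / 30000` -/
  dn : ℤ

namespace En

variable (s : En)

def aV : RE := sumR (Te.hV s.h s.K) s.d.A
def aN : RE := sumR (Te.hN s.h s.K) s.d.A
def aM : RE := sumR (Te.hM s.h s.K) s.d.A
def b0V : RE := sumR (Te.hV s.h s.K) s.d.B0
def b0N : RE := sumR (Te.hN s.h s.K) s.d.B0
def b0M : RE := sumR (Te.hM s.h s.K) s.d.B0
def b1V : RE := sumR (Te.hV s.h s.K) s.d.B1
def b1N : RE := sumR (Te.hN s.h s.K) s.d.B1
def b1M : RE := sumR (Te.hM s.h s.K) s.d.B1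
def c0V : RE := sumR (Te.hV s.h s.K) s.d.C0
def c0N : RE := sumR (Te.hN s.h s.K) s.d.C0
def c0M : RE := sumR (Te.hM s.h s.K) s.d.C0
def c1V : RE := sumR (Te.hV s.h s.K) s.d.C1
def c1N : RE := sumR (Te.hN s.h s.K) s.d.C1
def c1M : RE := sumR (Te.hM s.h s.K) s.d.C1
/-- `5 - 2 N` -/
def pN : RE := RE.c 5 + RE.c (-2) * s.h.n
def pM : RE := RE.c 5 + RE.c (-2) * s.h.m
/-- `5 N - N²` -/
def qN : RE := s.h.n * (RE.c 5 + RE.c (-1) * s.h.n)
def qM : RE := s.h.m * (RE.c 5 + RE.c (-1) * s.h.m)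
/-- `D Θ^(K+1)` -/
def dth1 : RE := RE.c s.d.D * s.h.th ^ (s.K + 1)
/-- `D Θ^K` -/
def dth0 : RE := RE.c s.d.D * s.h.th ^ s.K

/-- entries of the form (factor `150 D Θ^(K+1)`) -/
def uu : RE := RE.c 900 * (s.aV * s.h.th)
def uh : RE := RE.c 150 * (s.aM + s.h.m * (s.b1V * s.h.th))
def ug : RE := RE.c 150 * (s.aN + s.h.n * (s.c1V * s.h.th))
def hh0 : RE := (RE.c 250 * (s.b0V * s.h.th) + RE.c 150 * (s.h.m * s.b0M)) +
  RE.c (-s.y1) * (s.dth1 * s.pM ^ 2)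
def hh1 : RE := RE.c 250 * (s.b1V * s.h.th) + RE.c 150 * (s.h.m * s.b1M)
def gg0 : RE := RE.c 150 * (RE.c (-6) * (s.h.n * s.aN) + (s.h.n * s.c0N +
  RE.c 3 * (s.h.n ^ 2 * (s.c1V * s.h.th)))) + RE.c (-s.x1) * (s.dth1 * s.pN ^ 2)
def gg1 : RE := RE.c 150 * (s.h.n * s.c1N)
def ggk : RE := RE.c 150 * (s.h.n ^ 2 * (RE.c 9 * s.aN + RE.c (-3) * (s.h.n * (s.c1V * s.h.th))))
def hg0 : RE := RE.c 150 * ((RE.c (-6) * (s.h.n * s.aM) + s.h.m * s.b0N) +
  (RE.c 3 * (s.h.n * (s.h.m * (s.b1V * s.h.th))) + s.h.n * s.c0M)) +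
  RE.c 12 * (s.dth1 * (s.pN * s.pM))
def hg1 : RE := RE.c 150 * (s.h.m * s.b1N + s.h.n * s.c1M)
def hgk : RE := RE.c 150 * (s.h.n ^ 2 * (RE.c 9 * s.aM + RE.c (-3) * (s.h.m * (s.b1V * s.h.th))))
def hz : RE := RE.c 450 * (s.h.n ^ 2 * (RE.c 3 * s.aM + RE.c (-1) * (s.h.m * (s.b1V * s.h.th))))
def gz : RE := RE.c 450 * (s.h.n ^ 2 * (RE.c 3 * s.aN + RE.c (-1) * (s.h.n * (s.c1V * s.h.th))))

/-- coefficients of the scalar part (factor `30000 D Θ^K`) -/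
def z00 : RE := (RE.c 30000 * ((s.aV * (RE.c (-36) * s.h.n ^ 2 + RE.c (-54) * s.h.n ^ 4) +
  s.b0V * (RE.c 6 * s.h.m ^ 2 + RE.c (-6) * s.h.m ^ 3)) + s.c0V * (RE.c 6 * s.h.n ^ 2)) +
  s.dth0 * (RE.c (800 * s.x1) * s.qN ^ 2 + (RE.c (-9600) * (s.qN * s.qM) +
    RE.c (800 * s.y1) * s.qM ^ 2))) + RE.c (-s.dn) * (s.dth0 * (s.h.n ^ 2 * s.h.m ^ 2))
def z01 : RE := RE.c 30000 * (s.h.n ^ 3 * (RE.c 90 * s.aV + RE.c (-6) * s.c0V))
def z10 : RE := (RE.c 330000 * s.aV + RE.c 30000 * (s.b1V * (RE.c 6 * s.h.m ^ 2 +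
  RE.c (-6) * s.h.m ^ 3))) + (RE.c 50000 * s.c0V + RE.c 180000 * (s.h.n ^ 2 * s.c1V))
def z11 : RE := RE.c (-180000) * (s.h.n ^ 3 * s.c1V)
def z20 : RE := RE.c 50000 * s.c1V

/-- the powers of `Θ` are bounded by `K` -/
def ok : Bool := okE s.K s.d.A && okE s.K s.d.B0 && okE s.K s.d.B1 && okE s.K s.d.C0 &&
  okE s.K s.d.C1 && Nat.blt 0 s.d.D

/-- the situation at a point -/
structure At (X Y N M : ℝ) : Prop where
  ok : s.ok = true
  at' : s.h.At X Y N M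
  th : Tht N M ≠ 0

variable {s} {X Y N M : ℝ}

/-- the coefficients at the point -/
noncomputable def co (s : En) (N M : ℝ) : H129.Co := s.d.cert.co N M
/-- the Poincaré part at the point -/
noncomputable def ex (s : En) (N M : ℝ) : H129.Ex := Cert.exP aa aa' (s.x1 / 6) (s.y1 / 6) N M

theorem At.D0 (h : s.At X Y N M) : (s.d.D : ℝ) ≠ 0 := by
  have := h.ok
  unfold En.ok at this
  simp only [Bool.and_eq_true, Nat.blt_eq] at this
  exact_mod_cast this.2.ne'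

theorem At.oks (h : s.At X Y N M) : okE s.K s.d.A = true ∧ okE s.K s.d.B0 = true ∧
    okE s.K s.d.B1 = true ∧ okE s.K s.d.C0 = true ∧ okE s.K s.d.C1 = true := by
  have := h.ok
  unfold En.ok at this
  simp only [Bool.and_eq_true, Nat.blt_eq] at this
  exact ⟨this.1.1.1.1.1, this.1.1.1.1.2, this.1.1.1.2, this.1.1.2, this.1.2⟩

theorem At.aV (h : s.At X Y N M) : s.aV.val X Y = s.d.D * Tht N M ^ s.K * (s.co N M).A := by
  rw [En.aV, val_sumV h.at' h.th _ h.oks.1]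
  have := h.D0
  show _ = s.d.D * Tht N M ^ s.K * (1 / s.d.D * (fnL s.d.A).f N M)
  field_simp
theorem At.aN (h : s.At X Y N M) :
    s.aN.val X Y = s.d.D * Tht N M ^ (s.K + 1) * (s.co N M).AN := by
  rw [En.aN, val_sumN h.at' h.th _ h.oks.1]
  have := h.D0
  show _ = s.d.D * Tht N M ^ (s.K + 1) * (1 / s.d.D * (fnL s.d.A).fN N M)
  field_simp
theorem At.aM (h : s.At X Y N M) :
    s.aM.val X Y = s.d.D * Tht N M ^ (s.K + 1) * (s.co N M).AM := by
  rw [En.aM, val_sumM h.at' h.th _ h.oks.1]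
  have := h.D0
  show _ = s.d.D * Tht N M ^ (s.K + 1) * (1 / s.d.D * (fnL s.d.A).fM N M)
  field_simp
theorem At.b0V (h : s.At X Y N M) : s.b0V.val X Y = s.d.D * Tht N M ^ s.K * (s.co N M).B0 := by
  rw [En.b0V, val_sumV h.at' h.th _ h.oks.2.1]
  have := h.D0
  show _ = s.d.D * Tht N M ^ s.K * (1 / s.d.D * (fnL s.d.B0).f N M)
  field_simp
theorem At.b0N (h : s.At X Y N M) :
    s.b0N.val X Y = s.d.D * Tht N M ^ (s.K + 1) * (s.co N M).B0N := by
  rw [En.b0N, val_sumN h.at' h.th _ h.oks.2.1]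
  have := h.D0
  show _ = s.d.D * Tht N M ^ (s.K + 1) * (1 / s.d.D * (fnL s.d.B0).fN N M)
  field_simp
theorem At.b0M (h : s.At X Y N M) :
    s.b0M.val X Y = s.d.D * Tht N M ^ (s.K + 1) * (s.co N M).B0M := by
  rw [En.b0M, val_sumM h.at' h.th _ h.oks.2.1]
  have := h.D0
  show _ = s.d.D * Tht N M ^ (s.K + 1) * (1 / s.d.D * (fnL s.d.B0).fM N M)
  field_simp
theorem At.b1V (h : s.At X Y N M) : s.b1V.val X Y = s.d.D * Tht N M ^ s.K * (s.co N M).B1 := by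
  rw [En.b1V, val_sumV h.at' h.th _ h.oks.2.2.1]
  have := h.D0
  show _ = s.d.D * Tht N M ^ s.K * (1 / s.d.D * (fnL s.d.B1).f N M)
  field_simp
theorem At.b1N (h : s.At X Y N M) :
    s.b1N.val X Y = s.d.D * Tht N M ^ (s.K + 1) * (s.co N M).B1N := by
  rw [En.b1N, val_sumN h.at' h.th _ h.oks.2.2.1]
  have := h.D0
  show _ = s.d.D * Tht N M ^ (s.K + 1) * (1 / s.d.D * (fnL s.d.B1).fN N M)
  field_simp
theorem At.b1M (h : s.At X Y N M) :
    s.b1M.val X Y = s.d.D * Tht N M ^ (s.K + 1) * (s.co N M).B1M := by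
  rw [En.b1M, val_sumM h.at' h.th _ h.oks.2.2.1]
  have := h.D0
  show _ = s.d.D * Tht N M ^ (s.K + 1) * (1 / s.d.D * (fnL s.d.B1).fM N M)
  field_simp
theorem At.c0V (h : s.At X Y N M) : s.c0V.val X Y = s.d.D * Tht N M ^ s.K * (s.co N M).C0 := by
  rw [En.c0V, val_sumV h.at' h.th _ h.oks.2.2.2.1]
  have := h.D0
  show _ = s.d.D * Tht N M ^ s.K * (1 / s.d.D * (fnL s.d.C0).f N M)
  field_simp
theorem At.c0N (h : s.At X Y N M) :
    s.c0N.val X Y = s.d.D * Tht N M ^ (s.K + 1) * (s.co N M).C0N := by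
  rw [En.c0N, val_sumN h.at' h.th _ h.oks.2.2.2.1]
  have := h.D0
  show _ = s.d.D * Tht N M ^ (s.K + 1) * (1 / s.d.D * (fnL s.d.C0).fN N M)
  field_simp
theorem At.c0M (h : s.At X Y N M) :
    s.c0M.val X Y = s.d.D * Tht N M ^ (s.K + 1) * (s.co N M).C0M := by
  rw [En.c0M, val_sumM h.at' h.th _ h.oks.2.2.2.1]
  have := h.D0
  show _ = s.d.D * Tht N M ^ (s.K + 1) * (1 / s.d.D * (fnL s.d.C0).fM N M)
  field_simp
theorem At.c1V (h : s.At X Y N M) : s.c1V.val X Y = s.d.D * Tht N M ^ s.K * (s.co N M).C1 := by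
  rw [En.c1V, val_sumV h.at' h.th _ h.oks.2.2.2.2]
  have := h.D0
  show _ = s.d.D * Tht N M ^ s.K * (1 / s.d.D * (fnL s.d.C1).f N M)
  field_simp
theorem At.c1N (h : s.At X Y N M) :
    s.c1N.val X Y = s.d.D * Tht N M ^ (s.K + 1) * (s.co N M).C1N := by
  rw [En.c1N, val_sumN h.at' h.th _ h.oks.2.2.2.2]
  have := h.D0
  show _ = s.d.D * Tht N M ^ (s.K + 1) * (1 / s.d.D * (fnL s.d.C1).fN N M)
  field_simp
theorem At.c1M (h : s.At X Y N M) :
    s.c1M.val X Y = s.d.D * Tht N M ^ (s.K + 1) * (s.co N M).C1M := by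
  rw [En.c1M, val_sumM h.at' h.th _ h.oks.2.2.2.2]
  have := h.D0
  show _ = s.d.D * Tht N M ^ (s.K + 1) * (1 / s.d.D * (fnL s.d.C1).fM N M)
  field_simp

/-- the common factor of the form -/
noncomputable def GF (s : En) (N M : ℝ) : ℝ := 150 * s.d.D * Tht N M ^ (s.K + 1)
/-- the common factor of the scalar part -/
noncomputable def HF (s : En) (N M : ℝ) : ℝ := 30000 * s.d.D * Tht N M ^ s.K

theorem At.uu (h : s.At X Y N M) : s.uu.val X Y = s.GF N M * (6 * (s.co N M).A) := by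
  unfold En.uu GF
  simp only [RE.val_mul, RE.val_c, h.aV, h.at'.th]
  push_cast; ring
theorem At.uh (h : s.At X Y N M) :
    s.uh.val X Y = s.GF N M * ((s.co N M).AM + M * (s.co N M).B1) := by
  unfold En.uh GF
  simp only [RE.val_mul, RE.val_add, RE.val_c, h.aM, h.b1V, h.at'.th, h.at'.m]
  push_cast; ring
theorem At.ug (h : s.At X Y N M) :
    s.ug.val X Y = s.GF N M * ((s.co N M).AN + N * (s.co N M).C1) := by
  unfold En.ug GF
  simp only [RE.val_mul, RE.val_add, RE.val_c, h.aN, h.c1V, h.at'.th, h.at'.n]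
  push_cast; ring
theorem At.hh0 (h : s.At X Y N M) : s.hh0.val X Y = s.GF N M *
    (5 / 3 * (s.co N M).B0 + M * (s.co N M).B0M + (s.ex N M).hh) := by
  unfold En.hh0 GF En.dth1 En.pM En.ex Cert.exP aa'
  simp only [RE.val_mul, RE.val_add, RE.val_c, RE.val_pow, h.b0V, h.b0M, h.at'.th, h.at'.m]
  push_cast; ring
theorem At.hh1 (h : s.At X Y N M) : s.hh1.val X Y = s.GF N M *
    (5 / 3 * (s.co N M).B1 + M * (s.co N M).B1M) := by
  unfold En.hh1 GF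
  simp only [RE.val_mul, RE.val_add, RE.val_c, RE.val_pow, h.b1V, h.b1M, h.at'.th, h.at'.m]
  push_cast; ring
theorem At.gg0 (h : s.At X Y N M) : s.gg0.val X Y = s.GF N M *
    (-6 * N * (s.co N M).AN + N * (s.co N M).C0N + 3 * N ^ 2 * (s.co N M).C1 +
      (s.ex N M).gg) := by
  unfold En.gg0 GF En.dth1 En.pN En.ex Cert.exP aa'
  simp only [RE.val_mul, RE.val_add, RE.val_c, RE.val_pow, h.aN, h.c0N, h.c1V, h.at'.th, h.at'.n]
  push_cast; ring
theorem At.gg1 (h : s.At X Y N M) : s.gg1.val X Y = s.GF N M * (N * (s.co N M).C1N) := by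
  unfold En.gg1 GF
  simp only [RE.val_mul, RE.val_add, RE.val_c, RE.val_pow, h.c1N, h.at'.n]
  push_cast; ring
theorem At.ggk (h : s.At X Y N M) : s.ggk.val X Y = s.GF N M *
    (9 * N ^ 2 * (s.co N M).AN - 3 * N ^ 3 * (s.co N M).C1) := by
  unfold En.ggk GF
  simp only [RE.val_mul, RE.val_add, RE.val_c, RE.val_pow, h.aN, h.c1V, h.at'.th, h.at'.n]
  push_cast; ring
theorem At.hg0 (h : s.At X Y N M) : s.hg0.val X Y = s.GF N M *
    (-6 * N * (s.co N M).AM + M * (s.co N M).B0N + 3 * N * M * (s.co N M).B1 +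
      N * (s.co N M).C0M + (s.ex N M).gh) := by
  unfold En.hg0 GF En.dth1 En.pN En.pM En.ex Cert.exP aa'
  simp only [RE.val_mul, RE.val_add, RE.val_c, RE.val_pow, h.aM, h.b0N, h.b1V, h.c0M, h.at'.th,
    h.at'.n, h.at'.m]
  push_cast; ring
theorem At.hg1 (h : s.At X Y N M) : s.hg1.val X Y = s.GF N M *
    (M * (s.co N M).B1N + N * (s.co N M).C1M) := by
  unfold En.hg1 GF
  simp only [RE.val_mul, RE.val_add, RE.val_c, RE.val_pow, h.b1N, h.c1M, h.at'.n, h.at'.m]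
  push_cast; ring
theorem At.hgk (h : s.At X Y N M) : s.hgk.val X Y = s.GF N M *
    (9 * N ^ 2 * (s.co N M).AM - 3 * N ^ 2 * M * (s.co N M).B1) := by
  unfold En.hgk GF
  simp only [RE.val_mul, RE.val_add, RE.val_c, RE.val_pow, h.aM, h.b1V, h.at'.th, h.at'.n,
    h.at'.m]
  push_cast; ring
theorem At.hz (h : s.At X Y N M) : s.hz.val X Y = s.GF N M *
    (3 * N ^ 2 * (3 * (s.co N M).AM - M * (s.co N M).B1)) := by
  unfold En.hz GF
  simp only [RE.val_mul, RE.val_add, RE.val_c, RE.val_pow, h.aM, h.b1V, h.at'.th, h.at'.n,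
    h.at'.m]
  push_cast; ring
theorem At.gz (h : s.At X Y N M) : s.gz.val X Y = s.GF N M *
    (3 * N ^ 2 * (3 * (s.co N M).AN - N * (s.co N M).C1)) := by
  unfold En.gz GF
  simp only [RE.val_mul, RE.val_add, RE.val_c, RE.val_pow, h.aN, h.c1V, h.at'.th, h.at'.n,
    h.at'.m]
  push_cast; ring

theorem At.z00 (h : s.At X Y N M) : s.z00.val X Y = s.HF N M *
    ((s.co N M).A * (-36 * N ^ 2 - 54 * N ^ 4) + (s.co N M).B0 * (6 * M ^ 2 - 6 * M ^ 3) +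
      (s.co N M).C0 * (6 * N ^ 2) + (s.ex N M).e0 - s.dn / 30000 * (N ^ 2 * M ^ 2)) := by
  unfold En.z00 HF En.dth0 En.qN En.qM En.ex Cert.exP aa
  simp only [RE.val_mul, RE.val_add, RE.val_c, RE.val_pow, h.aV, h.b0V, h.c0V, h.at'.th,
    h.at'.n, h.at'.m]
  push_cast; ring
theorem At.z01 (h : s.At X Y N M) : s.z01.val X Y = s.HF N M *
    (N ^ 3 * (90 * (s.co N M).A - 6 * (s.co N M).C0)) := by
  unfold En.z01 HF
  simp only [RE.val_mul, RE.val_add, RE.val_c, RE.val_pow, h.aV, h.c0V, h.at'.n]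
  push_cast; ring
theorem At.z10 (h : s.At X Y N M) : s.z10.val X Y = s.HF N M *
    (11 * (s.co N M).A + (s.co N M).B1 * (6 * M ^ 2 - 6 * M ^ 3) + 5 / 3 * (s.co N M).C0 +
      6 * N ^ 2 * (s.co N M).C1) := by
  unfold En.z10 HF
  simp only [RE.val_mul, RE.val_add, RE.val_c, RE.val_pow, h.aV, h.b1V, h.c0V, h.c1V, h.at'.n,
    h.at'.m]
  push_cast; ring
theorem At.z11 (h : s.At X Y N M) : s.z11.val X Y = s.HF N M *
    (-(6 * N ^ 3 * (s.co N M).C1)) := by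
  unfold En.z11 HF
  simp only [RE.val_mul, RE.val_add, RE.val_c, RE.val_pow, h.c1V, h.at'.n]
  push_cast; ring
theorem At.z20 (h : s.At X Y N M) : s.z20.val X Y = s.HF N M * (5 / 3 * (s.co N M).C1) := by
  unfold En.z20 HF
  simp only [RE.val_mul, RE.val_add, RE.val_c, RE.val_pow, h.c1V, h.at'.n]
  push_cast; ring

end En

end Vale.Agent.P211.H626
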