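import Vale.Agent.P211.H56.Disj

set_option linter.all false

/-! P211 (helper626): pointwise evaluation of the integrand of `H56.TT` in an orthonormal frame. -/

namespace Vale.Agent.P211.H626

open Topology Filter MeasureTheory Set
open scoped ContDiff
open Vale.Agent.P211 Vale.Agent.P211.S4 Vale.Agent.P211.H56

variable {M 𝒪 V : Type*} [TopologicalSpace M] [CommRing 𝒪] [Algebra ℝ 𝒪]
    [AddCommGroup V] [Module 𝒪 V] {G : Geo2 M 𝒪 V} {om : V → V → V → V → 𝒪}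

/-- dot product -/
def dot (x y : Fin 4 → ℝ) : ℝ := ∑ i, x i * y i

/-- the real data of both halves of the Weyl curvature at a point, in an orthonormal frame
`F`.  `n = |W⁺|²/6`, `dl = det W⁺`, `b = |∇W⁺|²/10`, `m = |W⁻|²/6`. -/
structure Pt (G : Geo2 M 𝒪 V) (n dl b m : 𝒪) (q : M) (F : Fin 4 → V) (N L κ σ Q p : ℝ)
    (g z t u h : Fin 4 → ℝ) : Prop where
  on : G.ON q F
  N0 : 0 ≤ N
  L0 : 0 ≤ L
  NL : N + L ≤ 2
  ks : κ ^ 2 + σ ^ 2 = 1
  n_eq : G.ev q n = N ^ 2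
  m_eq : G.ev q m = L ^ 2
  d_eq : G.ev q dl = 2 * κ * N ^ 3
  b_eq : G.ev q b = p
  p_eq : p = dot g g + dot z z + dot t t / 5
  gz : N = 0 → g = 0 ∧ z = 0
  hz : L = 0 → h = 0
  dn : ∀ i, G.ev q (G.D (F i) n) = 2 * N * g i
  dm : ∀ i, G.ev q (G.D (F i) m) = 2 * L * h i
  dd : ∀ i, G.ev q (G.D (F i) dl) = 6 * N ^ 2 * (κ * g i + σ * z i)
  db : ∀ i, G.ev q (G.D (F i) b) = u i + 3 * N * g i - 3 * N ^ 2 * (κ * g i + σ * z i)
  lap_n : G.ev q (G.lap n) = 10 / 3 * p + 12 * N ^ 2 - 12 * κ * N ^ 3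
  lap_m : 10 / 3 * dot h h + 12 * L ^ 2 - 12 * L ^ 3 ≤ G.ev q (G.lap m)
  lap_b : G.ev q (G.lap b) = 2 * Q + 18 * (N ^ 2 - 2 * κ * N ^ 3 + N ^ 4) + 26 * p
    - 4 * N * (8 * κ * (dot g g - dot z z) + 16 * σ * dot g z + 4 * dot z t)
  lap_d : G.ev q (G.lap dl) = 36 * κ * N ^ 3 - 36 * N ^ 4
    + 2 * N * (8 * κ * (dot g g - dot z z) + 16 * σ * dot g z + 4 * dot z t)
  Q0 : 0 ≤ Q
  Qu : 3 * dot u u ≤ 7 * Q * p
  kN : 6 * N ^ 2 - 8 ≤ 2 * κ * N ^ 3
  apr : p + 4 * κ * N ^ 3 - 9 / 2 * N ^ 2 ≤ 442 / 11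
  hap : dot h h ≤ 618 / 11 - 15 / 2 * L ^ 2

theorem dot_self_nonneg (x : Fin 4 → ℝ) : 0 ≤ dot x x :=
  Finset.sum_nonneg fun i _ => mul_self_nonneg _

theorem dot_comm (x y : Fin 4 → ℝ) : dot x y = dot y x :=
  Finset.sum_congr rfl fun i _ => mul_comm _ _

theorem g_dot {q : M} {F : Fin 4 → V} (hF : G.ON q F) (X Y : V) :
    G.ev q (G.g X Y) = dot (G.cf q F X) (G.cf q F Y) := Geom.g_cf hF X Y

theorem nW_nA {r : Arr4} : 6 * nW (Ab r) + 3 = nA r := by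
  simp only [nW, nA]
  ring

theorem sum_le (hE : G.Einstein 3) (hK : G.SecGe 0) (ho : Orient G om) {n dl b m dl' b' : 𝒪}
    (hB : Basic G om n dl b) (hB' : Basic G (omn om) m dl' b') (q : M) :
    Real.sqrt (G.ev q n) + Real.sqrt (G.ev q m) ≤ 2 := by
  refine sqrt_add_le hE hK ho (fun p F hF => ?_) (fun p F hF => ?_)
    (fun p => (range_nd hE hK ho hB p).1) (fun p => (range_nd hE hK (orient_neg ho) hB' p).1) q
  · rw [hB.n_ev p F hF, nW_nA]
  · have h := (pos_neg_iff ho).2 hF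
    rw [hB'.n_ev p _ h, nW_nA, nA_refl]

/-- **The real data at a point.** -/
theorem exists_pt [CompactSpace M] (hE : G.Einstein 3) (hK : G.SecGe 0) (ho : Orient G om)
    {n dl b m dl' b' : 𝒪} (hB : Basic G om n dl b) (hB' : Basic G (omn om) m dl' b') (q : M) :
    ∃ (F : Fin 4 → V) (N L κ σ Q p : ℝ) (g z t u h : Fin 4 → ℝ),
      Pt G n dl b m q F N L κ σ Q p g z t u h := by
  obtain ⟨F, hF⟩ := G.frame q
  have hF' : G.ON q F := hF
  obtain ⟨N, κ, σ, Q, g, z, t, u, hP⟩ := side hE ho hB q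
  obtain ⟨L, κ', σ', Q', h, z', t', u', hP'⟩ := side hE (orient_neg ho) hB' q
  have hsum := sum_le hE hK ho hB hB' q
  rw [hP.n_eq, hP'.n_eq, Real.sqrt_sq hP.N0, Real.sqrt_sq hP'.N0] at hsum
  obtain ⟨r0, r1, r2⟩ := range_nd hE hK ho hB q
  obtain ⟨s0, s1, s2⟩ := range_nd hE hK (orient_neg ho) hB' q
  have ap := apriori hE hK ho hB q
  have ap' := apriori hE hK (orient_neg ho) hB' q
  rw [hP.d_eq, hP.n_eq] at ap r2
  rw [hP'.d_eq, hP'.n_eq] at ap' s2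
  have kb' : κ' ≤ 1 := by nlinarith [hP'.ks, sq_nonneg σ']
  have b'1 := hP'.b_eq
  have b1 := hP.b_eq
  have ln := hP.lap_n
  have lm := hP'.lap_n
  have lb := hP.lap_b
  have ld := hP.lap_d
  have Qu := hP.Qu
  simp only [g_dot hF'] at b'1 b1 lb ld Qu
  have z'0 := dot_self_nonneg (G.cf q F z')
  have t'0 := dot_self_nonneg (G.cf q F t')
  have h0 := dot_self_nonneg (G.cf q F h)
  have hk : 0 ≤ (1 - κ') * L ^ 3 := mul_nonneg (by linarith) (pow_nonneg hP'.N0 3)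
  have dn : ∀ i, G.ev q (G.D (F i) n) = 2 * N * G.cf q F g i := fun i => hP.dn (F i)
  have dm : ∀ i, G.ev q (G.D (F i) m) = 2 * L * G.cf q F h i := fun i => hP'.dn (F i)
  have dd : ∀ i, G.ev q (G.D (F i) dl) =
      6 * N ^ 2 * (κ * G.cf q F g i + σ * G.cf q F z i) := fun i => hP.dd (F i)
  have db : ∀ i, G.ev q (G.D (F i) b) = G.cf q F u i + 3 * N * G.cf q F g i
      - 3 * N ^ 2 * (κ * G.cf q F g i + σ * G.cf q F z i) := fun i => hP.db (F i)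
  have d00 : dot (0 : Fin 4 → ℝ) 0 = 0 := by simp [dot]
  -- the vector `h`
  obtain ⟨h2, hh2, hdm, hle⟩ : ∃ h2 : Fin 4 → ℝ, (L = 0 → h2 = 0) ∧
      (∀ i, G.ev q (G.D (F i) m) = 2 * L * h2 i) ∧ dot h2 h2 ≤ dot (G.cf q F h) (G.cf q F h) := by
    rcases eq_or_ne L 0 with hL | hL
    · refine ⟨0, fun _ => rfl, fun i => ?_, by rw [d00]; exact h0⟩
      rw [dm i, hL]; simp
    · exact ⟨G.cf q F h, fun h' => absurd h' hL, dm, le_rfl⟩
  have lapm : 10 / 3 * dot h2 h2 + 12 * L ^ 2 - 12 * L ^ 3 ≤ G.ev q (G.lap m) := by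
    rw [lm, b'1]
    linarith only [hle, z'0, t'0, hk]
  have hap : dot h2 h2 ≤ 618 / 11 - 15 / 2 * L ^ 2 := by
    rw [b'1] at ap'
    linarith only [hle, z'0, t'0, ap', s2]
  rcases eq_or_ne N 0 with hN | hN
  · subst hN
    have hp0 : 0 ≤ 5 * G.ev q b := by
      rw [b1]
      have a1 := dot_self_nonneg (G.cf q F g)
      have a2 := dot_self_nonneg (G.cf q F z)
      have a3 := dot_self_nonneg (G.cf q F t)
      linarith only [a1, a2, a3]
    obtain ⟨t2, ht2⟩ : ∃ t2 : Fin 4 → ℝ, t2 = ![Real.sqrt (5 * G.ev q b), 0, 0, 0] := ⟨_, rfl⟩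
    have ht : dot t2 t2 = 5 * G.ev q b := by
      have e : dot t2 t2 = Real.sqrt (5 * G.ev q b) * Real.sqrt (5 * G.ev q b) := by
        rw [ht2, dot, Fin.sum_univ_four]
        simp only [Matrix.cons_val_zero, Matrix.cons_val_one, Matrix.cons_val]
        ring
      rw [e, Real.mul_self_sqrt hp0]
    refine ⟨F, 0, L, κ, σ, Q, G.ev q b, 0, 0, t2, G.cf q F u, h2, hF', le_rfl, hP'.N0, hsum,
      hP.ks, hP.n_eq, hP'.n_eq, hP.d_eq, rfl, ?_, fun _ => ⟨rfl, rfl⟩, hh2, ?_, hdm, ?_, ?_, ln,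
      lapm, ?_, ?_, hP.Q0, Qu, r2, ?_, hap⟩
    · rw [ht, d00]; ring
    · intro i; rw [dn i]; simp
    · intro i; rw [dd i]; simp
    · intro i; rw [db i]; simp
    · rw [lb]; ring
    · rw [ld]; ring
    · linarith only [ap]
  · refine ⟨F, N, L, κ, σ, Q, G.ev q b, G.cf q F g, G.cf q F z, G.cf q F t, G.cf q F u, h2, hF',
      hP.N0, hP'.N0, hsum, hP.ks, hP.n_eq, hP'.n_eq, hP.d_eq, rfl, b1, fun h' => absurd h' hN, hh2,
      dn, hdm, dd, db, ln, lapm, lb, ld, hP.Q0, Qu, r2, ?_, hap⟩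
    linarith only [ap]

/-- gradient in the frame -/
def gr (G : Geo2 M 𝒪 V) (q : M) (F : Fin 4 → V) (f : 𝒪) : Fin 4 → ℝ := fun i => G.ev q (G.D (F i) f)

theorem ipg_gr {q : M} {F : Fin 4 → V} (hF : G.ON q F) (a b : 𝒪) :
    ipg G a b q = dot (gr G q F a) (gr G q F b) := ipg_frame a b hF

theorem D_grad_gr {q : M} {F : Fin 4 → V} (hF : G.ON q F) (a b : 𝒪) :
    G.ev q (G.D (G.grad a) b) = dot (gr G q F b) (gr G q F a) := by
  rw [← ipg_gr hF]
  unfold ipg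
  rw [G.grad_spec]

/-- the gradient of `b` -/
def Gb (N κ σ : ℝ) (u g z : Fin 4 → ℝ) : Fin 4 → ℝ :=
  fun i => u i + 3 * N * g i - 3 * N ^ 2 * (κ * g i + σ * z i)

/-- the gradient of `det W⁺` -/
def Gd (N κ σ : ℝ) (g z : Fin 4 → ℝ) : Fin 4 → ℝ := fun i => 6 * N ^ 2 * (κ * g i + σ * z i)

theorem dot_smul_left (c : ℝ) (x y : Fin 4 → ℝ) : dot (fun i => c * x i) y = c * dot x y := by
  unfold dot
  rw [Finset.mul_sum]
  exact Finset.sum_congr rfl fun i _ => by ring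

theorem dot_smul_right (c : ℝ) (x y : Fin 4 → ℝ) : dot x (fun i => c * y i) = c * dot x y := by
  rw [dot_comm, dot_smul_left, dot_comm]

section
variable {n dl b m : 𝒪} {q : M} {F : Fin 4 → V} {N L κ σ Q p : ℝ} {g z t u h : Fin 4 → ℝ}

namespace Pt

theorem gr_n (hP : Pt G n dl b m q F N L κ σ Q p g z t u h) :
    gr G q F n = fun i => 2 * N * g i := funext hP.dn

theorem gr_m (hP : Pt G n dl b m q F N L κ σ Q p g z t u h) :
    gr G q F m = fun i => 2 * L * h i := funext hP.dm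

theorem gr_d (hP : Pt G n dl b m q F N L κ σ Q p g z t u h) :
    gr G q F dl = Gd N κ σ g z := funext hP.dd

theorem gr_b (hP : Pt G n dl b m q F N L κ σ Q p g z t u h) :
    gr G q F b = Gb N κ σ u g z := funext hP.db

theorem p0 (hP : Pt G n dl b m q F N L κ σ Q p g z t u h) : 0 ≤ p := by
  rw [hP.p_eq]
  have a1 := dot_self_nonneg g
  have a2 := dot_self_nonneg z
  have a3 := dot_self_nonneg t
  linarith only [a1, a2, a3]

theorem gzp (hP : Pt G n dl b m q F N L κ σ Q p g z t u h) : dot g g + dot z z ≤ p := by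
  have h3 := hP.p_eq
  have a3 := dot_self_nonneg t
  linarith only [a3, h3]

theorem rt_n (hP : Pt G n dl b m q F N L κ σ Q p g z t u h) : rt G n 0 q = N := by
  unfold rt
  rw [hP.n_eq, zero_pow two_ne_zero, add_zero, Real.sqrt_sq hP.N0]

theorem rt_m (hP : Pt G n dl b m q F N L κ σ Q p g z t u h) : rt G m 0 q = L := by
  unfold rt
  rw [hP.m_eq, zero_pow two_ne_zero, add_zero, Real.sqrt_sq hP.L0]

theorem Ph_eq (hP : Pt G n dl b m q F N L κ σ Q p g z t u h) : Ph G n m b 0 q = (N, L, p) := by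
  unfold Ph
  rw [hP.rt_n, hP.rt_m, hP.b_eq]

theorem Dn_div (hP : Pt G n dl b m q F N L κ σ Q p g z t u h) (f : 𝒪) :
    G.ev q (G.D (G.grad f) n) / (2 * rt G n 0 q) = dot g (gr G q F f) := by
  rw [D_grad_gr hP.on, hP.gr_n, dot_smul_left, hP.rt_n]
  rcases eq_or_ne N 0 with hN | hN
  · rw [hN, (hP.gz hN).1]; simp [dot]
  · field_simp

theorem Dm_div (hP : Pt G n dl b m q F N L κ σ Q p g z t u h) (f : 𝒪) :
    G.ev q (G.D (G.grad f) m) / (2 * rt G m 0 q) = dot h (gr G q F f) := by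
  rw [D_grad_gr hP.on, hP.gr_m, dot_smul_left, hP.rt_m]
  rcases eq_or_ne L 0 with hN | hN
  · rw [hN, hP.hz hN]; simp [dot]
  · field_simp

theorem nn_div (hP : Pt G n dl b m q F N L κ σ Q p g z t u h) :
    ipg G n n q / (2 * rt G n 0 q) = 2 * N * dot g g := by
  rw [ipg_gr hP.on, hP.gr_n, dot_smul_left, dot_smul_right, hP.rt_n]
  rcases eq_or_ne N 0 with hN | hN
  · rw [hN]; simp
  · field_simp

theorem mm_div (hP : Pt G n dl b m q F N L κ σ Q p g z t u h) :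
    ipg G m m q / (2 * rt G m 0 q) = 2 * L * dot h h := by
  rw [ipg_gr hP.on, hP.gr_m, dot_smul_left, dot_smul_right, hP.rt_m]
  rcases eq_or_ne L 0 with hN | hN
  · rw [hN]; simp
  · field_simp

theorem nn_div2 (hP : Pt G n dl b m q F N L κ σ Q p g z t u h) :
    ipg G n n q / (2 * rt G n 0 q) ^ 2 = dot g g := by
  rw [ipg_gr hP.on, hP.gr_n, dot_smul_left, dot_smul_right, hP.rt_n]
  rcases eq_or_ne N 0 with hN | hN
  · rw [hN, (hP.gz hN).1]; simp [dot]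
  · field_simp

theorem mm_div2 (hP : Pt G n dl b m q F N L κ σ Q p g z t u h) :
    ipg G m m q / (2 * rt G m 0 q) ^ 2 = dot h h := by
  rw [ipg_gr hP.on, hP.gr_m, dot_smul_left, dot_smul_right, hP.rt_m]
  rcases eq_or_ne L 0 with hN | hN
  · rw [hN, hP.hz hN]; simp [dot]
  · field_simp

theorem nm_div2 (hP : Pt G n dl b m q F N L κ σ Q p g z t u h) :
    ipg G n m q / ((2 * rt G n 0 q) * (2 * rt G m 0 q)) = dot g h := by
  rw [ipg_gr hP.on, hP.gr_n, hP.gr_m, dot_smul_left, dot_smul_right, hP.rt_n, hP.rt_m]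
  rcases eq_or_ne N 0 with hN | hN
  · rw [hN, (hP.gz hN).1]; simp [dot]
  · rcases eq_or_ne L 0 with hL | hL
    · rw [hL, hP.hz hL]; simp [dot]
    · field_simp

/-- evaluation of the regular part of the integrand -/
theorem FF_eval (hP : Pt G n dl b m q F N L κ σ Q p g z t u h) {ι : Type*} [Fintype ι] (w : ι → 𝒪)
    (A A1 A2 A3 : ι → ℝ × ℝ × ℝ → ℝ) :
    FF G w A A1 A2 A3 n m b 0 q = ∑ i, (A i (N, L, p) * G.ev q (G.lap (w i)) +
      (A1 i (N, L, p) * dot g (gr G q F (w i)) + A2 i (N, L, p) * dot h (gr G q F (w i)) +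
        A3 i (N, L, p) * dot (Gb N κ σ u g z) (gr G q F (w i)))) := by
  unfold FF
  rw [hP.Ph_eq]
  refine Finset.sum_congr rfl fun i _ => ?_
  rw [hP.Dn_div, hP.Dm_div, D_grad_gr hP.on, hP.gr_b]

theorem Cc_n (hP : Pt G n dl b m q F N L κ σ Q p g z t u h) (c c' : ℝ → ℝ) :
    Cc G c c' n 0 q = c' N * N * dot g g + c N * (5 / 3 * p + 6 * N ^ 2 - 6 * κ * N ^ 3) := by
  unfold Cc
  rw [hP.nn_div, hP.rt_n, hP.lap_n]
  ring

theorem Cc_m (hP : Pt G n dl b m q F N L κ σ Q p g z t u h) (d d' : ℝ → ℝ) (hd : 0 ≤ d L) :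
    d' L * L * dot h h + d L * (5 / 3 * dot h h + 6 * L ^ 2 - 6 * L ^ 3) ≤ Cc G d d' m 0 q := by
  unfold Cc
  rw [hP.mm_div, hP.rt_m]
  have := mul_le_mul_of_nonneg_left hP.lap_m hd
  linarith only [this]

theorem Fs_eval (hP : Pt G n dl b m q F N L κ σ Q p g z t u h) (s : ℝ) (φ ψ : ℝ → ℝ) :
    Fs G s φ ψ n m 0 q = s * φ N - ψ L := by
  unfold Fs
  rw [hP.rt_n, hP.rt_m]

theorem PF_eval (hP : Pt G n dl b m q F N L κ σ Q p g z t u h) (s : ℝ) (φ φ' ψ ψ' : ℝ → ℝ) :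
    PF G s φ φ' ψ ψ' n m 0 q = 4 * (s * φ N - ψ L) ^ 2 - (s ^ 2 * φ' N ^ 2 * dot g g
      - 2 * s * (φ' N * ψ' L) * dot g h + ψ' L ^ 2 * dot h h) := by
  unfold PF
  rw [hP.Fs_eval, hP.nn_div2, hP.mm_div2, hP.nm_div2, hP.rt_n, hP.rt_m]
  ring

/-- the four regular columns `b, dl, n, m` -/
theorem FF_four (hP : Pt G n dl b m q F N L κ σ Q p g z t u h)
    (A A1 A2 A3 : Fin 4 → ℝ × ℝ × ℝ → ℝ) (hm : 0 ≤ A 3 (N, L, p)) :
    A 0 (N, L, p) * (2 * Q + 18 * (N ^ 2 - 2 * κ * N ^ 3 + N ^ 4) + 26 * p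
        - 4 * N * (8 * κ * (dot g g - dot z z) + 16 * σ * dot g z + 4 * dot z t))
      + dot (fun i => A1 0 (N, L, p) * g i + A2 0 (N, L, p) * h i + A3 0 (N, L, p) *
          Gb N κ σ u g z i) (Gb N κ σ u g z)
    + (A 1 (N, L, p) * (36 * κ * N ^ 3 - 36 * N ^ 4
        + 2 * N * (8 * κ * (dot g g - dot z z) + 16 * σ * dot g z + 4 * dot z t))
      + dot (fun i => A1 1 (N, L, p) * g i + A2 1 (N, L, p) * h i + A3 1 (N, L, p) *
          Gb N κ σ u g z i) (Gd N κ σ g z))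
    + (A 2 (N, L, p) * (10 / 3 * p + 12 * N ^ 2 - 12 * κ * N ^ 3)
      + 2 * N * dot (fun i => A1 2 (N, L, p) * g i + A2 2 (N, L, p) * h i + A3 2 (N, L, p) *
          Gb N κ σ u g z i) g)
    + (A 3 (N, L, p) * (10 / 3 * dot h h + 12 * L ^ 2 - 12 * L ^ 3)
      + 2 * L * dot (fun i => A1 3 (N, L, p) * g i + A2 3 (N, L, p) * h i + A3 3 (N, L, p) *
          Gb N κ σ u g z i) h)
    ≤ FF G ![b, dl, n, m] A A1 A2 A3 n m b 0 q := by
  have hlin : ∀ (a1 a2 a3 : ℝ) (x1 x2 x3 y : Fin 4 → ℝ),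
      dot (fun i => a1 * x1 i + a2 * x2 i + a3 * x3 i) y =
        a1 * dot x1 y + a2 * dot x2 y + a3 * dot x3 y := by
    intro a1 a2 a3 x1 x2 x3 y
    unfold dot
    rw [Finset.mul_sum, Finset.mul_sum, Finset.mul_sum, ← Finset.sum_add_distrib,
      ← Finset.sum_add_distrib]
    exact Finset.sum_congr rfl fun i _ => by ring
  rw [hP.FF_eval, Fin.sum_univ_four]
  simp only [Matrix.cons_val_zero, Matrix.cons_val_one, Matrix.cons_val]
  rw [hP.gr_b, hP.gr_d, hP.gr_n, hP.gr_m, hP.lap_b, hP.lap_d, hP.lap_n, dot_smul_right,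
    dot_smul_right, dot_smul_right, dot_smul_right, dot_smul_right, dot_smul_right, hlin, hlin,
    hlin, hlin]
  have := mul_le_mul_of_nonneg_left hP.lap_m hm
  linarith only [this]

/-- `(3/7)|u|²/p ≤ Q` -/
theorem Q_ge (hP : Pt G n dl b m q F N L κ σ Q p g z t u h) : 3 / 7 * (dot u u / p) ≤ Q := by
  rcases hP.p0.lt_or_eq with h0 | h0
  · rw [← mul_div_assoc, div_le_iff₀ h0]
    linarith only [hP.Qu]
  · rw [← h0]; simpa using hP.Q0

end Pt

/-- the pointwise expression of the divergence of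
`A ∇(b + 2 det - (9/2) n) + (B/2) ∇m + (C/2) ∇n`; `a, aN, aL` are `A` and its partial derivatives,
`B, BN, BL, Bp` those of `B`, `C, CN, CL, Cp` those of `C`. -/
noncomputable def RR (N L κ σ p : ℝ) (u g z h : Fin 4 → ℝ) (a aN aL B BN BL Bp C CN CL Cp : ℝ) : ℝ :=
  a * (6 / 7 * (dot u u / p) + 11 * p - 36 * N ^ 2 + 90 * κ * N ^ 3 - 54 * N ^ 4)
  + dot (fun i => aN * g i + aL * h i)
      (fun i => u i - 6 * N * g i + 9 * N ^ 2 * (κ * g i + σ * z i))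
  + B * (5 / 3 * dot h h + 6 * L ^ 2 - 6 * L ^ 3)
  + L * dot (fun i => BN * g i + BL * h i + Bp * Gb N κ σ u g z i) h
  + C * (5 / 3 * p + 6 * N ^ 2 - 6 * κ * N ^ 3)
  + N * dot (fun i => CN * g i + CL * h i + Cp * Gb N κ σ u g z i) g

/-- coefficients of the field `A ∇(b + 2 det - (9/2) n) + (B/2) ∇m + (C/2) ∇n` in the columns
`b, dl, n, m`. -/
noncomputable def col (a B C : ℝ × ℝ × ℝ → ℝ) : Fin 4 → ℝ × ℝ × ℝ → ℝ :=
  ![a, fun v => 2 * a v, fun v => -(9 / 2) * a v + 1 / 2 * C v, fun v => 1 / 2 * B v]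

theorem Pt.FF_psi (hP : Pt G n dl b m q F N L κ σ Q p g z t u h)
    (a aN aL B BN BL Bp C CN CL Cp : ℝ × ℝ × ℝ → ℝ) (ha : 0 ≤ a (N, L, p))
    (hB : 0 ≤ B (N, L, p)) :
    RR N L κ σ p u g z h (a (N, L, p)) (aN (N, L, p)) (aL (N, L, p)) (B (N, L, p))
      (BN (N, L, p)) (BL (N, L, p)) (Bp (N, L, p)) (C (N, L, p)) (CN (N, L, p)) (CL (N, L, p))
      (Cp (N, L, p)) ≤
    FF G ![b, dl, n, m] (col a B C) (col aN BN CN) (col aL BL CL) (col (fun _ => 0) Bp Cp)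
      n m b 0 q := by
  have h1 := hP.FF_four (col a B C) (col aN BN CN) (col aL BL CL) (col (fun _ => 0) Bp Cp)
    (by
      have : (col a B C) 3 (N, L, p) = 1 / 2 * B (N, L, p) := rfl
      rw [this]; positivity)
  refine le_trans ?_ h1
  have h2 := mul_le_mul_of_nonneg_left hP.Q_ge ha
  simp only [col, Matrix.cons_val_zero, Matrix.cons_val_one, Matrix.cons_val]
  unfold RR
  simp only [dot, Fin.sum_univ_four, Gb, Gd] at h2 ⊢
  linarith only [h2]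

end

end Vale.Agent.P211.H626
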