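import Vale.Agent.P211.H626.Tab7
import Vale.Agent.P211.H129.TabC7
import Vale.Agent.P211.H210.Cover

set_option linter.all false

/-! P211 (helper626): the scalar conditions of a vertex from the tables and the leaves of the
three charts. -/

namespace Vale.Agent.P211.H626

open Vale.Agent.P211 Vale.Agent.P211.S4 Vale.Agent.P211.H237

theorem tht_pos_of {N M : ℝ} (h : 1 / 4 ≤ Tht N M) : 0 < Tht N M := by linarith

/-- the conditions for chart I -/
theorem pwI {s : En} {z : ZP} {T : Tab} {num den : ℤ} (hs : s.h = chR) (hok : s.ok = true)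
    (hn : 0 < num) (hd : 0 < den) (h : okI s z T num den = true)
    (hg : ∀ x y p k : ℝ, 0 ≤ x → x ≤ 1 → 0 ≤ y → y ≤ 1 → 0 ≤ p → p ≤ 49 → -1 ≤ k → k ≤ 1 →
      idI.Good (T.vals x y) p k) :
    ∀ N M p κ, Dom N M p κ → 0 < p → 1 / 4 ≤ Tht N M → 2 * N + M ≤ 2 →
      H129.PwX (s.co N M) (s.ex N M) N M p κ (s.dn / 30000 * (N ^ 2 * M ^ 2)) := by
  intro N M p κ hD hp hT h2
  obtain ⟨r, w, r0, r1, w0, w1, hN, hM⟩ := H210.cover_I hD h2
  have hT' := tht_pos_of hT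
  have hC : chR.At r w N M := chR_at hN (by rw [hM]; ring)
  have hA : s.At r w N M := ⟨hok, by rw [hs]; exact hC, hT'.ne'⟩
  obtain ⟨e, e19, e20, e21, e22, e23, e99⟩ := eqI_of_ok hn hd h hA hT'
  refine pwx_of_goodI hA hT' e (hg r w p κ r0 r1 w0 w1 hp.le (H210.p_le_49 hD h2) hD.k1 hD.k2) ?_
  intro c hc
  simp only [idI, List.mem_cons, List.not_mem_nil, or_false] at hc
  rcases hc with rfl | rfl
  · show 0 ≤ T.vals r w 19 + p * T.vals r w 99 + κ * T.vals r w 20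
    rw [e19, e20, e99]
    have := hD.kmin
    linarith
  · show 0 ≤ T.vals r w 21 + p * T.vals r w 22 + κ * T.vals r w 23
    rw [e21, e22, e23]
    have := hD.ap
    linarith

/-- the conditions for chart II -/
theorem pwII {s : En} {z : ZP} {T : Tab} {num den : ℤ} (hs : s.h = chB) (hok : s.ok = true)
    (hn : 0 < num) (hd : 0 < den) (h : okII s z T num den = true)
    (hg : ∀ x y P k : ℝ, 0 ≤ x → x ≤ 2 → 1 / 2 ≤ y → y ≤ 1 → 0 ≤ P → P ≤ 1 → 0 ≤ k → k ≤ 1 →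
      idII.Good (T.vals x y) P k) :
    ∀ N M p κ, Dom N M p κ → 0 < p → 1 / 4 ≤ Tht N M → 2 < 2 * N + M →
      H129.PwX (s.co N M) (s.ex N M) N M p κ (s.dn / 30000 * (N ^ 2 * M ^ 2)) := by
  intro N M p κ hD hp hT h2
  obtain ⟨b, v, P, k, b0, b1, v0, v1, P0, P1, k0, k1, hN, hM, hP, hk, hE, -⟩ := H210.cover_II hD h2
  have hT' := tht_pos_of hT
  have hv : 0 < v := by linarith
  have hC : chB.At b v N M := chB_at hN hM
  have hA : s.At b v N M := ⟨hok, by rw [hs]; exact hC, hT'.ne'⟩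
  obtain ⟨e, e21, e22, e23, e24, e99⟩ := eqII_of_ok hn hd h hA hT'
  have hcap : 120 * (2 - N - M) + 8 * (N - M) ^ 2 = 20 * Tht N M - 12 * (N - M) ^ 2 := by
    unfold Tht; ring
  have hk' : κ = 1 - k * ((1 - v) ^ 2 * (1 + 2 * v)) / (2 * v ^ 3) := by
    have h3 : v ^ 3 ≠ 0 := by positivity
    have h4 : κ = (v ^ 3 - k * ((1 - v) ^ 2 * (1 + 2 * v) / 2)) / v ^ 3 := by
      rw [← hk]; field_simp
    rw [h4]
    field_simp
  have hP' : p = P * (120 * (2 - N - M) + 8 * (N - M) ^ 2) := by rw [hcap, ← hP]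
  rw [hP']
  refine pwx_of_goodII hA hT' e hv k0 hk' (hg b v P k b0.le b1 v0.le v1 P0 P1 k0 k1) ?_
  intro c hc
  simp only [idII, List.mem_cons, List.not_mem_nil, or_false] at hc
  rcases hc with rfl | rfl
  · show 0 ≤ T.vals b v 21 + P * T.vals b v 99 + k * T.vals b v 99
    rw [e21, e99]
    linarith
  · show 0 ≤ T.vals b v 22 + P * T.vals b v 23 + k * T.vals b v 24
    rw [e22, e23, e24]
    have h1 := hD.ap
    have h5 : 4 * κ * N ^ 3 = 4 * N ^ 3 - 2 * k * (b ^ 3 * ((1 - v) ^ 2 * (1 + 2 * v))) := by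
      have h6 : κ * N ^ 3 = b ^ 3 * (κ * v ^ 3) := by rw [hN]; ring
      have h7 : N ^ 3 = b ^ 3 * v ^ 3 := by rw [hN]; ring
      rw [show 4 * κ * N ^ 3 = 4 * (κ * N ^ 3) by ring, h6, hk, h7]
      ring
    rw [h5, hP'] at h1
    linarith

/-- the data of a vertex in one structure -/
structure VData where
  d : CD
  x1 : ℤ
  y1 : ℤ

/-- the parameters of a chart -/
def VData.en (v : VData) (h : Ch) : En := ⟨v.d, v.x1, v.y1, h, 3, 3⟩

/-- **a vertex is finished** by the tables and leaves of the three charts -/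
theorem vok_of {v : VData} (hok : (v.en chR).ok = true) {x y : ℝ} (hx : (v.x1 : ℝ) / 6 = x)
    (hy : (v.y1 : ℝ) / 6 = y)
    (hB : ∀ N M p κ, Dom N M p κ → 0 ≤ v.d.cert.B0.f N M + p * v.d.cert.B1.f N M)
    {zI zII zC : ZP} {TI TII TC : Tab} {nI dI nII dII : ℤ} {nC dC : ℕ}
    (hnI : 0 < nI) (hdI : 0 < dI) (hnII : 0 < nII) (hdII : 0 < dII) (hnC : 0 < nC) (hdC : 0 < dC)
    (hI : okI (v.en chR) zI TI nI dI = true) (hII : okII (v.en chB) zII TII nII dII = true)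
    (hC : H129.okC7 (v.en chC) zC TC nC dC = true)
    (gI : ∀ x y p k : ℝ, 0 ≤ x → x ≤ 1 → 0 ≤ y → y ≤ 1 → 0 ≤ p → p ≤ 49 → -1 ≤ k → k ≤ 1 →
      idI.Good (TI.vals x y) p k)
    (gII : ∀ x y P k : ℝ, 0 ≤ x → x ≤ 2 → 1 / 2 ≤ y → y ≤ 1 → 0 ≤ P → P ≤ 1 → 0 ≤ k → k ≤ 1 →
      idII.Good (TII.vals x y) P k)
    (gC : ∀ x y P k : ℝ, 0 ≤ x → x ≤ 1 / 2 → -1 ≤ y → y ≤ 1 → 0 ≤ P → P ≤ 1 → 0 ≤ k →
      k ≤ 1 / 14 → H129.idC7.Good (TC.vals x y) P k) :
    H210.VOk v.d.cert x y := by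
  subst hx hy
  refine ⟨fun G => CD.sm _, hB, ?_⟩
  have hδ : ∀ N M : ℝ, ((3 : ℤ) : ℝ) / 30000 * (N ^ 2 * M ^ 2) = N ^ 2 * M ^ 2 / 10 ^ 4 := by
    intro N M; push_cast; ring
  have h1 := pwI (s := v.en chR) rfl hok hnI hdI hI gI
  have h2 := pwII (s := v.en chB) rfl hok hnII hdII hII gII
  have h3 := H129.pwC7 (s := v.en chC) rfl rfl hok hnC hdC hC gC
  refine H210.pw_of_charts (Q := fun N M p κ => H129.PwX (v.d.cert.co N M)
    (Cert.exP aa aa' ((v.x1 : ℝ) / 6) ((v.y1 : ℝ) / 6) N M) N M p κ (N ^ 2 * M ^ 2 / 10 ^ 4))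
    (fun N M p κ hD hp hT => ?_) (fun N M p κ hD hp hT h => ?_) (fun N M p κ hD hp hT h => ?_)
  · have := h3 N M p κ hD hp hT
    rw [← hδ]
    exact this
  · have := h1 N M p κ hD hp hT h
    rw [← hδ]
    exact this
  · have := h2 N M p κ hD hp hT h
    rw [← hδ]
    exact this

end Vale.Agent.P211.H626
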