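import Vale.Agent.P211.H626.Vert
import Vale.Agent.P211.H129.Red2

set_option linter.all false

/-! P211 (helper626): functions of `N, M` with partial derivatives, certificates
`A ∇Ψ + B M ∇M + C N ∇N` and their columns, and the link with helper129's `RR`. -/

namespace Vale.Agent.P211.H626

open Topology Filter MeasureTheory Set
open scoped ContDiff
open Vale.Agent.P211 Vale.Agent.P211.S4 Vale.Agent.P211.H56

/-- a function of `N, M` together with its partial derivatives -/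
@[ext] structure Fn where
  f : ℝ → ℝ → ℝ
  fN : ℝ → ℝ → ℝ
  fM : ℝ → ℝ → ℝ

/-- `Θ = 6 (2 - N - M) + (N - M)²` -/
def Tht (N M : ℝ) : ℝ := 6 * (2 - N - M) + (N - M) ^ 2

namespace Fn

/-- a constant -/
def const (c : ℝ) : Fn := ⟨fun _ _ => c, fun _ _ => 0, fun _ _ => 0⟩
/-- `N` -/
def vN : Fn := ⟨fun N _ => N, fun _ _ => 1, fun _ _ => 0⟩
/-- `M` -/
def vM : Fn := ⟨fun _ M => M, fun _ _ => 0, fun _ _ => 1⟩
/-- `ξ = N - M` -/
def xi : Fn := ⟨fun N M => N - M, fun _ _ => 1, fun _ _ => -1⟩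
def add (F H : Fn) : Fn := ⟨fun N M => F.f N M + H.f N M, fun N M => F.fN N M + H.fN N M,
  fun N M => F.fM N M + H.fM N M⟩
def mul (F H : Fn) : Fn := ⟨fun N M => F.f N M * H.f N M,
  fun N M => F.fN N M * H.f N M + F.f N M * H.fN N M,
  fun N M => F.fM N M * H.f N M + F.f N M * H.fM N M⟩
def smul (c : ℝ) (F : Fn) : Fn := ⟨fun N M => c * F.f N M, fun N M => c * F.fN N M,
  fun N M => c * F.fM N M⟩
/-- `Θ⁻¹` -/
noncomputable def thI : Fn := ⟨fun N M => (Tht N M)⁻¹,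
  fun N M => -((Tht N M)⁻¹ ^ 2) * (-6 + 2 * (N - M)),
  fun N M => -((Tht N M)⁻¹ ^ 2) * (-6 - 2 * (N - M))⟩
/-- a monomial with integer coefficient -/
def mono (c : ℤ) (i j : ℕ) : Fn := ⟨fun N M => c * (N ^ i * M ^ j),
  fun N M => c * ((i * N ^ (i - 1)) * M ^ j), fun N M => c * (N ^ i * (j * M ^ (j - 1)))⟩
/-- a polynomial with integer coefficients: list of `(c, i, j)` -/
def poly : List (ℤ × ℕ × ℕ) → Fn
  | [] => const 0
  | t :: l => (mono t.1 t.2.1 t.2.2).add (poly l)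
/-- powers -/
def pow (F : Fn) : ℕ → Fn
  | 0 => const 1
  | k + 1 => (pow F k).mul F

variable {M 𝒪 V : Type*} [TopologicalSpace M] [CommRing 𝒪] [Algebra ℝ 𝒪]
    [AddCommGroup V] [Module 𝒪 V] {G : Geo2 M 𝒪 V}

/-- the function can be used as a coefficient -/
def Sm (G : Geo2 M 𝒪 V) (F : Fn) : Prop :=
  Sm3 G Om (fun v => F.f v.1 v.2.1) (fun v => F.fN v.1 v.2.1) (fun v => F.fM v.1 v.2.1)
    (fun _ => 0)

theorem Sm.const (c : ℝ) : (const c).Sm G := Sm3.const c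

theorem Sm.vN : vN.Sm G := Sm3.v1

theorem Sm.vM : vM.Sm G := Sm3.v2

theorem Sm.add {F H : Fn} (hF : F.Sm G) (hH : H.Sm G) : (F.add H).Sm G := by
  refine (Sm3.add hF hH).congr (fun _ _ => rfl) (fun _ _ => rfl) (fun _ _ => rfl)
    (fun _ _ => by simp)

theorem Sm.smul (c : ℝ) {F : Fn} (hF : F.Sm G) : (F.smul c).Sm G := by
  refine (Sm3.smul c hF).congr (fun _ _ => rfl) (fun _ _ => rfl) (fun _ _ => rfl)
    (fun _ _ => by simp)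

theorem Sm.mul {F H : Fn} (hF : F.Sm G) (hH : H.Sm G) : (F.mul H).Sm G := by
  refine (Sm3.mul hF hH).congr (fun _ _ => rfl) (fun _ _ => rfl) (fun _ _ => rfl)
    (fun _ _ => by simp)

theorem Sm.pow {F : Fn} (hF : F.Sm G) : ∀ k, (F.pow k).Sm G
  | 0 => Sm.const 1
  | k + 1 => (Sm.pow hF k).mul hF

theorem Sm.xi : xi.Sm G := by
  refine (Sm3.sub Sm3.v1 Sm3.v2).congr (fun _ _ => rfl) (fun _ _ => ?_) (fun _ _ => ?_)
    (fun _ _ => ?_)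
  · show (1 : ℝ) = 1 - 0
    ring
  · show (-1 : ℝ) = 0 - 1
    ring
  · show (0 : ℝ) = 0 - 0
    ring

theorem Sm.thI : thI.Sm G := by
  have h1 : Sm3 G Om (fun v => 6 * (2 - v.1 - v.2.1) + (v.1 - v.2.1) ^ 2)
      (fun v => -6 + 2 * (v.1 - v.2.1)) (fun v => -6 - 2 * (v.1 - v.2.1)) (fun _ => 0) := by
    have h2 := (((Sm3.const (G := G) (Ω := Om) 2).sub Sm3.v1).sub Sm3.v2).smul 6
    have h3 := ((Sm3.v1 (G := G) (Ω := Om)).sub Sm3.v2).pow 2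
    refine (h2.add h3).congr (fun _ _ => rfl) (fun _ _ => ?_) (fun _ _ => ?_) (fun _ _ => ?_)
    · push_cast; ring
    · push_cast; ring
    · push_cast; ring
  refine (h1.inv (fun v hv => ?_)).congr (fun _ _ => rfl) (fun _ _ => rfl) (fun _ _ => rfl)
    (fun _ _ => by simp)
  have : 0 < 6 * (2 - v.1 - v.2.1) + (v.1 - v.2.1) ^ 2 := hv
  exact this.ne'

theorem Sm.mono (c : ℤ) (i j : ℕ) : (mono c i j).Sm G := by
  have h1 := (((Sm3.v1 (G := G) (Ω := Om)).pow i).mul ((Sm3.v2 (G := G) (Ω := Om)).pow j)).smul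
    (c : ℝ)
  refine h1.congr (fun _ _ => rfl) (fun _ _ => ?_) (fun _ _ => ?_) (fun _ _ => ?_)
  · show (c : ℝ) * _ = (c : ℝ) * _
    ring
  · show (c : ℝ) * _ = (c : ℝ) * _
    ring
  · ring

theorem Sm.poly : ∀ l : List (ℤ × ℕ × ℕ), (poly l).Sm G
  | [] => Sm.const 0
  | t :: l => (Sm.mono _ _ _).add (Sm.poly l)

end Fn

/-- a certificate: the fields `A ∇Ψ + (B0 + p B1) M ∇M + (C0 + p C1) N ∇N` -/
structure Cert where
  A : Fn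
  B0 : Fn
  B1 : Fn
  C0 : Fn
  C1 : Fn

namespace Cert

/-- all coefficients at a point -/
def co (c : Cert) (N M : ℝ) : H129.Co where
  A := c.A.f N M
  AN := c.A.fN N M
  AM := c.A.fM N M
  B0 := c.B0.f N M
  B0N := c.B0.fN N M
  B0M := c.B0.fM N M
  B1 := c.B1.f N M
  B1N := c.B1.fN N M
  B1M := c.B1.fM N M
  C0 := c.C0.f N M
  C0N := c.C0.fN N M
  C0M := c.C0.fM N M
  C1 := c.C1.f N M
  C1N := c.C1.fN N M
  C1M := c.C1.fM N M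

/-- the columns -/
noncomputable def cA (c : Cert) : Fin 4 → ℝ × ℝ × ℝ → ℝ :=
  ![fun v => c.A.f v.1 v.2.1, fun v => 2 * c.A.f v.1 v.2.1,
    fun v => 1 / 2 * (c.B0.f v.1 v.2.1 + v.2.2 * c.B1.f v.1 v.2.1),
    fun v => -(9 / 2) * c.A.f v.1 v.2.1 + 1 / 2 * (c.C0.f v.1 v.2.1 + v.2.2 * c.C1.f v.1 v.2.1)]
noncomputable def cA1 (c : Cert) : Fin 4 → ℝ × ℝ × ℝ → ℝ :=
  ![fun v => c.A.fN v.1 v.2.1, fun v => 2 * c.A.fN v.1 v.2.1,
    fun v => 1 / 2 * (c.B0.fN v.1 v.2.1 + v.2.2 * c.B1.fN v.1 v.2.1),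
    fun v => -(9 / 2) * c.A.fN v.1 v.2.1 +
      1 / 2 * (c.C0.fN v.1 v.2.1 + v.2.2 * c.C1.fN v.1 v.2.1)]
noncomputable def cA2 (c : Cert) : Fin 4 → ℝ × ℝ × ℝ → ℝ :=
  ![fun v => c.A.fM v.1 v.2.1, fun v => 2 * c.A.fM v.1 v.2.1,
    fun v => 1 / 2 * (c.B0.fM v.1 v.2.1 + v.2.2 * c.B1.fM v.1 v.2.1),
    fun v => -(9 / 2) * c.A.fM v.1 v.2.1 +
      1 / 2 * (c.C0.fM v.1 v.2.1 + v.2.2 * c.C1.fM v.1 v.2.1)]
noncomputable def cA3 (c : Cert) : Fin 4 → ℝ × ℝ × ℝ → ℝ :=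
  ![fun _ => 0, fun _ => 0, fun v => 1 / 2 * c.B1.f v.1 v.2.1, fun v => 1 / 2 * c.C1.f v.1 v.2.1]

variable {M 𝒪 V : Type*} [TopologicalSpace M] [CommRing 𝒪] [Algebra ℝ 𝒪]
    [AddCommGroup V] [Module 𝒪 V] {G : Geo2 M 𝒪 V}

/-- all coefficient functions can be used -/
structure Sm (G : Geo2 M 𝒪 V) (c : Cert) : Prop where
  A : c.A.Sm G
  B0 : c.B0.Sm G
  B1 : c.B1.Sm G
  C0 : c.C0.Sm G
  C1 : c.C1.Sm G

theorem Sm.aff {F H : Fn} (hF : F.Sm G) (hH : H.Sm G) (r : ℝ) :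
    Sm3 G Om (fun v => r * (F.f v.1 v.2.1 + v.2.2 * H.f v.1 v.2.1))
      (fun v => r * (F.fN v.1 v.2.1 + v.2.2 * H.fN v.1 v.2.1))
      (fun v => r * (F.fM v.1 v.2.1 + v.2.2 * H.fM v.1 v.2.1))
      (fun v => r * H.f v.1 v.2.1) := by
  refine ((Sm3.add hF (Sm3.mul Sm3.v3 hH)).smul r).congr (fun _ _ => rfl) (fun _ _ => ?_)
    (fun _ _ => ?_) (fun _ _ => ?_) <;> ring

theorem sm3 {c : Cert} (h : c.Sm G) : ∀ i, Sm3 G Om (c.cA i) (c.cA1 i) (c.cA2 i) (c.cA3 i) := by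
  intro i
  fin_cases i
  · exact h.A
  · refine (Sm3.smul 2 h.A).congr (fun _ _ => rfl) (fun _ _ => rfl) (fun _ _ => rfl)
      (fun _ _ => ?_)
    show (0 : ℝ) = 2 * 0
    ring
  · exact Sm.aff h.B0 h.B1 (1 / 2)
  · refine ((Sm3.smul (-(9 / 2)) h.A).add (Sm.aff h.C0 h.C1 (1 / 2))).congr (fun _ _ => rfl)
      (fun _ _ => rfl) (fun _ _ => rfl) (fun _ _ => ?_)
    show (1 / 2 * c.C1.f _ _ : ℝ) = -(9 / 2) * 0 + 1 / 2 * c.C1.f _ _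
    ring

/-- the Poincaré part in helper129's form -/
noncomputable def exP (a a' : ℝ → ℝ) (x y N M : ℝ) : H129.Ex where
  e0 := 4 * (x * a N ^ 2 - 2 * (a N * a M) + y * a M ^ 2)
  e1 := 0
  ek := 0
  hh := -(y * a' M ^ 2)
  gh := 2 * (a' N * a' M)
  gg := -(x * a' N ^ 2)

/-- **The link with helper129's integrand.** -/
theorem CS_eq (c : Cert) (a a' : ℝ → ℝ) (x y : ℝ) (P : Pt) :
    CS c.cA c.cA1 c.cA2 c.cA3 P + Poi a a' x y P =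
      H129.RR (c.co P.N P.M) (exP a a' x y P.N P.M) P.N P.M P.p P.κ P.σ P.u P.h P.g P.z := by
  unfold CS Poi Pt.col H129.RR exP co
  show (c.A.f P.N P.M) * P.lB + (c.A.fN P.N P.M * _ + c.A.fM P.N P.M * _ + 0 * _) +
    ((2 * c.A.f P.N P.M) * P.lD + ((2 * c.A.fN P.N P.M) * _ + (2 * c.A.fM P.N P.M) * _ + 0 * _)) +
    ((1 / 2 * (c.B0.f P.N P.M + P.p * c.B1.f P.N P.M)) * P.lM +
      ((1 / 2 * (c.B0.fN P.N P.M + P.p * c.B1.fN P.N P.M)) * _ +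
      (1 / 2 * (c.B0.fM P.N P.M + P.p * c.B1.fM P.N P.M)) * _ +
      (1 / 2 * c.B1.f P.N P.M) * _)) +
    ((-(9 / 2) * c.A.f P.N P.M + 1 / 2 * (c.C0.f P.N P.M + P.p * c.C1.f P.N P.M)) * P.lN +
      ((-(9 / 2) * c.A.fN P.N P.M + 1 / 2 * (c.C0.fN P.N P.M + P.p * c.C1.fN P.N P.M)) * _ +
      (-(9 / 2) * c.A.fM P.N P.M + 1 / 2 * (c.C0.fM P.N P.M + P.p * c.C1.fM P.N P.M)) * _ +
      (1 / 2 * c.C1.f P.N P.M) * _)) + _ = _
  unfold Pt.lB Pt.lD Pt.lM Pt.lN Pt.dB Pt.dD Pt.dM Pt.dN H56.dt H129.dt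
  simp only [Fin.sum_univ_four]
  ring

/-- **From the pointwise inequality to the vertex certificate.** -/
theorem vc {c : Cert} (h : c.Sm G) {E : Pt → Prop} {a a' : ℝ → ℝ} {x y : ℝ}
    (hpos : ∀ P : Pt, P.Ok → E P → ¬ (P.N = 1 ∧ P.M = 1) →
      0 ≤ c.A.f P.N P.M ∧ 0 ≤ c.B0.f P.N P.M + P.p * c.B1.f P.N P.M ∧
      0 ≤ H129.RR (c.co P.N P.M) (exP a a' x y P.N P.M) P.N P.M P.p P.κ P.σ P.u P.h P.g P.z ∧
      (0 < P.N → 0 < P.M →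
      0 < H129.RR (c.co P.N P.M) (exP a a' x y P.N P.M) P.N P.M P.p P.κ P.σ P.u P.h P.g P.z)) :
    VC G E a a' x y := by
  refine ⟨c.cA, c.cA1, c.cA2, c.cA3, sm3 h, fun P hP hE hne => ?_⟩
  obtain ⟨k1, k2, k3, k4⟩ := hpos P hP hE hne
  rw [CS_eq]
  refine ⟨k1, ?_, k3, k4⟩
  show 0 ≤ 1 / 2 * (c.B0.f P.N P.M + P.p * c.B1.f P.N P.M)
  linarith

end Cert

end Vale.Agent.P211.H626
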