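import Vale.Agent.P211.H626.Fin7
import Vale.Agent.P211.H56.Leaf7

set_option linter.all false

/-! P211 (helper626): from covered boxes to the three chart statements. -/

namespace Vale.Agent.P211.H626

open Vale.Agent.P211 Vale.Agent.P211.S4 Vale.Agent.P211.H237

theorem gI_of {f : Fmt7} (hI : f.I = idI) {xb yb : ℤ} {pb : ℕ} {ka kb : ℤ}
    (h : f.Cov ⟨0, xb, 0, yb, 0, pb, ka, kb⟩) (hx : (f.xq : ℤ) ≤ xb) (hy : (f.yq : ℤ) ≤ yb)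
    (hp : 49 * f.pq ≤ pb) (hk : ka ≤ -(f.kq : ℤ)) (hk' : (f.kq : ℤ) ≤ kb) (x y p k : ℝ)
    (x0 : 0 ≤ x) (x1 : x ≤ 1) (y0 : 0 ≤ y) (y1 : y ≤ 1) (p0 : 0 ≤ p) (p1 : p ≤ 49) (k0 : -1 ≤ k)
    (k1 : k ≤ 1) : idI.Good (f.T.vals x y) p k := by
  rw [← hI]
  have hx' : (f.xq : ℝ) ≤ xb := by exact_mod_cast hx
  have hy' : (f.yq : ℝ) ≤ yb := by exact_mod_cast hy
  have hp' : 49 * (f.pq : ℝ) ≤ pb := by exact_mod_cast hp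
  have hk1 : (ka : ℝ) ≤ -f.kq := by exact_mod_cast hk
  have hk2 : (f.kq : ℝ) ≤ kb := by exact_mod_cast hk'
  have a1 : (0 : ℝ) ≤ f.xq := Nat.cast_nonneg _
  have a2 : (0 : ℝ) ≤ f.yq := Nat.cast_nonneg _
  have a3 : (0 : ℝ) ≤ f.pq := Nat.cast_nonneg _
  have a4 : (0 : ℝ) ≤ f.kq := Nat.cast_nonneg _
  refine h x y p k ⟨?_, ?_, ?_, ?_, ?_, ?_, ?_, ?_⟩
  · push_cast; positivity
  · nlinarith
  · push_cast; positivity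
  · nlinarith
  · push_cast; positivity
  · nlinarith
  · nlinarith
  · nlinarith

theorem gII_of {f : Fmt7} (hI : f.I = idII) {xb ya yb : ℤ} {pb : ℕ} {kb : ℤ}
    (h : f.Cov ⟨0, xb, ya, yb, 0, pb, 0, kb⟩) (hx : 2 * (f.xq : ℤ) ≤ xb)
    (hy0 : 2 * ya ≤ (f.yq : ℤ)) (hy : (f.yq : ℤ) ≤ yb)
    (hp : f.pq ≤ pb) (hk' : (f.kq : ℤ) ≤ kb) (x y p k : ℝ)
    (x0 : 0 ≤ x) (x1 : x ≤ 2) (y0 : 1 / 2 ≤ y) (y1 : y ≤ 1) (p0 : 0 ≤ p) (p1 : p ≤ 1) (k0 : 0 ≤ k)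
    (k1 : k ≤ 1) : idII.Good (f.T.vals x y) p k := by
  rw [← hI]
  have hx' : 2 * (f.xq : ℝ) ≤ xb := by exact_mod_cast hx
  have hy0' : 2 * (ya : ℝ) ≤ f.yq := by exact_mod_cast hy0
  have hy' : (f.yq : ℝ) ≤ yb := by exact_mod_cast hy
  have hp' : (f.pq : ℝ) ≤ pb := by exact_mod_cast hp
  have hk2 : (f.kq : ℝ) ≤ kb := by exact_mod_cast hk'
  have a1 : (0 : ℝ) ≤ f.xq := Nat.cast_nonneg _
  have a2 : (0 : ℝ) ≤ f.yq := Nat.cast_nonneg _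
  have a3 : (0 : ℝ) ≤ f.pq := Nat.cast_nonneg _
  have a4 : (0 : ℝ) ≤ f.kq := Nat.cast_nonneg _
  refine h x y p k ⟨?_, ?_, ?_, ?_, ?_, ?_, ?_, ?_⟩
  · push_cast; positivity
  · nlinarith
  · nlinarith
  · nlinarith
  · push_cast; positivity
  · nlinarith
  · push_cast; positivity
  · nlinarith

theorem gC_of {f : Fmt7} (hI : f.I = H129.idC7) {xb ya yb : ℤ} {pb : ℕ} {kb : ℤ}
    (h : f.Cov ⟨0, xb, ya, yb, 0, pb, 0, kb⟩) (hx : (f.xq : ℤ) ≤ 2 * xb)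
    (hy0 : ya ≤ -(f.yq : ℤ)) (hy : (f.yq : ℤ) ≤ yb)
    (hp : f.pq ≤ pb) (hk' : (f.kq : ℤ) ≤ 14 * kb) (x y p k : ℝ)
    (x0 : 0 ≤ x) (x1 : x ≤ 1 / 2) (y0 : -1 ≤ y) (y1 : y ≤ 1) (p0 : 0 ≤ p) (p1 : p ≤ 1)
    (k0 : 0 ≤ k) (k1 : k ≤ 1 / 14) : H129.idC7.Good (f.T.vals x y) p k := by
  rw [← hI]
  have hx' : (f.xq : ℝ) ≤ 2 * xb := by exact_mod_cast hx
  have hy0' : (ya : ℝ) ≤ -f.yq := by exact_mod_cast hy0
  have hy' : (f.yq : ℝ) ≤ yb := by exact_mod_cast hy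
  have hp' : (f.pq : ℝ) ≤ pb := by exact_mod_cast hp
  have hk2 : (f.kq : ℝ) ≤ 14 * kb := by exact_mod_cast hk'
  have a1 : (0 : ℝ) ≤ f.xq := Nat.cast_nonneg _
  have a2 : (0 : ℝ) ≤ f.yq := Nat.cast_nonneg _
  have a3 : (0 : ℝ) ≤ f.pq := Nat.cast_nonneg _
  have a4 : (0 : ℝ) ≤ f.kq := Nat.cast_nonneg _
  refine h x y p k ⟨?_, ?_, ?_, ?_, ?_, ?_, ?_, ?_⟩
  · push_cast; positivity
  · nlinarith
  · nlinarith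
  · nlinarith
  · push_cast; positivity
  · nlinarith
  · push_cast; positivity
  · nlinarith

end Vale.Agent.P211.H626
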