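import Vale.Agent.P211.H626.Ent
import Vale.Agent.P211.H237.Leaf6

set_option linter.all false

/-! P211 (helper626): from the conclusion `Id6.Good` of a leaf to the scalar conditions `Pw4`,
for the two charts. -/

namespace Vale.Agent.P211.H626

open Vale.Agent.P211 Vale.Agent.P211.S4 Vale.Agent.P211.H237

/-! ### polar chart -/

/-- matrix template of the polar chart -/
def tmP : Tm where
  a11 := [(.p, 0)]
  a12 := [(.p, 1)]
  a13 := [(.p, 2)]
  a14 := []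
  a22 := [(.c, 3), (.p, 4)]
  a23 := [(.c, 5), (.p, 6), (.k, 7)]
  a24 := [(.c, 7)]
  a33 := [(.c, 8), (.p, 9), (.k, 10), (.k, 10), (.l, 11)]
  a34 := [(.c, 10)]
  a44 := [(.n, 11)]

/-- the same with multiplier functions `λ*` -/
def tmPs : Tm := { tmP with a44 := [(.n, 11), (.c, 29), (.p, 30)] }

/-- indices of the polar chart -/
def idP : Id6 where
  tm := tmP
  zs := [(0, 0, 12), (0, 1, 13), (1, 0, 14), (1, 1, 15), (2, 0, 16)]
  zl := 17
  ms := [(0, 17), (2, 18)]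
  r0 := 19
  ss := [(0, 19), (2, 20)]
  one := 19
  cons := [(21, 99, 99), (22, 99, 23), (24, 99, 23), (25, 26, 27), (28, 20, 99)]

/-- the same with multiplier functions `λ*` -/
def idPs : Id6 := { idP with tm := tmPs }

/-- meaning of the tables of the polar chart; `l0 + p l1` is the multiplier function `λ*`, `el` the
profile of the multipliers in the leaves -/
structure EqP (s : En) (w : ℕ → ℝ) (N M g1 g2 c1 c2 l0 l1 el : ℝ) : Prop where
  g1p : 0 < g1
  g2p : 0 < g2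
  c1p : 0 < c1
  cc : 200 * c1 * g1 = c2 * g2
  e0 : g1 * Tht N M ^ 2 * w 0 = 7 * (s.GF N M * (6 * (s.co N M).A))
  e1 : 2 * g1 * Tht N M * w 1 = 7 * (s.GF N M * ((s.co N M).AM + M * (s.co N M).B1))
  e2 : 2 * g1 * Tht N M * w 2 = 7 * (s.GF N M * ((s.co N M).AN + N * (s.co N M).C1))
  e3 : g1 * w 3 = s.GF N M * (5 / 3 * (s.co N M).B0 + M * (s.co N M).B0M + (s.ex N M).hh)
  e4 : g1 * w 4 = s.GF N M * (5 / 3 * (s.co N M).B1 + M * (s.co N M).B1M)
  e5 : 2 * g1 * w 5 = s.GF N M * (-6 * N * (s.co N M).AM + M * (s.co N M).B0N +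
    3 * N * M * (s.co N M).B1 + N * (s.co N M).C0M + (s.ex N M).gh)
  e6 : 2 * g1 * w 6 = s.GF N M * (M * (s.co N M).B1N + N * (s.co N M).C1M)
  e7 : 2 * g1 * w 7 = s.GF N M * (3 * N ^ 2 * (3 * (s.co N M).AM - M * (s.co N M).B1))
  e8 : g1 * w 8 = s.GF N M * (-6 * N * (s.co N M).AN + N * (s.co N M).C0N +
    3 * N ^ 2 * (s.co N M).C1 + (s.ex N M).gg + l0)
  e9 : g1 * w 9 = s.GF N M * (N * (s.co N M).C1N + l1)
  e10 : 2 * g1 * w 10 = s.GF N M * (3 * N ^ 2 * (3 * (s.co N M).AN - N * (s.co N M).C1))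
  e11 : w 11 = c1 * Tht N M ^ s.K * el
  e12 : g2 * w 12 = s.HF N M * ((s.co N M).A * (-36 * N ^ 2 - 54 * N ^ 4) +
    (s.co N M).B0 * (6 * M ^ 2 - 6 * M ^ 3) + (s.co N M).C0 * (6 * N ^ 2) + (s.ex N M).e0 -
    s.dn / 30000 * (N ^ 2 * M ^ 2))
  e13 : g2 * w 13 = s.HF N M * (N ^ 3 * (90 * (s.co N M).A - 6 * (s.co N M).C0))
  e14 : g2 * w 14 = s.HF N M * (11 * (s.co N M).A + (s.co N M).B1 * (6 * M ^ 2 - 6 * M ^ 3) +
    5 / 3 * (s.co N M).C0 + 6 * N ^ 2 * (s.co N M).C1 - l0)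
  e15 : g2 * w 15 = s.HF N M * (-(6 * N ^ 3 * (s.co N M).C1))
  e16 : g2 * w 16 = s.HF N M * (5 / 3 * (s.co N M).C1 - l1)
  e17 : Tht N M * w 17 = c2 * Tht N M ^ s.K * el
  e18 : w 18 = -w 17
  e19 : w 19 = 1
  e20 : w 20 = -1

theorem sel_0 (a b c : ℝ) : sel a b c 0 = a := rfl
theorem sel_1 (a b c : ℝ) : sel a b c 1 = b := rfl
theorem sel_2 (a b c : ℝ) : sel a b c 2 = c := rfl

theorem ex_e1 (s : En) (N M : ℝ) : (s.ex N M).e1 = 0 := rfl
theorem ex_ek (s : En) (N M : ℝ) : (s.ex N M).ek = 0 := rfl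

theorem pw4_of_goodP {s : En} {w : ℕ → ℝ} {X Y N M p κ g1 g2 c1 c2 l0 l1 el : ℝ}
    (h : s.At X Y N M) (hT : 0 < Tht N M) (e : EqP s w N M g1 g2 c1 c2 l0 l1 el)
    (hk : κ ^ 2 ≤ 1) (hel : 0 < el) (hls : 0 ≤ l0 + p * l1)
    (hg : idP.Good w p κ) (hc : ∀ c ∈ idP.cons, 0 ≤ w c.1 + p * w c.2.1 + κ * w c.2.2) :
    Pw4 (s.co N M) (s.ex N M) N M p κ (s.dn / 30000 * (N ^ 2 * M ^ 2)) := by
  obtain ⟨lam, mu, nu, hlam, hmu, hnu, hQ, hS, hR⟩ := hg hc
  have hD : (0 : ℝ) < s.d.D := lt_of_le_of_ne (Nat.cast_nonneg _) h.D0.symm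
  obtain ⟨gp1, gp2, cp1, cc, e0, e1, e2, e3, e4, e5, e6, e7, e8, e9, e10, e11, e12, e13, e14, e15,
    e16, e17, e18, e19, e20⟩ := e
  obtain ⟨T, hTd⟩ : ∃ T, T = Tht N M := ⟨_, rfl⟩
  obtain ⟨D, hDd⟩ : ∃ D : ℝ, D = s.d.D := ⟨_, rfl⟩
  obtain ⟨q, hq⟩ : ∃ q, q = T ^ s.K := ⟨_, rfl⟩
  have hT' : 0 < T := by rw [hTd]; exact hT
  have hD' : 0 < D := by rw [hDd]; exact hD
  have hq0 : 0 < q := by rw [hq]; positivity
  have hG : s.GF N M = 150 * D * (q * T) := by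
    unfold En.GF; rw [← hTd, ← hDd, pow_succ, ← hq]
  have hH : s.HF N M = 30000 * D * q := by unfold En.HF; rw [← hTd, ← hDd, ← hq]
  rw [← hTd] at e0 e1 e2 e11 e17
  rw [← hq] at e11 e17
  rw [hG] at e0 e1 e2 e3 e4 e5 e6 e7 e8 e9 e10
  rw [hH] at e12 e13 e14 e15 e16
  have k0 : w 0 = 7 * (150 * D * (q * T) * (6 * (s.co N M).A)) / (g1 * T ^ 2) := by
    rw [eq_div_iff (by positivity)]; linarith
  have k1 : w 1 = 7 * (150 * D * (q * T) * ((s.co N M).AM + M * (s.co N M).B1)) /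
      (2 * g1 * T) := by
    rw [eq_div_iff (by positivity)]; linarith
  have k2 : w 2 = 7 * (150 * D * (q * T) * ((s.co N M).AN + N * (s.co N M).C1)) /
      (2 * g1 * T) := by
    rw [eq_div_iff (by positivity)]; linarith
  have k3 := eq_div_of_mul_eq gp1.ne' ((mul_comm _ _).trans e3)
  have k4 := eq_div_of_mul_eq gp1.ne' ((mul_comm _ _).trans e4)
  have k5 := eq_div_of_mul_eq (show 2 * g1 ≠ 0 by positivity) ((mul_comm _ _).trans e5)
  have k6 := eq_div_of_mul_eq (show 2 * g1 ≠ 0 by positivity) ((mul_comm _ _).trans e6)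
  have k7 := eq_div_of_mul_eq (show 2 * g1 ≠ 0 by positivity) ((mul_comm _ _).trans e7)
  have k8 := eq_div_of_mul_eq gp1.ne' ((mul_comm _ _).trans e8)
  have k9 := eq_div_of_mul_eq gp1.ne' ((mul_comm _ _).trans e9)
  have k10 := eq_div_of_mul_eq (show 2 * g1 ≠ 0 by positivity) ((mul_comm _ _).trans e10)
  have k12 := eq_div_of_mul_eq gp2.ne' ((mul_comm _ _).trans e12)
  have k13 := eq_div_of_mul_eq gp2.ne' ((mul_comm _ _).trans e13)
  have k14 := eq_div_of_mul_eq gp2.ne' ((mul_comm _ _).trans e14)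
  have k15 := eq_div_of_mul_eq gp2.ne' ((mul_comm _ _).trans e15)
  have k16 := eq_div_of_mul_eq gp2.ne' ((mul_comm _ _).trans e16)
  have k17 : w 17 = c2 * q * el / T := by rw [eq_div_iff hT'.ne']; linarith
  have hc2 : c2 = 200 * c1 * g1 / g2 := by rw [eq_div_iff gp2.ne']; linarith
  have ht : 0 < c1 * g1 * el / (150 * D * T) := by positivity
  refine ⟨l0 + p * l1 + c1 * g1 * el / (150 * D * T) * lam, c1 * g1 * el / (150 * D * T) * mu,
    c1 * g1 * el / (150 * D * T) * nu, by positivity, by positivity, by positivity, ?_, ?_, ?_⟩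
  · intro U X Y Z
    have h1 := hQ (U * T / 7) X Y Z
    have h2 : idP.tm.form w ⟨1, p, κ, lam, nu⟩ (U * T / 7) X Y Z = 150 * D * (q * T) / g1 *
        F4 (s.co N M) (s.ex N M) N M p κ (l0 + p * l1 + c1 * g1 * el / (150 * D * T) * lam)
          (c1 * g1 * el / (150 * D * T) * nu) U X Y Z := by
      unfold Tm.form entV form4 F4 Shh Sgg Shg idP tmP
      simp only [List.foldr, Wt.get]
      rw [k0, k1, k2, k3, k4, k5, k6, k7, k8, k9, k10, e11]
      field_simp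
      ring
    rw [h2] at h1
    exact nonneg_of_mul_nonneg_right h1 (by positivity)
  · have h2 : idP.sc w p κ lam mu = 30000 * D * q / g2 *
        (H129.Sc (s.co N M) (s.ex N M) N M p (κ * N ^ 3) -
          (l0 + p * l1 + c1 * g1 * el / (150 * D * T) * lam) * p -
          c1 * g1 * el / (150 * D * T) * mu * (1 - κ ^ 2) * p - s.dn / 30000 * (N ^ 2 * M ^ 2)) := by
      unfold Id6.sc zsV msV idP H129.Sc
      simp only [List.foldr, sel_0, sel_1, sel_2, ex_e1, ex_ek]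
      rw [e18, k17, k12, k13, k14, k15, k16, hc2]
      field_simp
      ring
    rw [h2] at hS
    have h3 := nonneg_of_mul_nonneg_right hS (by positivity)
    linarith
  · have h2 : idP.rel w κ lam mu nu = lam + (mu - nu) * (1 - κ ^ 2) := by
      unfold Id6.rel msV idP
      simp only [List.foldr, sel_0, sel_1, sel_2]
      rw [e19, e20]
      ring
    rw [h2] at hR
    have h3 := mul_nonneg ht.le hR
    linarith

theorem pw4_of_goodPs {s : En} {w : ℕ → ℝ} {X Y N M p κ g1 g2 c1 c2 l0 l1 el rho : ℝ}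
    (h : s.At X Y N M) (hT : 0 < Tht N M) (e : EqP s w N M g1 g2 c1 c2 l0 l1 el)
    (hk : κ ^ 2 ≤ 1) (hel : 0 < el) (hls : 0 ≤ l0 + p * l1)
    (w29 : g1 * w 29 = s.GF N M * (rho * l0)) (w30 : g1 * w 30 = s.GF N M * (rho * l1))
    (hrho : rho * (1 - κ ^ 2) ≤ 1) (hr0 : 0 ≤ rho)
    (hg : idPs.Good w p κ) (hc : ∀ c ∈ idPs.cons, 0 ≤ w c.1 + p * w c.2.1 + κ * w c.2.2) :
    Pw4 (s.co N M) (s.ex N M) N M p κ (s.dn / 30000 * (N ^ 2 * M ^ 2)) := by
  obtain ⟨lam, mu, nu, hlam, hmu, hnu, hQ, hS, hR⟩ := hg hc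
  have hD : (0 : ℝ) < s.d.D := lt_of_le_of_ne (Nat.cast_nonneg _) h.D0.symm
  obtain ⟨gp1, gp2, cp1, cc, e0, e1, e2, e3, e4, e5, e6, e7, e8, e9, e10, e11, e12, e13, e14, e15,
    e16, e17, e18, e19, e20⟩ := e
  obtain ⟨T, hTd⟩ : ∃ T, T = Tht N M := ⟨_, rfl⟩
  obtain ⟨D, hDd⟩ : ∃ D : ℝ, D = s.d.D := ⟨_, rfl⟩
  obtain ⟨q, hq⟩ : ∃ q, q = T ^ s.K := ⟨_, rfl⟩
  have hT' : 0 < T := by rw [hTd]; exact hT
  have hD' : 0 < D := by rw [hDd]; exact hD
  have hq0 : 0 < q := by rw [hq]; positivity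
  have hG : s.GF N M = 150 * D * (q * T) := by
    unfold En.GF; rw [← hTd, ← hDd, pow_succ, ← hq]
  have hH : s.HF N M = 30000 * D * q := by unfold En.HF; rw [← hTd, ← hDd, ← hq]
  rw [← hTd] at e0 e1 e2 e11 e17
  rw [← hq] at e11 e17
  rw [hG] at e0 e1 e2 e3 e4 e5 e6 e7 e8 e9 e10
  rw [hH] at e12 e13 e14 e15 e16
  have k0 : w 0 = 7 * (150 * D * (q * T) * (6 * (s.co N M).A)) / (g1 * T ^ 2) := by
    rw [eq_div_iff (by positivity)]; linarith
  have k1 : w 1 = 7 * (150 * D * (q * T) * ((s.co N M).AM + M * (s.co N M).B1)) /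
      (2 * g1 * T) := by
    rw [eq_div_iff (by positivity)]; linarith
  have k2 : w 2 = 7 * (150 * D * (q * T) * ((s.co N M).AN + N * (s.co N M).C1)) /
      (2 * g1 * T) := by
    rw [eq_div_iff (by positivity)]; linarith
  have k3 := eq_div_of_mul_eq gp1.ne' ((mul_comm _ _).trans e3)
  have k4 := eq_div_of_mul_eq gp1.ne' ((mul_comm _ _).trans e4)
  have k5 := eq_div_of_mul_eq (show 2 * g1 ≠ 0 by positivity) ((mul_comm _ _).trans e5)
  have k6 := eq_div_of_mul_eq (show 2 * g1 ≠ 0 by positivity) ((mul_comm _ _).trans e6)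
  have k7 := eq_div_of_mul_eq (show 2 * g1 ≠ 0 by positivity) ((mul_comm _ _).trans e7)
  have k8 := eq_div_of_mul_eq gp1.ne' ((mul_comm _ _).trans e8)
  have k9 := eq_div_of_mul_eq gp1.ne' ((mul_comm _ _).trans e9)
  have k10 := eq_div_of_mul_eq (show 2 * g1 ≠ 0 by positivity) ((mul_comm _ _).trans e10)
  have k12 := eq_div_of_mul_eq gp2.ne' ((mul_comm _ _).trans e12)
  have k13 := eq_div_of_mul_eq gp2.ne' ((mul_comm _ _).trans e13)
  have k14 := eq_div_of_mul_eq gp2.ne' ((mul_comm _ _).trans e14)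
  have k15 := eq_div_of_mul_eq gp2.ne' ((mul_comm _ _).trans e15)
  have k16 := eq_div_of_mul_eq gp2.ne' ((mul_comm _ _).trans e16)
  have k17 : w 17 = c2 * q * el / T := by rw [eq_div_iff hT'.ne']; linarith
  rw [hG] at w29 w30
  have k29 := eq_div_of_mul_eq gp1.ne' ((mul_comm _ _).trans w29)
  have k30 := eq_div_of_mul_eq gp1.ne' ((mul_comm _ _).trans w30)
  have hc2 : c2 = 200 * c1 * g1 / g2 := by rw [eq_div_iff gp2.ne']; linarith
  have ht : 0 < c1 * g1 * el / (150 * D * T) := by positivity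
  refine ⟨l0 + p * l1 + c1 * g1 * el / (150 * D * T) * lam, c1 * g1 * el / (150 * D * T) * mu,
    rho * (l0 + p * l1) + c1 * g1 * el / (150 * D * T) * nu, by positivity, by positivity, by positivity, ?_, ?_, ?_⟩
  · intro U X Y Z
    have h1 := hQ (U * T / 7) X Y Z
    have h2 : idPs.tm.form w ⟨1, p, κ, lam, nu⟩ (U * T / 7) X Y Z = 150 * D * (q * T) / g1 *
        F4 (s.co N M) (s.ex N M) N M p κ (l0 + p * l1 + c1 * g1 * el / (150 * D * T) * lam)
          (rho * (l0 + p * l1) + c1 * g1 * el / (150 * D * T) * nu) U X Y Z := by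
      unfold Tm.form entV form4 F4 Shh Sgg Shg idPs tmPs idP tmP
      simp only [List.foldr, Wt.get]
      rw [k0, k1, k2, k3, k4, k5, k6, k7, k8, k9, k10, e11, k29, k30]
      field_simp
      ring
    rw [h2] at h1
    exact nonneg_of_mul_nonneg_right h1 (by positivity)
  · have h2 : idPs.sc w p κ lam mu = 30000 * D * q / g2 *
        (H129.Sc (s.co N M) (s.ex N M) N M p (κ * N ^ 3) -
          (l0 + p * l1 + c1 * g1 * el / (150 * D * T) * lam) * p -
          c1 * g1 * el / (150 * D * T) * mu * (1 - κ ^ 2) * p - s.dn / 30000 * (N ^ 2 * M ^ 2)) := by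
      unfold Id6.sc zsV msV idPs idP H129.Sc
      simp only [List.foldr, sel_0, sel_1, sel_2, ex_e1, ex_ek]
      rw [e18, k17, k12, k13, k14, k15, k16, hc2]
      field_simp
      ring
    rw [h2] at hS
    have h3 := nonneg_of_mul_nonneg_right hS (by positivity)
    linarith
  · have h2 : idPs.rel w κ lam mu nu = lam + (mu - nu) * (1 - κ ^ 2) := by
      unfold Id6.rel msV idPs idP
      simp only [List.foldr, sel_0, sel_1, sel_2]
      rw [e19, e20]
      ring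
    rw [h2] at hR
    have h3 := mul_nonneg ht.le hR
    have h4 := mul_nonneg hls (sub_nonneg.2 hrho)
    linarith

end Vale.Agent.P211.H626
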