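import Vale.Agent.P211.H626.GoodC
import Vale.Agent.P211.H626.Id7
import Vale.Agent.P211.H129.Exact

set_option linter.all false

/-! P211 (helper626): charts I and II (`N = b v`, `M = 2 - b`) for the leaves with exactly
eliminated multiplier. -/

namespace Vale.Agent.P211.H626

open Vale.Agent.P211 Vale.Agent.P211.S4 Vale.Agent.P211.H237

/-- the rows: `σ z = r Z`, weight `n` of `Z²` with `n (1 - κ²) ≤ r²` -/
theorem pwx_of_r {c : H129.Co} {e : H129.Ex} {N M p κ δ : ℝ} (S n r : ℝ) (hn0 : 0 < n)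
    (h1 : δ + S ≤ H129.Sc c e N M p (κ * N ^ 3)) (hn : n * (1 - κ ^ 2) ≤ r ^ 2)
    (hF : ∀ U X Y Z, 0 ≤ H129.F5 c e N M p κ S 0 U X Y (r * Z) + n * S * Z ^ 2) :
    H129.PwX c e N M p κ δ := by
  have hS : 0 ≤ S := by
    have h2 := hF 0 0 0 1
    have h3 : H129.F5 c e N M p κ S 0 0 0 0 (r * 1) + n * S * 1 ^ 2 = n * S := by
      unfold H129.F5; ring
    rw [h3] at h2
    exact nonneg_of_mul_nonneg_right h2 hn0
  refine ⟨S, hS, h1, fun σ U X Y z hσ => ?_⟩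
  have hs : 1 - κ ^ 2 = σ ^ 2 := by linarith
  by_cases h0 : r = 0
  · have hσ0 : σ = 0 := by
      rw [hs, h0] at hn
      have : σ ^ 2 ≤ 0 := by
        by_contra hc
        have := mul_pos hn0 (not_le.1 hc)
        linarith
      exact pow_eq_zero_iff (two_ne_zero) |>.1 (le_antisymm this (sq_nonneg _))
    have h2 := hF U X Y 0
    have h3 : H129.F5 c e N M p κ S 0 U X Y (r * 0) + n * S * 0 ^ 2 =
        H129.F5 c e N M p κ S 0 U X Y (σ * z) := by rw [hσ0]; unfold H129.F5; ring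
    rw [h3] at h2
    have : 0 ≤ S * z ^ 2 := by positivity
    linarith
  · have h2 := hF U X Y (σ * z / r)
    have h3 : r * (σ * z / r) = σ * z := by field_simp
    rw [h3] at h2
    have h4 : n * S * (σ * z / r) ^ 2 ≤ S * z ^ 2 := by
      have hr2 : 0 < r ^ 2 := by positivity
      have e1 : n * S * (σ * z / r) ^ 2 = n * σ ^ 2 * (S * z ^ 2) / r ^ 2 := by
        field_simp
      rw [e1, div_le_iff₀ hr2, ← hs]
      have e2 : 0 ≤ S * z ^ 2 := by positivity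
      calc n * (1 - κ ^ 2) * (S * z ^ 2) ≤ r ^ 2 * (S * z ^ 2) :=
            mul_le_mul_of_nonneg_right hn e2
        _ = S * z ^ 2 * r ^ 2 := by ring
    linarith

/-- chart with `N = x y`, `M = 2 - x` -/
def chB : Ch where
  n := RE.x * RE.y
  m := RE.c 2 + RE.c (-1) * RE.x
  f := RE.x + RE.c (-1) * (RE.x * RE.y)
  xi := (RE.x + RE.x * RE.y) + RE.c (-2)
  th := RE.c 6 * (RE.x + RE.c (-1) * (RE.x * RE.y)) + ((RE.x + RE.x * RE.y) + RE.c (-2)) ^ 2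

theorem chB_at {X Y N M : ℝ} (hN : N = X * Y) (hM : M = 2 - X) : chB.At X Y N M := by
  subst hN hM
  constructor <;> unfold chB <;> simp only [RE.val_add, RE.val_mul, RE.val_c, RE.val_x, RE.val_y,
    RE.val_pow] <;> (try unfold Tht) <;> push_cast <;> ring

/-! ### chart I -/

/-- indices of chart I -/
def idI : Id7 where
  tm :=
    { a11 := [(0, 0, 0)]
      a12 := [(1, 0, 1)]
      a13 := [(1, 0, 2)]
      a14 := []
      a22 := [(1, 0, 3), (2, 0, 4)]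
      a23 := [(1, 0, 5), (1, 1, 7), (2, 0, 6)]
      a24 := [(1, 0, 7)]
      a33 := [(0, 0, 12), (0, 1, 13), (1, 0, 8), (1, 1, 11), (2, 0, 9)]
      a34 := [(1, 0, 10)]
      a44 := [(0, 0, 12), (0, 1, 13), (1, 0, 14), (1, 1, 15), (2, 0, 16)] }
  r0 := 17
  ss := [(0, 17), (2, 18)]
  cons := [(19, 99, 20), (21, 22, 23)]

/-- meaning of the tables of chart I at a point -/
structure EqI (s : En) (w : ℕ → ℝ) (N M g : ℝ) : Prop where
  gp : 0 < g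
  e0 : w 0 = 1400 * s.GF N M * (6 * (s.co N M).A) / (g * Tht N M ^ 2)
  e1 : w 1 = 700 * s.GF N M * ((s.co N M).AM + M * (s.co N M).B1) / (g * Tht N M)
  e2 : w 2 = 700 * s.GF N M * ((s.co N M).AN + N * (s.co N M).C1) / (g * Tht N M)
  e3 : w 3 = 200 * s.GF N M * hh0 s N M / g
  e4 : w 4 = 200 * s.GF N M * hh1 s N M / g
  e5 : w 5 = 100 * s.GF N M * hg0 s N M / g
  e6 : w 6 = 100 * s.GF N M * hg1 s N M / g
  e7 : w 7 = 100 * s.GF N M * hz s N M / g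
  e8 : w 8 = 200 * s.GF N M * (gg0 s N M + z10 s N M) / g
  e9 : w 9 = 200 * s.GF N M * (gg1 s N M + z20 s N M) / g
  e10 : w 10 = 100 * s.GF N M * gz s N M / g
  e11 : w 11 = 200 * s.GF N M * (gz s N M + z11 s N M) / g
  e12 : w 12 = 200 * s.GF N M * z00 s N M / g
  e13 : w 13 = 200 * s.GF N M * z01 s N M / g
  e14 : w 14 = 200 * s.GF N M * z10 s N M / g
  e15 : w 15 = 200 * s.GF N M * z11 s N M / g
  e16 : w 16 = 200 * s.GF N M * z20 s N M / g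
  e17 : w 17 = 1
  e18 : w 18 = -1

theorem formI {s : En} {w : ℕ → ℝ} {N M p κ g D T n V X Y Z : ℝ} (e : EqI s w N M g)
    (hT : 0 < T) (hTh : Tht N M = T) (hG0 : s.GF N M = D) :
    idI.tm.form w p κ n V X Y Z = 200 * D / g *
      (H129.F5 (s.co N M) (s.ex N M) N M p κ
        (H129.Sc (s.co N M) (s.ex N M) N M p (κ * N ^ 3) - s.dn / 30000 * (N ^ 2 * M ^ 2)) 0
        (7 * V / T) X Y (1 * Z) + n *
        (H129.Sc (s.co N M) (s.ex N M) N M p (κ * N ^ 3) - s.dn / 30000 * (N ^ 2 * M ^ 2)) *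
        Z ^ 2) := by
  have gp := e.gp
  unfold Tm7.form ent7 zsV idI
  simp only [List.foldr, sel_0, sel_1, sel_2]
  rw [e.e0, e.e1, e.e2, e.e3, e.e4, e.e5, e.e6, e.e7, e.e8, e.e9, e.e10, e.e11, e.e12, e.e13,
    e.e14, e.e15, e.e16, hTh, hG0]
  unfold form4 H129.F5 H129.Sc Shh Sgg Shg hh0 hh1 hg0 hg1 hz gg0 gg1 gz z00 z01 z10 z11 z20
  rw [ex_e1, ex_ek]
  field_simp
  ring

theorem pwx_of_goodI {s : En} {w : ℕ → ℝ} {X Y N M p κ g : ℝ} (h : s.At X Y N M)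
    (hT : 0 < Tht N M) (e : EqI s w N M g) (hg : idI.Good w p κ)
    (hc : ∀ c ∈ idI.cons, 0 ≤ w c.1 + p * w c.2.1 + κ * w c.2.2) :
    H129.PwX (s.co N M) (s.ex N M) N M p κ (s.dn / 30000 * (N ^ 2 * M ^ 2)) := by
  obtain ⟨n, hn, hQ, hR⟩ := hg hc
  have hD : (0 : ℝ) < s.d.D := lt_of_le_of_ne (Nat.cast_nonneg _) h.D0.symm
  have hG : 0 < s.GF N M := by unfold En.GF; positivity
  have gp := e.gp
  refine pwx_of_r (H129.Sc (s.co N M) (s.ex N M) N M p (κ * N ^ 3) -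
    s.dn / 30000 * (N ^ 2 * M ^ 2)) n 1 hn (by linarith) ?_ fun U X Y Z => ?_
  · unfold msV idI at hR
    simp only [List.foldr, sel_0, sel_1, sel_2] at hR
    rw [e.e17, e.e18] at hR
    linarith
  · have h1 := hQ (U * Tht N M / 7) X Y Z
    rw [formI e hT rfl rfl] at h1
    have h2 : 7 * (U * Tht N M / 7) / Tht N M = U := by field_simp
    rw [h2] at h1
    exact nonneg_of_mul_nonneg_right h1 (by positivity)

/-! ### chart II -/

/-- indices of chart II -/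
def idII : Id7 where
  tm :=
    { a11 := [(0, 0, 0)]
      a12 := [(1, 0, 1)]
      a13 := [(1, 0, 2)]
      a14 := []
      a22 := [(1, 0, 3), (2, 0, 4)]
      a23 := [(1, 0, 5), (1, 1, 7), (2, 0, 6)]
      a24 := [(1, 0, 8)]
      a33 := [(0, 0, 13), (0, 1, 14), (1, 0, 9), (1, 1, 11), (2, 0, 10)]
      a34 := [(1, 0, 12)]
      a44 := [(0, 0, 13), (0, 1, 14), (1, 0, 15), (1, 1, 16), (2, 0, 17)] }
  r0 := 18
  ss := [(1, 19), (2, 20)]
  cons := [(21, 99, 99), (22, 23, 24)]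

/-- meaning of the tables of chart II at a point; `v = N / (2 - M)`, `E` the bound of `p` -/
structure EqII (s : En) (w : ℕ → ℝ) (N M v E g : ℝ) : Prop where
  gp : 0 < g
  e0 : w 0 = 2 * v ^ 3 * (1400 * s.GF N M * (6 * (s.co N M).A)) / (g * Tht N M ^ 2)
  e1 : w 1 = 2 * v ^ 3 * E * (700 * s.GF N M * ((s.co N M).AM + M * (s.co N M).B1)) /
    (g * Tht N M)
  e2 : w 2 = 2 * v ^ 3 * E * (700 * s.GF N M * ((s.co N M).AN + N * (s.co N M).C1)) /
    (g * Tht N M)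
  e3 : w 3 = 2 * v ^ 3 * E * (200 * s.GF N M * hh0 s N M) / g
  e4 : w 4 = 2 * v ^ 3 * E ^ 2 * (200 * s.GF N M * hh1 s N M) / g
  e5 : w 5 = 2 * v ^ 3 * E * (100 * s.GF N M * (hg0 s N M + hz s N M)) / g
  e6 : w 6 = 2 * v ^ 3 * E ^ 2 * (100 * s.GF N M * hg1 s N M) / g
  e7 : w 7 = -((1 - v) ^ 2 * (1 + 2 * v)) * E * (100 * s.GF N M * hz s N M) / g
  e8 : w 8 = (1 - v) * (2 * v ^ 3 * E * (100 * s.GF N M * hz s N M)) / g
  e9 : w 9 = 2 * v ^ 3 * E * (200 * s.GF N M * (gg0 s N M + gz s N M + z10 s N M + z11 s N M)) / g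
  e10 : w 10 = 2 * v ^ 3 * E ^ 2 * (200 * s.GF N M * (gg1 s N M + z20 s N M)) / g
  e11 : w 11 = -((1 - v) ^ 2 * (1 + 2 * v)) * E * (200 * s.GF N M * (gz s N M + z11 s N M)) / g
  e12 : w 12 = (1 - v) * (2 * v ^ 3 * E * (100 * s.GF N M * gz s N M)) / g
  e13 : w 13 = 2 * v ^ 3 * (200 * s.GF N M * (z00 s N M + z01 s N M)) / g
  e14 : w 14 = -((1 - v) ^ 2 * (1 + 2 * v)) * (200 * s.GF N M * z01 s N M) / g
  e15 : w 15 = 2 * v ^ 3 * E * (200 * s.GF N M * (z10 s N M + z11 s N M)) / g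
  e16 : w 16 = -((1 - v) ^ 2 * (1 + 2 * v)) * E * (200 * s.GF N M * z11 s N M) / g
  e17 : w 17 = 2 * v ^ 3 * E ^ 2 * (200 * s.GF N M * z20 s N M) / g
  e18 : w 18 = 4 * v ^ 6
  e19 : w 19 = 4 * (1 + 2 * v) * v ^ 3
  e20 : w 20 = -((1 + 2 * v) ^ 2 * (1 - v) ^ 2)

theorem formII {s : En} {w : ℕ → ℝ} {N M v E P k κ g D T n V X Y Z : ℝ} (e : EqII s w N M v E g)
    (hT : 0 < T) (hTh : Tht N M = T) (hG0 : s.GF N M = D) (hv : 0 < v)
    (hk : κ = 1 - k * ((1 - v) ^ 2 * (1 + 2 * v)) / (2 * v ^ 3)) :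
    idII.tm.form w P k n V X Y Z = 2 * v ^ 3 * (200 * D) / g *
      (H129.F5 (s.co N M) (s.ex N M) N M (P * E) κ
        (H129.Sc (s.co N M) (s.ex N M) N M (P * E) (κ * N ^ 3) - s.dn / 30000 * (N ^ 2 * M ^ 2)) 0
        (7 * V / T) X Y ((1 - v) * Z) + n *
        (H129.Sc (s.co N M) (s.ex N M) N M (P * E) (κ * N ^ 3) -
          s.dn / 30000 * (N ^ 2 * M ^ 2)) * Z ^ 2) := by
  have gp := e.gp
  obtain ⟨G, hGd⟩ : ∃ G, G = (1 - v) ^ 2 * (1 + 2 * v) := ⟨_, rfl⟩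
  have hk' : κ = 1 - k * G / (2 * v ^ 3) := by rw [hk, hGd]
  unfold Tm7.form ent7 zsV idII
  simp only [List.foldr, sel_0, sel_1, sel_2]
  rw [e.e0, e.e1, e.e2, e.e3, e.e4, e.e5, e.e6, e.e7, e.e8, e.e9, e.e10, e.e11, e.e12, e.e13,
    e.e14, e.e15, e.e16, e.e17, hTh, hG0, ← hGd, hk']
  clear hk hk' hGd
  unfold form4 H129.F5 H129.Sc Shh Sgg Shg hh0 hh1 hg0 hg1 hz gg0 gg1 gz z00 z01 z10 z11 z20
  rw [ex_e1, ex_ek]
  field_simp
  ring

theorem pwx_of_goodII {s : En} {w : ℕ → ℝ} {X Y N M v E P k κ g : ℝ} (h : s.At X Y N M)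
    (hT : 0 < Tht N M) (e : EqII s w N M v E g) (hv : 0 < v) (hk0 : 0 ≤ k)
    (hk : κ = 1 - k * ((1 - v) ^ 2 * (1 + 2 * v)) / (2 * v ^ 3)) (hg : idII.Good w P k)
    (hc : ∀ c ∈ idII.cons, 0 ≤ w c.1 + P * w c.2.1 + k * w c.2.2) :
    H129.PwX (s.co N M) (s.ex N M) N M (P * E) κ (s.dn / 30000 * (N ^ 2 * M ^ 2)) := by
  obtain ⟨n, hn, hQ, hR⟩ := hg hc
  have hD : (0 : ℝ) < s.d.D := lt_of_le_of_ne (Nat.cast_nonneg _) h.D0.symm
  have hG : 0 < s.GF N M := by unfold En.GF; positivity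
  have gp := e.gp
  refine pwx_of_r (H129.Sc (s.co N M) (s.ex N M) N M (P * E) (κ * N ^ 3) -
    s.dn / 30000 * (N ^ 2 * M ^ 2)) n (1 - v) hn (by linarith) ?_ fun U X Y Z => ?_
  · unfold msV idII at hR
    simp only [List.foldr, sel_0, sel_1, sel_2] at hR
    rw [e.e18, e.e19, e.e20] at hR
    have h1 : n * (1 - κ ^ 2) = (1 - v) ^ 2 * (n * (k * (4 * (1 + 2 * v) * v ^ 3) +
        (k ^ 2 * -((1 + 2 * v) ^ 2 * (1 - v) ^ 2) + 0))) / (4 * v ^ 6) := by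
      rw [hk]
      field_simp
      ring
    rw [h1, div_le_iff₀ (by positivity)]
    exact mul_le_mul_of_nonneg_left hR (sq_nonneg _)
  · have h1 := hQ (U * Tht N M / 7) X Y Z
    rw [formII e hT rfl rfl hv hk] at h1
    have h2 : 7 * (U * Tht N M / 7) / Tht N M = U := by field_simp
    rw [h2] at h1
    exact nonneg_of_mul_nonneg_right h1 (by positivity)

end Vale.Agent.P211.H626
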