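import Vale.Agent.P211.H626.Good

set_option linter.all false

/-! P211 (helper626): the corner chart: from the conclusion `Id6.Good` of a leaf to `Pw4`.
Rows `u / p = 7 V / τ²`, `h = X + Y / τ`, `g = X - Y / τ`, `σ z = τ Z`; `p = τ² q`,
`κ = 1 - τ⁴ k`. -/

namespace Vale.Agent.P211.H626

open Vale.Agent.P211 Vale.Agent.P211.S4 Vale.Agent.P211.H237

/-- matrix template of the corner chart -/
def tmC : Tm where
  a11 := [(.p, 0)]
  a12 := [(.p, 1)]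
  a13 := [(.p, 2)]
  a14 := []
  a22 := [(.c, 3), (.p, 4), (.k, 5), (.l, 6)]
  a23 := [(.c, 7), (.p, 8), (.k, 9), (.l, 10)]
  a24 := [(.c, 15)]
  a33 := [(.c, 11), (.p, 12), (.k, 13), (.l, 14)]
  a34 := [(.c, 16)]
  a44 := [(.n, 17)]

/-- the same with multiplier functions `λ*` -/
def tmCs : Tm := { tmC with a44 := [(.n, 17), (.c, 33), (.p, 34)] }

/-- indices of the corner chart -/
def idC : Id6 where
  tm := tmC
  zs := [(0, 0, 18), (0, 1, 19), (1, 0, 20), (1, 1, 21), (2, 0, 22)]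
  zl := 23
  ms := [(1, 24), (2, 25)]
  r0 := 26
  ss := [(1, 27), (2, 28)]
  one := 26
  cons := [(29, 99, 30), (31, 32, 99)]

/-- the same with multiplier functions `λ*` -/
def idCs : Id6 := { idC with tm := tmCs }

/-- entries at a point -/
noncomputable def hh0 (s : En) (N M : ℝ) : ℝ :=
  5 / 3 * (s.co N M).B0 + M * (s.co N M).B0M + (s.ex N M).hh
noncomputable def hh1 (s : En) (N M : ℝ) : ℝ := 5 / 3 * (s.co N M).B1 + M * (s.co N M).B1M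
noncomputable def gg0 (s : En) (N M : ℝ) : ℝ :=
  -6 * N * (s.co N M).AN + N * (s.co N M).C0N + 3 * N ^ 2 * (s.co N M).C1 + (s.ex N M).gg
noncomputable def gg1 (s : En) (N M : ℝ) : ℝ := N * (s.co N M).C1N
noncomputable def ggk (s : En) (N M : ℝ) : ℝ :=
  9 * N ^ 2 * (s.co N M).AN - 3 * N ^ 3 * (s.co N M).C1
noncomputable def hg0 (s : En) (N M : ℝ) : ℝ :=
  -6 * N * (s.co N M).AM + M * (s.co N M).B0N + 3 * N * M * (s.co N M).B1 +
    N * (s.co N M).C0M + (s.ex N M).gh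
noncomputable def hg1 (s : En) (N M : ℝ) : ℝ := M * (s.co N M).B1N + N * (s.co N M).C1M
noncomputable def hgk (s : En) (N M : ℝ) : ℝ :=
  9 * N ^ 2 * (s.co N M).AM - 3 * N ^ 2 * M * (s.co N M).B1
noncomputable def hz (s : En) (N M : ℝ) : ℝ :=
  3 * N ^ 2 * (3 * (s.co N M).AM - M * (s.co N M).B1)
noncomputable def gz (s : En) (N M : ℝ) : ℝ :=
  3 * N ^ 2 * (3 * (s.co N M).AN - N * (s.co N M).C1)
noncomputable def z00 (s : En) (N M : ℝ) : ℝ :=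
  (s.co N M).A * (-36 * N ^ 2 - 54 * N ^ 4) + (s.co N M).B0 * (6 * M ^ 2 - 6 * M ^ 3) +
    (s.co N M).C0 * (6 * N ^ 2) + (s.ex N M).e0 - s.dn / 30000 * (N ^ 2 * M ^ 2)
noncomputable def z01 (s : En) (N M : ℝ) : ℝ := N ^ 3 * (90 * (s.co N M).A - 6 * (s.co N M).C0)
noncomputable def z10 (s : En) (N M : ℝ) : ℝ :=
  11 * (s.co N M).A + (s.co N M).B1 * (6 * M ^ 2 - 6 * M ^ 3) + 5 / 3 * (s.co N M).C0 +
    6 * N ^ 2 * (s.co N M).C1
noncomputable def z11 (s : En) (N M : ℝ) : ℝ := -(6 * N ^ 3 * (s.co N M).C1)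
noncomputable def z20 (s : En) (N M : ℝ) : ℝ := 5 / 3 * (s.co N M).C1

/-- meaning of the tables of the corner chart at the point with `Θ = t²` -/
structure EqC (s : En) (w : ℕ → ℝ) (N M t g1 g2 c1 c2 l0 l1 el : ℝ) : Prop where
  g1p : 0 < g1
  g2p : 0 < g2
  c1p : 0 < c1
  cc : 200 * c1 * g1 = c2 * g2
  e0 : w 0 = s.GF N M * 7 * (6 * (s.co N M).A) / (g1 * t ^ 6)
  e1 : w 1 = s.GF N M * 7 * ((s.co N M).AM + M * (s.co N M).B1 + ((s.co N M).AN + N * (s.co N M).C1)) / (2 * g1 * t ^ 4)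
  e2 : w 2 = s.GF N M * 7 * ((s.co N M).AM + M * (s.co N M).B1 - ((s.co N M).AN + N * (s.co N M).C1)) / (2 * g1 * t ^ 5)
  e3 : w 3 = s.GF N M * (hh0 s N M + hg0 s N M + (gg0 s N M + l0) + hgk s N M + ggk s N M) / (g1 * t ^ 4)
  e4 : w 4 = s.GF N M * (hh1 s N M + hg1 s N M + (gg1 s N M + l1)) / (g1 * t ^ 2)
  e5 : w 5 = s.GF N M * (-(hgk s N M + ggk s N M)) / g1
  e6 : w 6 = c1 * t ^ 2 * el
  e7 : w 7 = s.GF N M * (hh0 s N M - (gg0 s N M + l0) - ggk s N M) / (g1 * t ^ 5)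
  e8 : w 8 = s.GF N M * (hh1 s N M - (gg1 s N M + l1)) / (g1 * t ^ 3)
  e9 : w 9 = s.GF N M * ggk s N M / (g1 * t ^ 1)
  e10 : w 10 = -c1 * t * el
  e11 : w 11 = s.GF N M * (hh0 s N M - hg0 s N M + (gg0 s N M + l0) - hgk s N M + ggk s N M) / (g1 * t ^ 6)
  e12 : w 12 = s.GF N M * (hh1 s N M - hg1 s N M + (gg1 s N M + l1)) / (g1 * t ^ 4)
  e13 : w 13 = s.GF N M * (hgk s N M - ggk s N M) / (g1 * t ^ 2)
  e14 : w 14 = c1 * el
  e15 : w 15 = s.GF N M * (hz s N M + gz s N M) / (2 * g1 * t ^ 3)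
  e16 : w 16 = s.GF N M * (hz s N M - gz s N M) / (2 * g1 * t ^ 4)
  e17 : w 17 = c1 * el
  e18 : w 18 = s.HF N M * (z00 s N M + z01 s N M) / (g2 * t ^ 6)
  e19 : w 19 = s.HF N M * (-z01 s N M) / (g2 * t ^ 2)
  e20 : w 20 = s.HF N M * (z10 s N M - l0 + z11 s N M) / (g2 * t ^ 4)
  e21 : w 21 = s.HF N M * (-z11 s N M) / g2
  e22 : w 22 = s.HF N M * (z20 s N M - l1) / (g2 * t ^ 2)
  e23 : w 23 = c2 * el
  e24 : w 24 = 2 * c2 * el
  e25 : w 25 = -c2 * t ^ 4 * el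
  e26 : w 26 = 1
  e27 : w 27 = 2
  e28 : w 28 = -t ^ 4

theorem entC_a11 {s : En} {w : ℕ → ℝ} {N M t q k g1 g2 c1 c2 l0 l1 el D lam nu : ℝ}
    (e : EqC s w N M t g1 g2 c1 c2 l0 l1 el) (ht : 0 < t) (hD : 0 < D)
    (hG : s.GF N M = 150 * D * t ^ 8) :
    entV w ⟨1, q, k, lam, nu⟩ idC.tm.a11 = 150 * D * t ^ 4 / g1 * (6 / 7 * (s.co N M).A * (t ^ 2 * q)) * (7 / t ^ 2) ^ 2 := by
  have gp1 := e.g1p
  unfold entV idC tmC
  simp only [List.foldr, Wt.get]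
  rw [e.e0, hG]
  field_simp
  ring

theorem entC_a12 {s : En} {w : ℕ → ℝ} {N M t q k g1 g2 c1 c2 l0 l1 el D lam nu : ℝ}
    (e : EqC s w N M t g1 g2 c1 c2 l0 l1 el) (ht : 0 < t) (hD : 0 < D)
    (hG : s.GF N M = 150 * D * t ^ 8) :
    entV w ⟨1, q, k, lam, nu⟩ idC.tm.a12 = 150 * D * t ^ 4 / g1 * (7 / 2 * q * (((s.co N M).AM + M * (s.co N M).B1) + ((s.co N M).AN + N * (s.co N M).C1))) := by
  have gp1 := e.g1p
  unfold entV idC tmC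
  simp only [List.foldr, Wt.get]
  rw [e.e1, hG]
  field_simp
  ring

theorem entC_a13 {s : En} {w : ℕ → ℝ} {N M t q k g1 g2 c1 c2 l0 l1 el D lam nu : ℝ}
    (e : EqC s w N M t g1 g2 c1 c2 l0 l1 el) (ht : 0 < t) (hD : 0 < D)
    (hG : s.GF N M = 150 * D * t ^ 8) :
    entV w ⟨1, q, k, lam, nu⟩ idC.tm.a13 = 150 * D * t ^ 4 / g1 * (7 / 2 * q * (((s.co N M).AM + M * (s.co N M).B1) - ((s.co N M).AN + N * (s.co N M).C1))) / t := by
  have gp1 := e.g1p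
  unfold entV idC tmC
  simp only [List.foldr, Wt.get]
  rw [e.e2, hG]
  field_simp
  ring

theorem entC_a14 {w : ℕ → ℝ} {q k lam nu : ℝ} :
    entV w ⟨1, q, k, lam, nu⟩ idC.tm.a14 = 0 := rfl

theorem entC_a22 {s : En} {w : ℕ → ℝ} {N M t q k g1 g2 c1 c2 l0 l1 el D lam nu : ℝ}
    (e : EqC s w N M t g1 g2 c1 c2 l0 l1 el) (ht : 0 < t) (hD : 0 < D)
    (hG : s.GF N M = 150 * D * t ^ 8) :
    entV w ⟨1, q, k, lam, nu⟩ idC.tm.a22 = 150 * D * t ^ 4 / g1 * (Shh (s.co N M) (s.ex N M) N M (t ^ 2 * q) + (Sgg (s.co N M) (s.ex N M) N M (t ^ 2 * q) (1 - t ^ 4 * k) + (l0 + t ^ 2 * q * l1 + c1 * g1 * el / (150 * D * t ^ 2) * lam)) + Shg (s.co N M) (s.ex N M) N M (t ^ 2 * q) (1 - t ^ 4 * k)) := by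
  have gp1 := e.g1p
  unfold entV idC tmC
  simp only [List.foldr, Wt.get]
  rw [e.e3, e.e4, e.e5, e.e6, hG]
  unfold Shh Sgg Shg hh0 hh1 gg0 gg1 ggk hg0 hg1 hgk
  field_simp
  ring

theorem entC_a23 {s : En} {w : ℕ → ℝ} {N M t q k g1 g2 c1 c2 l0 l1 el D lam nu : ℝ}
    (e : EqC s w N M t g1 g2 c1 c2 l0 l1 el) (ht : 0 < t) (hD : 0 < D)
    (hG : s.GF N M = 150 * D * t ^ 8) :
    entV w ⟨1, q, k, lam, nu⟩ idC.tm.a23 = 150 * D * t ^ 4 / g1 * (Shh (s.co N M) (s.ex N M) N M (t ^ 2 * q) - (Sgg (s.co N M) (s.ex N M) N M (t ^ 2 * q) (1 - t ^ 4 * k) + (l0 + t ^ 2 * q * l1 + c1 * g1 * el / (150 * D * t ^ 2) * lam))) / t := by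
  have gp1 := e.g1p
  unfold entV idC tmC
  simp only [List.foldr, Wt.get]
  rw [e.e7, e.e8, e.e9, e.e10, hG]
  unfold Shh Sgg hh0 hh1 gg0 gg1 ggk
  field_simp
  ring

theorem entC_a24 {s : En} {w : ℕ → ℝ} {N M t q k g1 g2 c1 c2 l0 l1 el D lam nu : ℝ}
    (e : EqC s w N M t g1 g2 c1 c2 l0 l1 el) (ht : 0 < t) (hD : 0 < D)
    (hG : s.GF N M = 150 * D * t ^ 8) :
    entV w ⟨1, q, k, lam, nu⟩ idC.tm.a24 = 150 * D * t ^ 4 / g1 * ((3 * N ^ 2 * (3 * (s.co N M).AM - M * (s.co N M).B1) + 3 * N ^ 2 * (3 * (s.co N M).AN - N * (s.co N M).C1)) * t / 2) := by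
  have gp1 := e.g1p
  unfold entV idC tmC
  simp only [List.foldr, Wt.get]
  rw [e.e15, hG]
  unfold hz gz
  field_simp
  ring

theorem entC_a33 {s : En} {w : ℕ → ℝ} {N M t q k g1 g2 c1 c2 l0 l1 el D lam nu : ℝ}
    (e : EqC s w N M t g1 g2 c1 c2 l0 l1 el) (ht : 0 < t) (hD : 0 < D)
    (hG : s.GF N M = 150 * D * t ^ 8) :
    entV w ⟨1, q, k, lam, nu⟩ idC.tm.a33 = 150 * D * t ^ 4 / g1 * (Shh (s.co N M) (s.ex N M) N M (t ^ 2 * q) + (Sgg (s.co N M) (s.ex N M) N M (t ^ 2 * q) (1 - t ^ 4 * k) + (l0 + t ^ 2 * q * l1 + c1 * g1 * el / (150 * D * t ^ 2) * lam)) - Shg (s.co N M) (s.ex N M) N M (t ^ 2 * q) (1 - t ^ 4 * k)) / t ^ 2 := by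
  have gp1 := e.g1p
  unfold entV idC tmC
  simp only [List.foldr, Wt.get]
  rw [e.e11, e.e12, e.e13, e.e14, hG]
  unfold Shh Sgg Shg hh0 hh1 gg0 gg1 ggk hg0 hg1 hgk
  field_simp
  ring

theorem entC_a34 {s : En} {w : ℕ → ℝ} {N M t q k g1 g2 c1 c2 l0 l1 el D lam nu : ℝ}
    (e : EqC s w N M t g1 g2 c1 c2 l0 l1 el) (ht : 0 < t) (hD : 0 < D)
    (hG : s.GF N M = 150 * D * t ^ 8) :
    entV w ⟨1, q, k, lam, nu⟩ idC.tm.a34 = 150 * D * t ^ 4 / g1 * ((3 * N ^ 2 * (3 * (s.co N M).AM - M * (s.co N M).B1) - 3 * N ^ 2 * (3 * (s.co N M).AN - N * (s.co N M).C1)) / 2) := by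
  have gp1 := e.g1p
  unfold entV idC tmC
  simp only [List.foldr, Wt.get]
  rw [e.e16, hG]
  unfold hz gz
  field_simp
  ring

theorem entC_a44 {s : En} {w : ℕ → ℝ} {N M t q k g1 g2 c1 c2 l0 l1 el D lam nu : ℝ}
    (e : EqC s w N M t g1 g2 c1 c2 l0 l1 el) (ht : 0 < t) (hD : 0 < D)
    (hG : s.GF N M = 150 * D * t ^ 8) :
    entV w ⟨1, q, k, lam, nu⟩ idC.tm.a44 = 150 * D * t ^ 4 / g1 * ((c1 * g1 * el / (150 * D * t ^ 6) * nu) * t ^ 2) := by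
  have gp1 := e.g1p
  unfold entV idC tmC
  simp only [List.foldr, Wt.get]
  rw [e.e17]
  field_simp
  ring

theorem formC {s : En} {w : ℕ → ℝ} {N M t q k g1 g2 c1 c2 l0 l1 el D lam nu U X Y Z : ℝ}
    (e : EqC s w N M t g1 g2 c1 c2 l0 l1 el) (ht : 0 < t) (hD : 0 < D)
    (hG : s.GF N M = 150 * D * t ^ 8) :
    idC.tm.form w ⟨1, q, k, lam, nu⟩ (U * t ^ 2 / 7) ((X + Y) / 2) (t * (X - Y) / 2)
        (Z / t) = 150 * D * t ^ 4 / g1 *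
        F4 (s.co N M) (s.ex N M) N M (t ^ 2 * q) (1 - t ^ 4 * k) (l0 + t ^ 2 * q * l1 + c1 * g1 * el / (150 * D * t ^ 2) * lam)
          (c1 * g1 * el / (150 * D * t ^ 6) * nu) U X Y Z := by
  have gp1 := e.g1p
  unfold Tm.form
  rw [entC_a11 e ht hD hG, entC_a12 e ht hD hG, entC_a13 e ht hD hG, entC_a14,
    entC_a22 e ht hD hG, entC_a23 e ht hD hG, entC_a24 e ht hD hG,
    entC_a33 e ht hD hG, entC_a34 e ht hD hG, entC_a44 e ht hD hG]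
  unfold form4 F4
  generalize Shh (s.co N M) (s.ex N M) N M (t ^ 2 * q) = a
  generalize Sgg (s.co N M) (s.ex N M) N M (t ^ 2 * q) (1 - t ^ 4 * k) + (l0 + t ^ 2 * q * l1 + c1 * g1 * el / (150 * D * t ^ 2) * lam) = b
  generalize Shg (s.co N M) (s.ex N M) N M (t ^ 2 * q) (1 - t ^ 4 * k) = c
  generalize (c1 * g1 * el / (150 * D * t ^ 6) * nu) = d
  field_simp
  ring

theorem entCs_a11 {s : En} {w : ℕ → ℝ} {N M t q k g1 g2 c1 c2 l0 l1 el D lam nu : ℝ}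
    (e : EqC s w N M t g1 g2 c1 c2 l0 l1 el) (ht : 0 < t) (hD : 0 < D)
    (hG : s.GF N M = 150 * D * t ^ 8) :
    entV w ⟨1, q, k, lam, nu⟩ idCs.tm.a11 = 150 * D * t ^ 4 / g1 * (6 / 7 * (s.co N M).A * (t ^ 2 * q)) * (7 / t ^ 2) ^ 2 := by
  have gp1 := e.g1p
  unfold entV idCs tmCs idC tmC
  simp only [List.foldr, Wt.get]
  rw [e.e0, hG]
  field_simp
  ring

theorem entCs_a12 {s : En} {w : ℕ → ℝ} {N M t q k g1 g2 c1 c2 l0 l1 el D lam nu : ℝ}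
    (e : EqC s w N M t g1 g2 c1 c2 l0 l1 el) (ht : 0 < t) (hD : 0 < D)
    (hG : s.GF N M = 150 * D * t ^ 8) :
    entV w ⟨1, q, k, lam, nu⟩ idCs.tm.a12 = 150 * D * t ^ 4 / g1 * (7 / 2 * q * (((s.co N M).AM + M * (s.co N M).B1) + ((s.co N M).AN + N * (s.co N M).C1))) := by
  have gp1 := e.g1p
  unfold entV idCs tmCs idC tmC
  simp only [List.foldr, Wt.get]
  rw [e.e1, hG]
  field_simp
  ring

theorem entCs_a13 {s : En} {w : ℕ → ℝ} {N M t q k g1 g2 c1 c2 l0 l1 el D lam nu : ℝ}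
    (e : EqC s w N M t g1 g2 c1 c2 l0 l1 el) (ht : 0 < t) (hD : 0 < D)
    (hG : s.GF N M = 150 * D * t ^ 8) :
    entV w ⟨1, q, k, lam, nu⟩ idCs.tm.a13 = 150 * D * t ^ 4 / g1 * (7 / 2 * q * (((s.co N M).AM + M * (s.co N M).B1) - ((s.co N M).AN + N * (s.co N M).C1))) / t := by
  have gp1 := e.g1p
  unfold entV idCs tmCs idC tmC
  simp only [List.foldr, Wt.get]
  rw [e.e2, hG]
  field_simp
  ring

theorem entCs_a14 {w : ℕ → ℝ} {q k lam nu : ℝ} :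
    entV w ⟨1, q, k, lam, nu⟩ idCs.tm.a14 = 0 := rfl

theorem entCs_a22 {s : En} {w : ℕ → ℝ} {N M t q k g1 g2 c1 c2 l0 l1 el D lam nu : ℝ}
    (e : EqC s w N M t g1 g2 c1 c2 l0 l1 el) (ht : 0 < t) (hD : 0 < D)
    (hG : s.GF N M = 150 * D * t ^ 8) :
    entV w ⟨1, q, k, lam, nu⟩ idCs.tm.a22 = 150 * D * t ^ 4 / g1 * (Shh (s.co N M) (s.ex N M) N M (t ^ 2 * q) + (Sgg (s.co N M) (s.ex N M) N M (t ^ 2 * q) (1 - t ^ 4 * k) + (l0 + t ^ 2 * q * l1 + c1 * g1 * el / (150 * D * t ^ 2) * lam)) + Shg (s.co N M) (s.ex N M) N M (t ^ 2 * q) (1 - t ^ 4 * k)) := by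
  have gp1 := e.g1p
  unfold entV idCs tmCs idC tmC
  simp only [List.foldr, Wt.get]
  rw [e.e3, e.e4, e.e5, e.e6, hG]
  unfold Shh Sgg Shg hh0 hh1 gg0 gg1 ggk hg0 hg1 hgk
  field_simp
  ring

theorem entCs_a23 {s : En} {w : ℕ → ℝ} {N M t q k g1 g2 c1 c2 l0 l1 el D lam nu : ℝ}
    (e : EqC s w N M t g1 g2 c1 c2 l0 l1 el) (ht : 0 < t) (hD : 0 < D)
    (hG : s.GF N M = 150 * D * t ^ 8) :
    entV w ⟨1, q, k, lam, nu⟩ idCs.tm.a23 = 150 * D * t ^ 4 / g1 * (Shh (s.co N M) (s.ex N M) N M (t ^ 2 * q) - (Sgg (s.co N M) (s.ex N M) N M (t ^ 2 * q) (1 - t ^ 4 * k) + (l0 + t ^ 2 * q * l1 + c1 * g1 * el / (150 * D * t ^ 2) * lam))) / t := by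
  have gp1 := e.g1p
  unfold entV idCs tmCs idC tmC
  simp only [List.foldr, Wt.get]
  rw [e.e7, e.e8, e.e9, e.e10, hG]
  unfold Shh Sgg hh0 hh1 gg0 gg1 ggk
  field_simp
  ring

theorem entCs_a24 {s : En} {w : ℕ → ℝ} {N M t q k g1 g2 c1 c2 l0 l1 el D lam nu : ℝ}
    (e : EqC s w N M t g1 g2 c1 c2 l0 l1 el) (ht : 0 < t) (hD : 0 < D)
    (hG : s.GF N M = 150 * D * t ^ 8) :
    entV w ⟨1, q, k, lam, nu⟩ idCs.tm.a24 = 150 * D * t ^ 4 / g1 * ((3 * N ^ 2 * (3 * (s.co N M).AM - M * (s.co N M).B1) + 3 * N ^ 2 * (3 * (s.co N M).AN - N * (s.co N M).C1)) * t / 2) := by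
  have gp1 := e.g1p
  unfold entV idCs tmCs idC tmC
  simp only [List.foldr, Wt.get]
  rw [e.e15, hG]
  unfold hz gz
  field_simp
  ring

theorem entCs_a33 {s : En} {w : ℕ → ℝ} {N M t q k g1 g2 c1 c2 l0 l1 el D lam nu : ℝ}
    (e : EqC s w N M t g1 g2 c1 c2 l0 l1 el) (ht : 0 < t) (hD : 0 < D)
    (hG : s.GF N M = 150 * D * t ^ 8) :
    entV w ⟨1, q, k, lam, nu⟩ idCs.tm.a33 = 150 * D * t ^ 4 / g1 * (Shh (s.co N M) (s.ex N M) N M (t ^ 2 * q) + (Sgg (s.co N M) (s.ex N M) N M (t ^ 2 * q) (1 - t ^ 4 * k) + (l0 + t ^ 2 * q * l1 + c1 * g1 * el / (150 * D * t ^ 2) * lam)) - Shg (s.co N M) (s.ex N M) N M (t ^ 2 * q) (1 - t ^ 4 * k)) / t ^ 2 := by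
  have gp1 := e.g1p
  unfold entV idCs tmCs idC tmC
  simp only [List.foldr, Wt.get]
  rw [e.e11, e.e12, e.e13, e.e14, hG]
  unfold Shh Sgg Shg hh0 hh1 gg0 gg1 ggk hg0 hg1 hgk
  field_simp
  ring

theorem entCs_a34 {s : En} {w : ℕ → ℝ} {N M t q k g1 g2 c1 c2 l0 l1 el D lam nu : ℝ}
    (e : EqC s w N M t g1 g2 c1 c2 l0 l1 el) (ht : 0 < t) (hD : 0 < D)
    (hG : s.GF N M = 150 * D * t ^ 8) :
    entV w ⟨1, q, k, lam, nu⟩ idCs.tm.a34 = 150 * D * t ^ 4 / g1 * ((3 * N ^ 2 * (3 * (s.co N M).AM - M * (s.co N M).B1) - 3 * N ^ 2 * (3 * (s.co N M).AN - N * (s.co N M).C1)) / 2) := by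
  have gp1 := e.g1p
  unfold entV idCs tmCs idC tmC
  simp only [List.foldr, Wt.get]
  rw [e.e16, hG]
  unfold hz gz
  field_simp
  ring

theorem entCs_a44 {s : En} {w : ℕ → ℝ} {N M t q k g1 g2 c1 c2 l0 l1 el D lam nu : ℝ}
    (e : EqC s w N M t g1 g2 c1 c2 l0 l1 el) (ht : 0 < t) (hD : 0 < D)
    (hG : s.GF N M = 150 * D * t ^ 8) (w33 : w 33 = s.GF N M * (7 * l0) / (g1 * t ^ 6)) (w34 : w 34 = s.GF N M * (7 * l1) / (g1 * t ^ 4)) :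
    entV w ⟨1, q, k, lam, nu⟩ idCs.tm.a44 = 150 * D * t ^ 4 / g1 * ((7 * (l0 + t ^ 2 * q * l1) / t ^ 4 + c1 * g1 * el / (150 * D * t ^ 6) * nu) * t ^ 2) := by
  have gp1 := e.g1p
  unfold entV idCs tmCs idC tmC
  simp only [List.foldr, Wt.get]
  rw [e.e17, w33, w34, hG]
  field_simp
  ring

theorem formCs {s : En} {w : ℕ → ℝ} {N M t q k g1 g2 c1 c2 l0 l1 el D lam nu U X Y Z : ℝ}
    (e : EqC s w N M t g1 g2 c1 c2 l0 l1 el) (ht : 0 < t) (hD : 0 < D)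
    (hG : s.GF N M = 150 * D * t ^ 8) (w33 : w 33 = s.GF N M * (7 * l0) / (g1 * t ^ 6)) (w34 : w 34 = s.GF N M * (7 * l1) / (g1 * t ^ 4)) :
    idCs.tm.form w ⟨1, q, k, lam, nu⟩ (U * t ^ 2 / 7) ((X + Y) / 2) (t * (X - Y) / 2)
        (Z / t) = 150 * D * t ^ 4 / g1 *
        F4 (s.co N M) (s.ex N M) N M (t ^ 2 * q) (1 - t ^ 4 * k) (l0 + t ^ 2 * q * l1 + c1 * g1 * el / (150 * D * t ^ 2) * lam)
          (7 * (l0 + t ^ 2 * q * l1) / t ^ 4 + c1 * g1 * el / (150 * D * t ^ 6) * nu) U X Y Z := by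
  have gp1 := e.g1p
  unfold Tm.form
  rw [entCs_a11 e ht hD hG, entCs_a12 e ht hD hG, entCs_a13 e ht hD hG, entCs_a14,
    entCs_a22 e ht hD hG, entCs_a23 e ht hD hG, entCs_a24 e ht hD hG,
    entCs_a33 e ht hD hG, entCs_a34 e ht hD hG, entCs_a44 e ht hD hG w33 w34]
  unfold form4 F4
  generalize Shh (s.co N M) (s.ex N M) N M (t ^ 2 * q) = a
  generalize Sgg (s.co N M) (s.ex N M) N M (t ^ 2 * q) (1 - t ^ 4 * k) + (l0 + t ^ 2 * q * l1 + c1 * g1 * el / (150 * D * t ^ 2) * lam) = b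
  generalize Shg (s.co N M) (s.ex N M) N M (t ^ 2 * q) (1 - t ^ 4 * k) = c
  generalize (7 * (l0 + t ^ 2 * q * l1) / t ^ 4 + c1 * g1 * el / (150 * D * t ^ 6) * nu) = d
  field_simp
  ring

theorem scC {s : En} {w : ℕ → ℝ} {N M t q k g1 g2 c1 c2 l0 l1 el D lam mu : ℝ}
    (e : EqC s w N M t g1 g2 c1 c2 l0 l1 el) (ht : 0 < t) (hD : 0 < D)
    (hH : s.HF N M = 30000 * D * t ^ 6) :
    idC.sc w q k lam mu = 30000 * D / g2 *
        (H129.Sc (s.co N M) (s.ex N M) N M (t ^ 2 * q) ((1 - t ^ 4 * k) * N ^ 3) -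
          (l0 + t ^ 2 * q * l1 + c1 * g1 * el / (150 * D * t ^ 2) * lam) * (t ^ 2 * q) -
          c1 * g1 * el / (150 * D * t ^ 6) * mu * (1 - (1 - t ^ 4 * k) ^ 2) * (t ^ 2 * q) -
          s.dn / 30000 * (N ^ 2 * M ^ 2)) := by
  have gp1 := e.g1p
  have gp2 := e.g2p
  have hc2 : c2 = 200 * c1 * g1 / g2 := by rw [eq_div_iff gp2.ne']; linarith [e.cc]
  unfold Id6.sc zsV msV idC H129.Sc
  simp only [List.foldr, sel_0, sel_1, sel_2, ex_e1, ex_ek]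
  rw [e.e18, e.e19, e.e20, e.e21, e.e22, e.e23, e.e24, e.e25, hc2, hH]
  unfold z00 z01 z10 z11 z20
  field_simp
  ring

theorem pw4_of_goodC {s : En} {w : ℕ → ℝ} {X Y N M t q k g1 g2 c1 c2 l0 l1 el : ℝ}
    (h : s.At X Y N M) (hK : s.K = 3) (ht : 0 < t) (hT : Tht N M = t ^ 2)
    (e : EqC s w N M t g1 g2 c1 c2 l0 l1 el)
    (hk : (1 - t ^ 4 * k) ^ 2 ≤ 1) (hk1 : k ≤ 1 / 14) (hel : 0 < el)
    (hls : 0 ≤ l0 + t ^ 2 * q * l1)
    (hg : idC.Good w q k) (hc : ∀ c ∈ idC.cons, 0 ≤ w c.1 + q * w c.2.1 + k * w c.2.2) :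
    Pw4 (s.co N M) (s.ex N M) N M (t ^ 2 * q) (1 - t ^ 4 * k) (s.dn / 30000 * (N ^ 2 * M ^ 2)) := by
  obtain ⟨lam, mu, nu, hlam, hmu, hnu, hQ, hS, hR⟩ := hg hc
  have hD : (0 : ℝ) < s.d.D := lt_of_le_of_ne (Nat.cast_nonneg _) h.D0.symm
  have hG : s.GF N M = 150 * s.d.D * t ^ 8 := by
    unfold En.GF; rw [hT, hK]; ring
  have hH : s.HF N M = 30000 * s.d.D * t ^ 6 := by unfold En.HF; rw [hT, hK]; ring
  generalize (s.d.D : ℝ) = D at hD hG hH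
  have gp1 := e.g1p
  have gp2 := e.g2p
  have cp1 := e.c1p
  have hkp : 0 ≤ t ^ 4 * k * (2 - t ^ 4 * k) := by nlinarith
  have hkn : 0 ≤ k := by
    by_contra hkn
    have h1 : t ^ 4 * k < 0 := mul_neg_of_pos_of_neg (by positivity) (not_le.1 hkn)
    nlinarith
  have hs1 : 0 < c1 * g1 * el / (150 * D * t ^ 2) := by positivity
  have hs3 : 0 < c1 * g1 * el / (150 * D * t ^ 6) := by positivity
  refine ⟨l0 + t ^ 2 * q * l1 + c1 * g1 * el / (150 * D * t ^ 2) * lam,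
    c1 * g1 * el / (150 * D * t ^ 6) * mu,
    c1 * g1 * el / (150 * D * t ^ 6) * nu, by positivity, by positivity, by positivity,
    ?_, ?_, ?_⟩
  · intro U X Y Z
    have h1 := hQ (U * t ^ 2 / 7) ((X + Y) / 2) (t * (X - Y) / 2) (Z / t)
    rw [formC e ht hD hG] at h1
    exact nonneg_of_mul_nonneg_right h1 (by positivity)
  · rw [scC e ht hD hH] at hS
    have h3 := nonneg_of_mul_nonneg_right hS (by positivity)
    linarith
  · have h2 : idC.rel w k lam mu nu = lam + (mu - nu) * (k * (2 - t ^ 4 * k)) := by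
      unfold Id6.rel msV idC
      simp only [List.foldr, sel_0, sel_1, sel_2]
      rw [e.e26, e.e27, e.e28]
      ring
    rw [h2] at hR
    have h3 := mul_nonneg hs1.le hR
    have h4 : c1 * g1 * el / (150 * D * t ^ 2) * (lam + (mu - nu) * (k * (2 - t ^ 4 * k))) =
        c1 * g1 * el / (150 * D * t ^ 2) * lam + (c1 * g1 * el / (150 * D * t ^ 6) * mu -
          c1 * g1 * el / (150 * D * t ^ 6) * nu) * (1 - (1 - t ^ 4 * k) ^ 2) := by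
      field_simp
      ring
    rw [h4] at h3
    linarith

theorem scCs {s : En} {w : ℕ → ℝ} {N M t q k g1 g2 c1 c2 l0 l1 el D lam mu : ℝ}
    (e : EqC s w N M t g1 g2 c1 c2 l0 l1 el) (ht : 0 < t) (hD : 0 < D)
    (hH : s.HF N M = 30000 * D * t ^ 6) :
    idCs.sc w q k lam mu = 30000 * D / g2 *
        (H129.Sc (s.co N M) (s.ex N M) N M (t ^ 2 * q) ((1 - t ^ 4 * k) * N ^ 3) -
          (l0 + t ^ 2 * q * l1 + c1 * g1 * el / (150 * D * t ^ 2) * lam) * (t ^ 2 * q) -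
          c1 * g1 * el / (150 * D * t ^ 6) * mu * (1 - (1 - t ^ 4 * k) ^ 2) * (t ^ 2 * q) -
          s.dn / 30000 * (N ^ 2 * M ^ 2)) := by
  have gp1 := e.g1p
  have gp2 := e.g2p
  have hc2 : c2 = 200 * c1 * g1 / g2 := by rw [eq_div_iff gp2.ne']; linarith [e.cc]
  unfold Id6.sc zsV msV idCs idC H129.Sc
  simp only [List.foldr, sel_0, sel_1, sel_2, ex_e1, ex_ek]
  rw [e.e18, e.e19, e.e20, e.e21, e.e22, e.e23, e.e24, e.e25, hc2, hH]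
  unfold z00 z01 z10 z11 z20
  field_simp
  ring

theorem pw4_of_goodCs {s : En} {w : ℕ → ℝ} {X Y N M t q k g1 g2 c1 c2 l0 l1 el : ℝ}
    (h : s.At X Y N M) (hK : s.K = 3) (ht : 0 < t) (hT : Tht N M = t ^ 2)
    (e : EqC s w N M t g1 g2 c1 c2 l0 l1 el)
    (hk : (1 - t ^ 4 * k) ^ 2 ≤ 1) (hk1 : k ≤ 1 / 14) (hel : 0 < el)
    (hls : 0 ≤ l0 + t ^ 2 * q * l1)
    (w33 : w 33 = s.GF N M * (7 * l0) / (g1 * t ^ 6)) (w34 : w 34 = s.GF N M * (7 * l1) / (g1 * t ^ 4))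
    (hg : idCs.Good w q k) (hc : ∀ c ∈ idCs.cons, 0 ≤ w c.1 + q * w c.2.1 + k * w c.2.2) :
    Pw4 (s.co N M) (s.ex N M) N M (t ^ 2 * q) (1 - t ^ 4 * k) (s.dn / 30000 * (N ^ 2 * M ^ 2)) := by
  obtain ⟨lam, mu, nu, hlam, hmu, hnu, hQ, hS, hR⟩ := hg hc
  have hD : (0 : ℝ) < s.d.D := lt_of_le_of_ne (Nat.cast_nonneg _) h.D0.symm
  have hG : s.GF N M = 150 * s.d.D * t ^ 8 := by
    unfold En.GF; rw [hT, hK]; ring
  have hH : s.HF N M = 30000 * s.d.D * t ^ 6 := by unfold En.HF; rw [hT, hK]; ring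
  generalize (s.d.D : ℝ) = D at hD hG hH
  have gp1 := e.g1p
  have gp2 := e.g2p
  have cp1 := e.c1p
  have hkp : 0 ≤ t ^ 4 * k * (2 - t ^ 4 * k) := by nlinarith
  have hkn : 0 ≤ k := by
    by_contra hkn
    have h1 : t ^ 4 * k < 0 := mul_neg_of_pos_of_neg (by positivity) (not_le.1 hkn)
    nlinarith
  have hs1 : 0 < c1 * g1 * el / (150 * D * t ^ 2) := by positivity
  have hs3 : 0 < c1 * g1 * el / (150 * D * t ^ 6) := by positivity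
  refine ⟨l0 + t ^ 2 * q * l1 + c1 * g1 * el / (150 * D * t ^ 2) * lam,
    c1 * g1 * el / (150 * D * t ^ 6) * mu,
    7 * (l0 + t ^ 2 * q * l1) / t ^ 4 + c1 * g1 * el / (150 * D * t ^ 6) * nu, by positivity, by positivity, by positivity,
    ?_, ?_, ?_⟩
  · intro U X Y Z
    have h1 := hQ (U * t ^ 2 / 7) ((X + Y) / 2) (t * (X - Y) / 2) (Z / t)
    rw [formCs e ht hD hG w33 w34] at h1
    exact nonneg_of_mul_nonneg_right h1 (by positivity)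
  · rw [scCs e ht hD hH] at hS
    have h3 := nonneg_of_mul_nonneg_right hS (by positivity)
    linarith
  · have h2 : idCs.rel w k lam mu nu = lam + (mu - nu) * (k * (2 - t ^ 4 * k)) := by
      unfold Id6.rel msV idCs idC
      simp only [List.foldr, sel_0, sel_1, sel_2]
      rw [e.e26, e.e27, e.e28]
      ring
    rw [h2] at hR
    have h3 := mul_nonneg hs1.le hR
    have h4 : c1 * g1 * el / (150 * D * t ^ 2) * (lam + (mu - nu) * (k * (2 - t ^ 4 * k))) =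
        c1 * g1 * el / (150 * D * t ^ 2) * lam + (c1 * g1 * el / (150 * D * t ^ 6) * mu -
          c1 * g1 * el / (150 * D * t ^ 6) * nu) * (1 - (1 - t ^ 4 * k) ^ 2) := by
      field_simp
      ring
    rw [h4] at h3
    have h5 : 0 ≤ (l0 + t ^ 2 * q * l1) * (1 - 7 * (k * (2 - t ^ 4 * k))) := by
      refine mul_nonneg hls ?_
      have : 0 ≤ k * (t ^ 4 * k) := by positivity
      nlinarith
    have h6 : 7 * (l0 + t ^ 2 * q * l1) / t ^ 4 * (1 - (1 - t ^ 4 * k) ^ 2) =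
        (l0 + t ^ 2 * q * l1) * (7 * (k * (2 - t ^ 4 * k))) := by
      field_simp
      ring
    linarith

end Vale.Agent.P211.H626
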