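import Vale.Agent.P211.H626.Pw

set_option linter.all false

/-! P211 (helper626): the scalar conditions with a form in the four variables
`(u / p, h, g, σ z)`. -/

namespace Vale.Agent.P211.H626

open Vale.Agent.P211 Vale.Agent.P211.S4

/-- coefficient of `|h|²` without Schur term -/
noncomputable def Shh (c : H129.Co) (e : H129.Ex) (N M p : ℝ) : ℝ :=
  5 / 3 * (c.B0 + p * c.B1) + M * (c.B0M + p * c.B1M) + e.hh
/-- coefficient of `|g|²` -/
noncomputable def Sgg (c : H129.Co) (e : H129.Ex) (N M p κ : ℝ) : ℝ :=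
  c.AN * (9 * N ^ 2 * κ - 6 * N) + N * (c.C0N + p * c.C1N) + 3 * N ^ 2 * c.C1 * (1 - N * κ) + e.gg
/-- coefficient of `h·g` -/
noncomputable def Shg (c : H129.Co) (e : H129.Ex) (N M p κ : ℝ) : ℝ :=
  c.AM * (9 * N ^ 2 * κ - 6 * N) + M * (c.B0N + p * c.B1N) + 3 * N * M * c.B1 * (1 - N * κ) +
    N * (c.C0M + p * c.C1M) + e.gh

/-- the form in `(u / p, h, g, σ z)` with the multipliers -/
noncomputable def F4 (c : H129.Co) (e : H129.Ex) (N M p κ lam nu U X Y Z : ℝ) : ℝ :=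
  6 / 7 * c.A * p * U ^ 2 + p * U * ((c.AM + M * c.B1) * X + (c.AN + N * c.C1) * Y) +
    Shh c e N M p * X ^ 2 + (Sgg c e N M p κ + lam) * Y ^ 2 + Shg c e N M p κ * (X * Y) +
    3 * N ^ 2 * (3 * c.AM - M * c.B1) * (X * Z) + 3 * N ^ 2 * (3 * c.AN - N * c.C1) * (Y * Z) +
    nu * Z ^ 2

/-- the scalar conditions at a point, with margin `δ` -/
def Pw4 (c : H129.Co) (e : H129.Ex) (N M p κ δ : ℝ) : Prop :=
  ∃ lam mu nu : ℝ, 0 ≤ lam ∧ 0 ≤ mu ∧ 0 ≤ nu ∧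
    (∀ U X Y Z, 0 ≤ F4 c e N M p κ lam nu U X Y Z) ∧
    δ ≤ H129.Sc c e N M p (κ * N ^ 3) - lam * p - mu * (1 - κ ^ 2) * p ∧
    0 ≤ lam + (mu - nu) * (1 - κ ^ 2)

open H129 in
/-- **the reduction** for `p > 0` -/
theorem RR_ge5 (c : Co) (e : Ex) (N M p κ σ lam mu nu : ℝ) (u h g z : Fin 4 → ℝ)
    (hp : 0 < p) (hlam : 0 ≤ lam) (hmu : 0 ≤ mu) (hgz : H129.dt g g + H129.dt z z ≤ p)
    (hκ : κ ^ 2 + σ ^ 2 = 1) (hQ : ∀ U X Y Z, 0 ≤ F4 c e N M p κ lam nu U X Y Z)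
    (hrel : 0 ≤ lam + (mu - nu) * (1 - κ ^ 2)) :
    Sc c e N M p (κ * N ^ 3) - lam * p - mu * (1 - κ ^ 2) * p ≤ RR c e N M p κ σ u h g z := by
  have hgg : 0 ≤ H129.dt g g := Finset.sum_nonneg fun i _ => mul_self_nonneg _
  have hzz : 0 ≤ H129.dt z z := Finset.sum_nonneg fun i _ => mul_self_nonneg _
  have hs : σ ^ 2 = 1 - κ ^ 2 := by linarith
  have h3 : RR c e N M p κ σ u h g z - Sc c e N M p (κ * N^3) + lam * H129.dt g g +
      nu * (1 - κ ^ 2) * H129.dt z z =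
      ∑ i, F4 c e N M p κ lam nu (u i / p) (h i) (g i) (σ * z i) := by
    have hp' := hp.ne'
    have e1 : ∀ i, F4 c e N M p κ lam nu (u i / p) (h i) (g i) (σ * z i) =
      (c.A * ((6/7) * (u i * u i) / p)
    + (c.AN * g i + c.AM * h i) * (u i - 6 * N * g i + 9 * N^2 * (κ * g i + σ * z i))
    + (c.B0 + p * c.B1) * ((5/3) * (h i * h i))
    + M * (((c.B0N + p * c.B1N) * g i + (c.B0M + p * c.B1M) * h i
        + c.B1 * (u i + 3 * N * g i - 3 * N^2 * (κ * g i + σ * z i))) * h i)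
    + N * (((c.C0N + p * c.C1N) * g i + (c.C0M + p * c.C1M) * h i
        + c.C1 * (u i + 3 * N * g i - 3 * N^2 * (κ * g i + σ * z i))) * g i)
    + (e.hh * (h i * h i) + e.gh * (g i * h i) + e.gg * (g i * g i))
    + lam * (g i * g i) + nu * (1 - κ ^ 2) * (z i * z i)) := by
      intro i
      rw [← hs]
      unfold F4 Shh Sgg Shg
      field_simp
      ring
    simp only [e1]
    unfold RR Sc H129.dt
    simp only [Fin.sum_univ_four]
    ring
  have h6 : 0 ≤ ∑ i, F4 c e N M p κ lam nu (u i / p) (h i) (g i) (σ * z i) :=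
    Finset.sum_nonneg fun i _ => hQ _ _ _ _
  rw [← h3] at h6
  have hk : 0 ≤ 1 - κ ^ 2 := by rw [← hs]; positivity
  have h7 : lam * H129.dt g g + nu * (1 - κ ^ 2) * H129.dt z z ≤
      (lam + mu * (1 - κ ^ 2)) * (H129.dt g g + H129.dt z z) := by
    have a1 : 0 ≤ mu * (1 - κ ^ 2) * H129.dt g g := by positivity
    have a2 : nu * (1 - κ ^ 2) * H129.dt z z ≤ (lam + mu * (1 - κ ^ 2)) * H129.dt z z :=
      mul_le_mul_of_nonneg_right (by linarith) hzz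
    linarith
  have h8 : (lam + mu * (1 - κ ^ 2)) * (H129.dt g g + H129.dt z z) ≤
      (lam + mu * (1 - κ ^ 2)) * p := mul_le_mul_of_nonneg_left hgz (by positivity)
  linarith

/-- **the scalar conditions imply the pointwise inequality** -/
theorem RR_of_pw4 {c : H129.Co} {e : H129.Ex} {P : H56.Pt} (hP : P.Ok) {δ : ℝ}
    (h : Pw4 c e P.N P.M P.p P.κ δ) :
    δ ≤ H129.RR c e P.N P.M P.p P.κ P.σ P.u P.h P.g P.z := by
  obtain ⟨lam, mu, nu, hlam, hmu, hnu, hQ, hS, hrel⟩ := h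
  have e1 := H56.dt_self_nonneg P.g
  have e2 := H56.dt_self_nonneg P.z
  have e3 := H56.dt_self_nonneg P.t
  have hn := hP.norm
  rcases lt_or_eq_of_le (show 0 ≤ P.p by rw [hn]; positivity) with hp | hp
  · refine hS.trans (RR_ge5 c e P.N P.M P.p P.κ P.σ lam mu nu P.u P.h P.g P.z hp hlam hmu ?_
      hP.ks hQ hrel)
    show H56.dt P.g P.g + H56.dt P.z P.z ≤ P.p
    linarith
  · have g0 : P.g = 0 := dt_zero_imp (by linarith)
    have z0 : P.z = 0 := dt_zero_imp (by linarith)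
    have u0 : P.u = 0 := hP.u0 hp.symm
    have h1 := hQ 0 1 0 0
    have h2 : 0 ≤ H129.dt P.h P.h := H56.dt_self_nonneg P.h
    have h3 : H129.RR c e P.N P.M 0 P.κ P.σ 0 P.h 0 0 =
        H129.Sc c e P.N P.M 0 (P.κ * P.N ^ 3) +
          F4 c e P.N P.M 0 P.κ lam nu 0 1 0 0 * H129.dt P.h P.h := by
      unfold H129.RR H129.Sc F4 Shh H129.dt
      simp only [Fin.sum_univ_four, Pi.zero_apply]
      ring
    rw [g0, z0, u0, ← hp, h3]
    rw [← hp] at hS h1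
    have h4 := mul_nonneg h1 h2
    have h5 : H129.Sc c e P.N P.M 0 (P.κ * P.N ^ 3) - lam * 0 - mu * (1 - P.κ ^ 2) * 0 =
      H129.Sc c e P.N P.M 0 (P.κ * P.N ^ 3) := by ring
    rw [h5] at hS
    linarith

/-- points with small positive `p` -/
theorem Dom.small {N M p κ : ℝ} (h : Dom N M p κ) : ∃ q, 0 < q ∧ Dom N M q 1 := by
  have h1 := h.N0
  have h2 := h.M0
  have h3 := h.NM
  have hN2 : N ≤ 2 := by linarith
  have hTh : 0 < 6 * (2 - N - M) + 2 / 5 * (N - M) ^ 2 := by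
    rcases (show 0 ≤ 2 - N - M by linarith).lt_or_eq with h4 | h4
    · positivity
    · have h5 : N - M ≠ 0 := fun h5 => h.ne ⟨by linarith, by linarith⟩
      positivity
  refine ⟨min 1 (20 * (6 * (2 - N - M) + 2 / 5 * (N - M) ^ 2)), lt_min one_pos (by positivity),
    h1, h2, h3, h.ne, le_min zero_le_one (by positivity), by norm_num, le_rfl, ?_, ?_, ?_,
    min_le_right _ _⟩
  · have : 0 ≤ (N - (2 - M)) ^ 2 * (2 * N + (2 - M)) :=
      mul_nonneg (sq_nonneg _) (by linarith)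
    nlinarith
  · have : 0 ≤ (N - 2) ^ 2 * (N + 1) := mul_nonneg (sq_nonneg _) (by linarith)
    nlinarith
  · have h5 : min 1 (20 * (6 * (2 - N - M) + 2 / 5 * (N - M) ^ 2)) ≤ 1 := min_le_left _ _
    have h6 : 4 * N ^ 3 - 9 / 2 * N ^ 2 ≤ 14 := by
      have : 0 ≤ (2 - N) * (4 * N ^ 2 + 7 / 2 * N + 7) := mul_nonneg (by linarith) (by positivity)
      nlinarith
    linarith

variable {M 𝒪 V : Type*} [TopologicalSpace M] [CommRing 𝒪] [Algebra ℝ 𝒪]
    [AddCommGroup V] [Module 𝒪 V] {G : Geo2 M 𝒪 V}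

/-- **A vertex certificate from the scalar conditions** (4×4 forms). -/
theorem vc_of_pw4 {c : Cert} (h : c.Sm G) {a a' : ℝ → ℝ} {x y : ℝ} (δ : ℝ → ℝ → ℝ)
    (hδ : ∀ N M, 0 ≤ N → 0 ≤ M → 0 ≤ δ N M) (hδ' : ∀ N M, 0 < N → 0 < M → 0 < δ N M)
    (hB : ∀ N M p κ, Dom N M p κ → 0 ≤ c.B0.f N M + p * c.B1.f N M)
    (hpw : ∀ N M p κ, Dom N M p κ →
      Pw4 (c.co N M) (Cert.exP a a' x y N M) N M p κ (δ N M)) :
    VC G E3 a a' x y := by
  refine Cert.vc h fun P hP hE hne => ?_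
  have hd := dom_of hP hE hne
  have h1 := hpw P.N P.M P.p P.κ hd
  have h2 := RR_of_pw4 hP h1
  refine ⟨?_, hB _ _ _ _ hd, (hδ _ _ hP.N0 hP.M0).trans h2,
    fun h3 h4 => (hδ' _ _ h3 h4).trans_le h2⟩
  obtain ⟨q, hq, hd'⟩ := hd.small
  obtain ⟨lam, mu, nu, -, -, -, hQ, -, -⟩ := hpw _ _ _ _ hd'
  have h3 := hQ 1 0 0 0
  have h4 : F4 (c.co P.N P.M) (Cert.exP a a' x y P.N P.M) P.N P.M q 1 lam nu 1 0 0 0 =
      6 / 7 * q * c.A.f P.N P.M := by
    unfold F4 Cert.co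
    ring
  rw [h4] at h3
  exact nonneg_of_mul_nonneg_right h3 (by positivity)

end Vale.Agent.P211.H626
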