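import Vale.Agent.P211.H237.Fast

set_option linter.all false

/-! P211 (helper626): equality of an integer table and of a structured polynomial expression,
from one residue. -/

namespace Vale.Agent.P211.H626

open MvPolynomial Vale.Agent.P211.H237

/-- polynomial expressions -/
inductive PE
  | x
  | y
  | c (z : ℤ)
  | add (a b : PE)
  | mul (a b : PE)
  | pow (a : PE) (n : ℕ)

namespace PE

/-- real value -/
def ev (X Y : ℝ) : PE → ℝ
  | x => X
  | y => Y
  | c z => (z : ℝ)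
  | add a b => a.ev X Y + b.ev X Y
  | mul a b => a.ev X Y * b.ev X Y
  | pow a n => a.ev X Y ^ n

/-- the polynomial -/
noncomputable def pol : PE → MP
  | x => X 0
  | y => X 1
  | c z => MvPolynomial.C z
  | add a b => a.pol + b.pol
  | mul a b => a.pol * b.pol
  | pow a n => a.pol ^ n

/-- bounds: norm, degrees -/
def bd : PE → ℕ × ℕ × ℕ
  | x => (1, 1, 0)
  | y => (1, 0, 1)
  | c z => (z.natAbs, 0, 0)
  | add a b => (a.bd.1 + b.bd.1, max a.bd.2.1 b.bd.2.1, max a.bd.2.2 b.bd.2.2)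
  | mul a b => (a.bd.1 * b.bd.1, a.bd.2.1 + b.bd.2.1, a.bd.2.2 + b.bd.2.2)
  | pow a n => (a.bd.1 ^ n, n * a.bd.2.1, n * a.bd.2.2)

/-- residue of the value at `(A, B)` modulo `W` -/
noncomputable def res (W A B : ℕ) : PE → ℕ :=
  PE.rec A B (fun z => Int.rec (fun k => k) (fun k => Nat.sub W (Nat.mod (Nat.succ k) W)) z)
    (fun _ _ u v => Nat.mod (Nat.add u v) W) (fun _ _ u v => Nat.mod (Nat.mul u v) W)
    (fun _ n u => Nat.rec 1 (fun _ r => Nat.mod (Nat.mul r u) W) n)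

theorem rev_pol (X Y : ℝ) (e : PE) : rev X Y e.pol = e.ev X Y := by
  induction e with
  | x => simp [rev, pol, ev]
  | y => simp [rev, pol, ev]
  | c z => rw [pol, ev, rev_C]
  | add a b iha ihb => simp only [pol, ev, ← iha, ← ihb]; simp [rev, eval₂_add]
  | mul a b iha ihb => simp only [pol, ev, ← iha, ← ihb]; simp [rev, eval₂_mul]
  | pow a n iha => simp only [pol, ev, ← iha]; simp [rev, eval₂_pow]

theorem bd_pol (e : PE) : Bd e.pol e.bd.1 e.bd.2.1 e.bd.2.2 := by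
  induction e with
  | x => exact Bd.X0
  | y => exact Bd.X1
  | c z => exact Bd.C z
  | add a b iha ihb => exact iha.add ihb
  | mul a b iha ihb => exact iha.mul ihb
  | pow a n iha => exact iha.pow n

theorem cast_res {W : ℕ} (hW : 0 < W) (A B : ℕ) (e : PE) :
    ((e.res W A B : ℕ) : ZMod W) = eval₂ (Int.castRingHom (ZMod W)) ![(A : ZMod W), B] e.pol := by
  induction e with
  | x => show ((A : ℕ) : ZMod W) = _; simp [pol]
  | y => show ((B : ℕ) : ZMod W) = _; simp [pol]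
  | c z =>
    cases z with
    | ofNat k => show ((k : ℕ) : ZMod W) = _; simp [pol]
    | negSucc k =>
      show ((W - (k + 1) % W : ℕ) : ZMod W) = _
      rw [Nat.cast_sub (Nat.mod_lt _ hW).le, ZMod.natCast_mod, ZMod.natCast_self, zero_sub]
      simp [pol]
  | add a b iha ihb =>
    show (((a.res W A B + b.res W A B) % W : ℕ) : ZMod W) = _
    rw [ZMod.natCast_mod, Nat.cast_add, iha, ihb, pol, eval₂_add]
  | mul a b iha ihb =>
    show (((a.res W A B * b.res W A B) % W : ℕ) : ZMod W) = _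
    rw [ZMod.natCast_mod, Nat.cast_mul, iha, ihb, pol, eval₂_mul]
  | pow a n iha =>
    have h : ∀ n : ℕ, (((Nat.rec 1 (fun _ r => Nat.mod (Nat.mul r (a.res W A B)) W) n : ℕ) : ℕ) :
        ZMod W) = (eval₂ (Int.castRingHom (ZMod W)) ![(A : ZMod W), B] a.pol) ^ n := by
      intro n
      induction n with
      | zero => simp
      | succ n ih =>
        show (((Nat.rec 1 (fun _ r => Nat.mod (Nat.mul r (a.res W A B)) W) n *
          a.res W A B) % W : ℕ) : ZMod W) = _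
        rw [ZMod.natCast_mod, Nat.cast_mul, ih, iha, pow_succ]
    have h' := h n
    rw [pol, eval₂_pow]
    exact h'

end PE

/-- two polynomials with the same residue at the Kronecker point are equal -/
theorem eq_of_res {P Q : MP} {n D E β W : ℕ} (hP : Bd P n D E) (hQ : Bd Q n D E)
    (hn : 2 * n < 2 ^ β) (hW : W = 2 ^ ((β + 1) * ((D + 1) * (E + 1))))
    (h : eval₂ (Int.castRingHom (ZMod W)) ![((2 ^ (β + 1) : ℕ) : ZMod W),
        ((2 ^ ((β + 1) * (D + 1)) : ℕ) : ZMod W)] P =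
      eval₂ (Int.castRingHom (ZMod W)) ![((2 ^ (β + 1) : ℕ) : ZMod W),
        ((2 ^ ((β + 1) * (D + 1)) : ℕ) : ZMod W)] Q) : P = Q := by
  have hW0 : 0 < W := by rw [hW]; exact Nat.two_pow_pos _
  have key : ∀ R S : MP, Bd R n D E → Bd S n D E →
      eval₂ (Int.castRingHom (ZMod W)) ![((2 ^ (β + 1) : ℕ) : ZMod W),
        ((2 ^ ((β + 1) * (D + 1)) : ℕ) : ZMod W)] R =
      eval₂ (Int.castRingHom (ZMod W)) ![((2 ^ (β + 1) : ℕ) : ZMod W),
        ((2 ^ ((β + 1) * (D + 1)) : ℕ) : ZMod W)] S → ∀ m, 0 ≤ coeff m (R + C (-1) * S) := by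
    intro R S hR hS hRS
    have hb := hR.add ((Bd.C (-1)).mul hS)
    simp only [Int.reduceNeg, Int.natAbs_neg, Int.natAbs_one, one_mul, zero_add, max_self] at hb
    obtain ⟨⟨N, hN1, hN2⟩, -, -⟩ := id hb
    obtain ⟨Y, hY1, hY2, hY3⟩ := exists_digits (R + C (-1) * S) N hN1 β (D + 1) (E + 1)
      (fun m hm => Nat.lt_succ_of_le (hb.supp0 hm)) (fun m hm => Nat.lt_succ_of_le (hb.supp1 hm))
      (lt_of_le_of_lt (hN2.trans (by omega)) hn)
    apply hY3
    have hmask : mask β (D + 1) (E + 1) < 2 ^ ((β + 1) * ((D + 1) * (E + 1))) := by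
      rw [← mask_eq]
      exact dig2_lt _ _ _ _ fun _ _ _ _ => Nat.pow_lt_pow_right (by norm_num) (Nat.lt_succ_self _)
    have hmod : ((Y : ℕ) : ZMod W) = ((mask β (D + 1) (E + 1) : ℕ) : ZMod W) := by
      have e1 : ((Y : ℕ) : ZMod W) = (((Y : ℕ) : ℤ) : ZMod W) := by push_cast; rfl
      rw [e1, hY1, Int.cast_add, Int.cast_natCast]
      have e2 : ((eval ![(2 : ℤ) ^ (β + 1), 2 ^ ((β + 1) * (D + 1))] (R + C (-1) * S) : ℤ) :
          ZMod W) = eval₂ (Int.castRingHom (ZMod W)) ![((2 ^ (β + 1) : ℕ) : ZMod W),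
          ((2 ^ ((β + 1) * (D + 1)) : ℕ) : ZMod W)] (R + C (-1) * S) := by
        have e4 : (Int.castRingHom (ZMod W)).comp
            (eval ![(2 : ℤ) ^ (β + 1), 2 ^ ((β + 1) * (D + 1))]) =
            eval₂Hom (Int.castRingHom (ZMod W)) ![((2 ^ (β + 1) : ℕ) : ZMod W),
              ((2 ^ ((β + 1) * (D + 1)) : ℕ) : ZMod W)] := by
          apply MvPolynomial.ringHom_ext
          · intro z; simp
          · intro i
            fin_cases i
            · simp
            · simp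
        exact congrArg (fun f : MP →+* ZMod W => f (R + C (-1) * S)) e4
      rw [e2, eval₂_add, eval₂_mul, hRS, eval₂_C]
      simp
    rw [ZMod.natCast_eq_natCast_iff'] at hmod
    rw [Nat.mod_eq_of_lt (by rw [hW]; exact hY2), Nat.mod_eq_of_lt (by rw [hW]; exact hmask)]
      at hmod
    rw [hmod, Nat.and_self]
  have k1 := key P Q hP hQ h
  have k2 := key Q P hQ hP h.symm
  have k3 : P + C (-1) * Q = 0 := by
    ext m
    have a1 := k1 m
    have a2 := k2 m
    rw [coeff_add, coeff_C_mul] at a1 a2 ⊢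
    rw [coeff_zero]
    linarith
  have : P = (P + C (-1) * Q) + Q := by
    have : (C (-1) : MP) = -1 := by simp
    rw [this]; ring
  rw [this, k3, zero_add]

/-- parameters of a zero test -/
structure ZP where
  β : ℕ
  D : ℕ
  E : ℕ
  n : ℕ

/-- the modulus -/
def ZP.W (z : ZP) : ℕ := 2 ^ ((z.β + 1) * ((z.D + 1) * (z.E + 1)))

/-- the test: `m * (table polynomial) = e` -/
noncomputable def ztest (z : ZP) (T : Tab) (i : ℕ) (m e : PE) : Bool :=
  Nat.ble (nrm2 (T.cf.getD i []) * m.bd.1) z.n && Nat.ble (T.D + m.bd.2.1) z.D &&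
  Nat.ble (T.E + m.bd.2.2) z.E && Nat.ble e.bd.1 z.n && Nat.ble e.bd.2.1 z.D &&
  Nat.ble e.bd.2.2 z.E && Nat.blt (2 * z.n) (2 ^ z.β) &&
  Nat.beq (Nat.mod (Nat.mul (m.res z.W (2 ^ (z.β + 1)) (2 ^ ((z.β + 1) * (z.D + 1))))
    (dot2N z.W (T.cf.getD i []) (rowsN z.W T.E (2 ^ (z.β + 1)) (2 ^ ((z.β + 1) * (z.D + 1)))
      T.D 1))) z.W)
    (Nat.mod (e.res z.W (2 ^ (z.β + 1)) (2 ^ ((z.β + 1) * (z.D + 1)))) z.W)

theorem ztest_sound {z : ZP} {T : Tab} {i : ℕ} {m e : PE} (h : ztest z T i m e = true)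
    (x y : ℝ) : m.ev x y * T.vals x y i = e.ev x y := by
  unfold ztest at h
  simp only [Bool.and_eq_true, Nat.ble_eq, Nat.blt_eq] at h
  obtain ⟨⟨⟨⟨⟨⟨⟨h1, h2⟩, h3⟩, h4⟩, h5⟩, h6⟩, h7⟩, h8⟩ := h
  have hW0 : 0 < z.W := Nat.two_pow_pos _
  have hb : Bd (T.pol i) (nrm2 (T.cf.getD i [])) T.D T.E := by
    have := rows_bd T.E T.D (a := 1) 0 (by simpa using (Bd.C 1)) (T.cf.getD i [])
    rwa [Nat.zero_add] at this
  have b1 : Bd (m.pol * T.pol i) z.n z.D z.E :=
    (m.bd_pol.mul hb).mono (by rw [Nat.mul_comm]; exact h1) (by omega) (by omega)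
  have b2 : Bd e.pol z.n z.D z.E := e.bd_pol.mono h4 h5 h6
  have key : m.pol * T.pol i = e.pol := by
    refine eq_of_res (W := z.W) b1 b2 h7 rfl ?_
    have h9 := Nat.eq_of_beq_eq_true h8
    have h10 := congrArg (Nat.cast : ℕ → ZMod z.W) h9
    have e1 : ∀ a b : ℕ, Nat.mod a b = a % b := fun _ _ => rfl
    have e2 : ∀ a b : ℕ, Nat.mul a b = a * b := fun _ _ => rfl
    rw [e1, e1, e2, ZMod.natCast_mod, ZMod.natCast_mod, Nat.cast_mul, PE.cast_res hW0,
      PE.cast_res hW0] at h10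
    obtain ⟨g1, g2⟩ := rowsN_spec (W := z.W) (E := T.E) (x := 2 ^ (z.β + 1))
      (y := 2 ^ ((z.β + 1) * (z.D + 1))) hW0 T.D 1 hW0
    rw [cast_dot2N _ _ g1, g2] at h10
    rw [eval₂_mul, ← h10]
    congr 1
    unfold Tab.pol
    have h3 := map_dot2 (eval₂Hom (Int.castRingHom (ZMod z.W))
      ![((2 ^ (z.β + 1) : ℕ) : ZMod z.W), ((2 ^ ((z.β + 1) * (z.D + 1)) : ℕ) : ZMod z.W)])
      (T.cf.getD i []) (rows T.E (X 0) (X 1) T.D 1)
    rw [map_rows] at h3
    simp only [coe_eval₂Hom, eval₂_X, eval₂_one, Matrix.cons_val_zero, Matrix.cons_val_one] at h3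
    rw [Nat.cast_one]
    exact h3
  have h11 := congrArg (rev x y) key
  rw [rev_mul, PE.rev_pol, PE.rev_pol, Tab.rev_pol] at h11
  exact h11

end Vale.Agent.P211.H626
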