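import Vale.Agent.P211.H626.Pw4
import Vale.Agent.P211.H626.Zt

set_option linter.all false

/-! P211 (helper626): certificates given by lists of terms `c f^i ξ^j Θ^{-e}`,
`f = 2 - N - M`, `ξ = N - M`, their numerators as polynomial expressions in chart coordinates. -/

namespace Vale.Agent.P211.H626

open Vale.Agent.P211 Vale.Agent.P211.S4 Vale.Agent.P211.H237
open Vale.Agent.P211.H56 (Sm3)

/-! ### terms -/

/-- a term `c f^i ξ^j Θ^{-e}` -/
structure Te where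
  c : ℤ
  i : ℕ
  j : ℕ
  e : ℕ

/-- the function with derivatives -/
noncomputable def Te.fn (t : Te) : Fn where
  f N M := t.c * ((2 - N - M) ^ t.i * (N - M) ^ t.j * (Tht N M)⁻¹ ^ t.e)
  fN N M := t.c * (-(t.i * (2 - N - M) ^ (t.i - 1)) * (N - M) ^ t.j * (Tht N M)⁻¹ ^ t.e +
    (2 - N - M) ^ t.i * (t.j * (N - M) ^ (t.j - 1)) * (Tht N M)⁻¹ ^ t.e -
    t.e * ((2 - N - M) ^ t.i * (N - M) ^ t.j * (Tht N M)⁻¹ ^ (t.e + 1) * (-6 + 2 * (N - M))))
  fM N M := t.c * (-(t.i * (2 - N - M) ^ (t.i - 1)) * (N - M) ^ t.j * (Tht N M)⁻¹ ^ t.e -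
    (2 - N - M) ^ t.i * (t.j * (N - M) ^ (t.j - 1)) * (Tht N M)⁻¹ ^ t.e -
    t.e * ((2 - N - M) ^ t.i * (N - M) ^ t.j * (Tht N M)⁻¹ ^ (t.e + 1) * (-6 - 2 * (N - M))))

/-- a list of terms -/
noncomputable def fnL : List Te → Fn
  | [] => Fn.const 0
  | t :: l => t.fn.add (fnL l)

variable {M 𝒪 V : Type*} [TopologicalSpace M] [CommRing 𝒪] [Algebra ℝ 𝒪]
    [AddCommGroup V] [Module 𝒪 V] {G : Geo2 M 𝒪 V}

theorem sm_f : Sm3 G Om (fun v => 2 - v.1 - v.2.1) (fun _ => -1) (fun _ => -1) (fun _ => 0) := by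
  have h := (((Sm3.const (G := G) (Ω := Om) 2).sub Sm3.v1).sub Sm3.v2)
  refine h.congr (fun _ _ => rfl) (fun _ _ => ?_) (fun _ _ => ?_) (fun _ _ => ?_) <;> norm_num

theorem Te.sm (t : Te) : t.fn.Sm G := by
  have h1 := (sm_f (G := G)).pow t.i
  have h2 : Sm3 G Om (fun v => (v.1 - v.2.1) ^ t.j)
    (fun v => t.j * (v.1 - v.2.1) ^ (t.j - 1) * 1) (fun v => t.j * (v.1 - v.2.1) ^ (t.j - 1) * -1)
    (fun v => t.j * (v.1 - v.2.1) ^ (t.j - 1) * 0) := Sm3.pow (Fn.Sm.xi (G := G)) t.j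
  have h3 : Sm3 G Om (fun v => (Tht v.1 v.2.1)⁻¹ ^ t.e)
    (fun v => t.e * (Tht v.1 v.2.1)⁻¹ ^ (t.e - 1) *
      (-((Tht v.1 v.2.1)⁻¹ ^ 2) * (-6 + 2 * (v.1 - v.2.1))))
    (fun v => t.e * (Tht v.1 v.2.1)⁻¹ ^ (t.e - 1) *
      (-((Tht v.1 v.2.1)⁻¹ ^ 2) * (-6 - 2 * (v.1 - v.2.1))))
    (fun v => t.e * (Tht v.1 v.2.1)⁻¹ ^ (t.e - 1) * 0) := Sm3.pow (Fn.Sm.thI (G := G)) t.e
  have key : ∀ a : ℝ, (t.e : ℝ) * a ^ (t.e - 1) * -(a ^ 2) = -(t.e * a ^ (t.e + 1)) := by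
    intro a
    rcases Nat.eq_zero_or_pos t.e with h | h
    · rw [h]; simp
    · obtain ⟨k, hk⟩ : ∃ k, t.e = k + 1 := ⟨t.e - 1, by omega⟩
      rw [hk]; simp only [Nat.add_sub_cancel]; ring
  refine ((h1.mul (h2.mul h3)).smul (t.c : ℝ)).congr (fun v _ => ?_) (fun v _ => ?_)
    (fun v _ => ?_) (fun v _ => ?_)
  · show _ = (t.c : ℝ) * ((2 - v.1 - v.2.1) ^ t.i * ((v.1 - v.2.1) ^ t.j *
      (Tht v.1 v.2.1)⁻¹ ^ t.e))
    unfold Te.fn
    simp only
    ring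
  · have k := key (Tht v.1 v.2.1)⁻¹
    unfold Te.fn
    simp only
    linear_combination (-(t.c : ℝ) * ((2 - v.1 - v.2.1) ^ t.i * (v.1 - v.2.1) ^ t.j *
      (-6 + 2 * (v.1 - v.2.1)))) * k
  · have k := key (Tht v.1 v.2.1)⁻¹
    unfold Te.fn
    simp only
    linear_combination (-(t.c : ℝ) * ((2 - v.1 - v.2.1) ^ t.i * (v.1 - v.2.1) ^ t.j *
      (-6 - 2 * (v.1 - v.2.1)))) * k
  · simp

theorem fnL_sm : ∀ l : List Te, (fnL l).Sm G
  | [] => Fn.Sm.const 0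
  | t :: l => t.sm.add (fnL_sm l)

/-- data of a certificate; all coefficients are divided by `D` -/
structure CD where
  A : List Te
  B0 : List Te
  B1 : List Te
  C0 : List Te
  C1 : List Te
  D : ℕ

/-- the certificate -/
noncomputable def CD.cert (d : CD) : Cert where
  A := (fnL d.A).smul (1 / d.D)
  B0 := (fnL d.B0).smul (1 / d.D)
  B1 := (fnL d.B1).smul (1 / d.D)
  C0 := (fnL d.C0).smul (1 / d.D)
  C1 := (fnL d.C1).smul (1 / d.D)

theorem CD.sm (d : CD) : d.cert.Sm G where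
  A := (fnL_sm _).smul _
  B0 := (fnL_sm _).smul _
  B1 := (fnL_sm _).smul _
  C0 := (fnL_sm _).smul _
  C1 := (fnL_sm _).smul _

/-! ### rational polynomial expressions -/

/-- `e / 12^k` -/
structure RE where
  e : PE
  k : ℕ

namespace RE

noncomputable def val (x y : ℝ) (r : RE) : ℝ := r.e.ev x y / 12 ^ r.k

/-- a constant -/
def c (z : ℤ) : RE := ⟨.c z, 0⟩
/-- division by 12 -/
def d12 (r : RE) : RE := ⟨r.e, r.k + 1⟩
def x : RE := ⟨.x, 0⟩
def y : RE := ⟨.y, 0⟩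

instance : Mul RE := ⟨fun a b => ⟨.mul a.e b.e, a.k + b.k⟩⟩
instance : Add RE := ⟨fun a b => ⟨.add (.mul (.c (12 ^ (b.k - a.k))) a.e)
  (.mul (.c (12 ^ (a.k - b.k))) b.e), max a.k b.k⟩⟩
instance : NatPow RE := ⟨fun a n => ⟨.pow a.e n, n * a.k⟩⟩

variable (X Y : ℝ)

theorem val_c (z : ℤ) : (c z).val X Y = z := by simp [val, c, PE.ev]
theorem val_d12 (r : RE) : r.d12.val X Y = r.val X Y / 12 := by
  unfold val d12
  simp only [pow_succ]
  field_simp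
theorem val_x : x.val X Y = X := by simp [val, x, PE.ev]
theorem val_y : y.val X Y = Y := by simp [val, y, PE.ev]
theorem val_mul (a b : RE) : (a * b).val X Y = a.val X Y * b.val X Y := by
  show (a.e.ev X Y * b.e.ev X Y) / 12 ^ (a.k + b.k) = _
  unfold val
  rw [pow_add]
  field_simp
theorem val_pow (a : RE) (n : ℕ) : (a ^ n).val X Y = a.val X Y ^ n := by
  show (a.e.ev X Y ^ n) / 12 ^ (n * a.k) = _
  unfold val
  rw [div_pow, ← pow_mul, Nat.mul_comm]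
theorem val_add (a b : RE) : (a + b).val X Y = a.val X Y + b.val X Y := by
  show ((((12 ^ (b.k - a.k) : ℤ)) : ℝ) * a.e.ev X Y + (((12 ^ (a.k - b.k) : ℤ)) : ℝ) * b.e.ev X Y) /
    12 ^ (max a.k b.k) = _
  unfold val
  push_cast
  rcases le_total a.k b.k with h | h
  · obtain ⟨m, hm⟩ := Nat.exists_eq_add_of_le h
    rw [max_eq_right h, Nat.sub_eq_zero_of_le h, hm, Nat.add_sub_cancel_left, pow_add]
    field_simp
  · obtain ⟨m, hm⟩ := Nat.exists_eq_add_of_le h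
    rw [max_eq_left h, Nat.sub_eq_zero_of_le h, hm, Nat.add_sub_cancel_left, pow_add]
    field_simp

end RE

/-- the zero test for rational expressions -/
noncomputable def zt (z : ZP) (T : Tab) (i : ℕ) (m : PE) (r : RE) : Bool :=
  ztest z T i (.mul (.c (12 ^ r.k)) m) r.e

theorem zt_sound {z : ZP} {T : Tab} {i : ℕ} {m : PE} {r : RE} (h : zt z T i m r = true)
    (X Y : ℝ) : m.ev X Y * T.vals X Y i = r.val X Y := by
  have h1 := ztest_sound h X Y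
  have h2 : (12 : ℝ) ^ r.k * m.ev X Y * T.vals X Y i = r.e.ev X Y := by
    rw [← h1]
    show _ = (((12 ^ r.k : ℤ) : ℝ) * m.ev X Y) * T.vals X Y i
    push_cast
    ring
  unfold RE.val
  rw [← h2]
  field_simp

/-! ### charts -/

/-- the expressions of a chart -/
structure Ch where
  n : RE
  m : RE
  f : RE
  xi : RE
  th : RE

/-- the chart describes the point `(N, M)` at the parameters `(X, Y)` -/
structure Ch.At (h : Ch) (X Y N M : ℝ) : Prop where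
  n : h.n.val X Y = N
  m : h.m.val X Y = M
  f : h.f.val X Y = 2 - N - M
  xi : h.xi.val X Y = N - M
  th : h.th.val X Y = Tht N M

/-- chart in polar coordinates: `N = x (1 + y)`, `M = x (1 - y)` -/
def chP : Ch where
  n := RE.x + RE.x * RE.y
  m := RE.x + RE.c (-1) * (RE.x * RE.y)
  f := RE.c 2 + RE.c (-2) * RE.x
  xi := RE.c 2 * (RE.x * RE.y)
  th := RE.c 12 + (RE.c (-12) * RE.x + RE.c 4 * (RE.x * RE.y) ^ 2)

theorem chP_at {X Y N M : ℝ} (hN : N = X + X * Y) (hM : M = X - X * Y) : chP.At X Y N M := by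
  subst hN hM
  constructor <;> unfold chP <;> simp only [RE.val_add, RE.val_mul, RE.val_c, RE.val_x, RE.val_y,
    RE.val_pow] <;> (try unfold Tht) <;> push_cast <;> ring

/-- chart at the corner: `Θ = x²`, `ξ = x y` -/
def chC : Ch where
  n := RE.c 1 + ((RE.c (-1) * (RE.x ^ 2 * (RE.c 1 + RE.c (-1) * RE.y ^ 2)) +
    RE.c 6 * (RE.x * RE.y)).d12)
  m := RE.c 1 + ((RE.c (-1) * (RE.x ^ 2 * (RE.c 1 + RE.c (-1) * RE.y ^ 2)) +
    RE.c (-6) * (RE.x * RE.y)).d12)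
  f := (RE.c 2 * (RE.x ^ 2 * (RE.c 1 + RE.c (-1) * RE.y ^ 2))).d12
  xi := RE.x * RE.y
  th := RE.x ^ 2

theorem chC_at {X Y N M : ℝ} (hN : N = 1 - X ^ 2 * (1 - Y ^ 2) / 12 + X * Y / 2)
    (hM : M = 1 - X ^ 2 * (1 - Y ^ 2) / 12 - X * Y / 2) : chC.At X Y N M := by
  subst hN hM
  constructor <;> unfold chC <;> simp only [RE.val_add, RE.val_mul, RE.val_c, RE.val_x, RE.val_y,
    RE.val_pow, RE.val_d12] <;> (try unfold Tht) <;> push_cast <;> ring

/-! ### numerators -/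

/-- the numerator of a term for the power `K` of `Θ` -/
def Te.hV (h : Ch) (K : ℕ) (t : Te) : RE := RE.c t.c * (h.f ^ t.i * (h.xi ^ t.j * h.th ^ (K - t.e)))
/-- the numerator of the derivative in `N` for the power `K + 1` -/
def Te.hN (h : Ch) (K : ℕ) (t : Te) : RE :=
  RE.c (-(t.c * t.i)) * (h.f ^ (t.i - 1) * (h.xi ^ t.j * h.th ^ (K + 1 - t.e))) +
  (RE.c (t.c * t.j) * (h.f ^ t.i * (h.xi ^ (t.j - 1) * h.th ^ (K + 1 - t.e))) +
  RE.c (-(t.c * t.e)) * ((h.f ^ t.i * (h.xi ^ t.j * h.th ^ (K - t.e))) *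
    (RE.c (-6) + RE.c 2 * h.xi)))
def Te.hM (h : Ch) (K : ℕ) (t : Te) : RE :=
  RE.c (-(t.c * t.i)) * (h.f ^ (t.i - 1) * (h.xi ^ t.j * h.th ^ (K + 1 - t.e))) +
  (RE.c (-(t.c * t.j)) * (h.f ^ t.i * (h.xi ^ (t.j - 1) * h.th ^ (K + 1 - t.e))) +
  RE.c (-(t.c * t.e)) * ((h.f ^ t.i * (h.xi ^ t.j * h.th ^ (K - t.e))) *
    (RE.c (-6) + RE.c (-2) * h.xi)))

/-- sums over lists -/
def sumR (F : Te → RE) : List Te → RE
  | [] => RE.c 0
  | t :: l => F t + sumR F l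

/-- all powers of `Θ` are at most `K` -/
def okE (K : ℕ) : List Te → Bool
  | [] => true
  | t :: l => Nat.ble t.e K && okE K l

theorem pow_aux {T : ℝ} (hT : T ≠ 0) {K e : ℕ} (he : e ≤ K) : T ^ K * T⁻¹ ^ e = T ^ (K - e) := by
  obtain ⟨m, rfl⟩ := Nat.exists_eq_add_of_le he
  rw [Nat.add_sub_cancel_left, pow_add, inv_pow]
  field_simp

theorem Te.val_hV {h : Ch} {X Y N M : ℝ} (hc : h.At X Y N M) (hT : Tht N M ≠ 0) {K : ℕ} {t : Te}
    (he : t.e ≤ K) : (t.hV h K).val X Y = Tht N M ^ K * t.fn.f N M := by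
  unfold Te.hV Te.fn
  simp only [RE.val_mul, RE.val_c, RE.val_pow, hc.f, hc.xi, hc.th]
  rw [← pow_aux hT he]
  ring

theorem Te.val_hN {h : Ch} {X Y N M : ℝ} (hc : h.At X Y N M) (hT : Tht N M ≠ 0) {K : ℕ} {t : Te}
    (he : t.e ≤ K) : (t.hN h K).val X Y = Tht N M ^ (K + 1) * t.fn.fN N M := by
  unfold Te.hN Te.fn
  simp only [RE.val_add, RE.val_mul, RE.val_c, RE.val_pow, hc.f, hc.xi, hc.th]
  have h1 := pow_aux hT (show t.e ≤ K + 1 by omega)
  have h2 := pow_aux hT (show t.e + 1 ≤ K + 1 by omega)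
  rw [Nat.add_sub_add_right] at h2
  rw [← h1, ← h2]
  push_cast
  ring

theorem Te.val_hM {h : Ch} {X Y N M : ℝ} (hc : h.At X Y N M) (hT : Tht N M ≠ 0) {K : ℕ} {t : Te}
    (he : t.e ≤ K) : (t.hM h K).val X Y = Tht N M ^ (K + 1) * t.fn.fM N M := by
  unfold Te.hM Te.fn
  simp only [RE.val_add, RE.val_mul, RE.val_c, RE.val_pow, hc.f, hc.xi, hc.th]
  have h1 := pow_aux hT (show t.e ≤ K + 1 by omega)
  have h2 := pow_aux hT (show t.e + 1 ≤ K + 1 by omega)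
  rw [Nat.add_sub_add_right] at h2
  rw [← h1, ← h2]
  push_cast
  ring

theorem val_sumV {h : Ch} {X Y N M : ℝ} (hc : h.At X Y N M) (hT : Tht N M ≠ 0) {K : ℕ} :
    ∀ l : List Te, okE K l = true → (sumR (Te.hV h K) l).val X Y = Tht N M ^ K * (fnL l).f N M
  | [], _ => by simp [sumR, RE.val_c, fnL, Fn.const]
  | t :: l, h' => by
    have h2 : (Nat.ble t.e K && okE K l) = true := h'
    rw [Bool.and_eq_true, Nat.ble_eq] at h2
    show (t.hV h K + sumR _ l).val X Y = Tht N M ^ K * (t.fn.f N M + (fnL l).f N M)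
    rw [RE.val_add, Te.val_hV hc hT h2.1, val_sumV hc hT l h2.2, mul_add]

theorem val_sumN {h : Ch} {X Y N M : ℝ} (hc : h.At X Y N M) (hT : Tht N M ≠ 0) {K : ℕ} :
    ∀ l : List Te, okE K l = true →
      (sumR (Te.hN h K) l).val X Y = Tht N M ^ (K + 1) * (fnL l).fN N M
  | [], _ => by simp [sumR, RE.val_c, fnL, Fn.const]
  | t :: l, h' => by
    have h2 : (Nat.ble t.e K && okE K l) = true := h'
    rw [Bool.and_eq_true, Nat.ble_eq] at h2
    show (t.hN h K + sumR _ l).val X Y = Tht N M ^ (K + 1) * (t.fn.fN N M + (fnL l).fN N M)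
    rw [RE.val_add, Te.val_hN hc hT h2.1, val_sumN hc hT l h2.2, mul_add]

theorem val_sumM {h : Ch} {X Y N M : ℝ} (hc : h.At X Y N M) (hT : Tht N M ≠ 0) {K : ℕ} :
    ∀ l : List Te, okE K l = true →
      (sumR (Te.hM h K) l).val X Y = Tht N M ^ (K + 1) * (fnL l).fM N M
  | [], _ => by simp [sumR, RE.val_c, fnL, Fn.const]
  | t :: l, h' => by
    have h2 : (Nat.ble t.e K && okE K l) = true := h'
    rw [Bool.and_eq_true, Nat.ble_eq] at h2
    show (t.hM h K + sumR _ l).val X Y = Tht N M ^ (K + 1) * (t.fn.fM N M + (fnL l).fM N M)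
    rw [RE.val_add, Te.val_hM hc hT h2.1, val_sumM hc hT l h2.2, mul_add]

end Vale.Agent.P211.H626
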