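import Vale.Agent.P211.H237.Lz

/-! P211 (helper626): the values of a straight line program satisfy the equations of its lines. -/

namespace Vale.Agent.P211.H626

open Vale.Agent.P211.H237

/-- value of an expression for an assignment of the indices -/
def evF (w : ℕ → ℝ) : Ex → ℝ
  | .v i => w i
  | .c z => (z : ℝ)
  | .add a b => evF w a + evF w b
  | .mul a b => evF w a * evF w b

/-- all indices of an expression are below `k` -/
def exLt (k : ℕ) : Ex → Bool
  | .v i => Nat.blt i k
  | .c _ => true
  | .add a b => exLt k a && exLt k b
  | .mul a b => exLt k a && exLt k b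

/-- every line uses only earlier values -/
def wfP : ℕ → List Ex → Bool
  | _, [] => true
  | k, e :: l => exLt k e && wfP (k + 1) l

theorem ev_eq (env : List ℝ) (e : Ex) : e.ev env = evF (fun i => env.getD i 0) e := by
  induction e with
  | v i => rfl
  | c z => rfl
  | add a b iha ihb => simp only [Ex.ev, evF, iha, ihb]
  | mul a b iha ihb => simp only [Ex.ev, evF, iha, ihb]

theorem evF_congr {w w' : ℕ → ℝ} {k : ℕ} (h : ∀ i < k, w i = w' i) (e : Ex)
    (he : exLt k e = true) : evF w e = evF w' e := by
  induction e with
  | v i => exact h i (Nat.blt_eq.mp he)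
  | c z => rfl
  | add a b iha ihb =>
    have h' : (exLt k a && exLt k b) = true := he
    rw [Bool.and_eq_true] at h'
    simp only [evF, iha h'.1, ihb h'.2]
  | mul a b iha ihb =>
    have h' : (exLt k a && exLt k b) = true := he
    rw [Bool.and_eq_true] at h'
    simp only [evF, iha h'.1, ihb h'.2]

theorem run_getD_lt (prog : List Ex) : ∀ (env : List ℝ) (i : ℕ), i < env.length →
    (run prog env).getD i 0 = env.getD i 0 := by
  induction prog with
  | nil => intro env i _; rfl
  | cons e prog ih =>
    intro env i hi
    show (run prog (env ++ [e.ev env])).getD i 0 = _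
    rw [ih _ i (by rw [List.length_append]; exact Nat.lt_add_right _ hi),
      List.getD_append _ _ _ _ hi]

theorem run_step (prog : List Ex) : ∀ (env : List ℝ), wfP env.length prog = true →
    ∀ j < prog.length, (run prog env).getD (env.length + j) 0 =
      evF (fun i => (run prog env).getD i 0) (prog.getD j (.c 0)) := by
  induction prog with
  | nil => intro env _ j hj; exact absurd hj (Nat.not_lt_zero _)
  | cons e prog ih =>
    intro env hwf j hj
    have h' : (exLt env.length e && wfP (env.length + 1) prog) = true := hwf
    rw [Bool.and_eq_true] at h'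
    have hl : (env ++ [e.ev env]).length = env.length + 1 := by simp
    rcases j with _ | j
    · show (run prog (env ++ [e.ev env])).getD env.length 0 =
        evF (fun i => (run prog (env ++ [e.ev env])).getD i 0) e
      rw [run_getD_lt prog _ env.length (by rw [hl]; exact Nat.lt_succ_self _),
        List.getD_append_right _ _ _ _ le_rfl, Nat.sub_self]
      show e.ev env = _
      refine (ev_eq env e).trans (evF_congr (fun i hi => ?_) e h'.1)
      rw [run_getD_lt prog _ i (by rw [hl]; exact Nat.lt_succ_of_lt hi),
        List.getD_append _ _ _ _ hi]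
    · have h2 := ih (env ++ [e.ev env]) (by rw [hl]; exact h'.2) j (Nat.lt_of_succ_lt_succ hj)
      rw [hl] at h2
      have e1 : env.length + (j + 1) = env.length + 1 + j := by omega
      rw [e1]
      exact h2

/-- **the equations of the lines** -/
theorem valsAt_step {F : Fam} (hwf : wfP 2 F.prog = true) (x y : ℝ) (j : ℕ)
    (hj : j < F.prog.length) :
    valsAt F x y (j + 2) = evF (valsAt F x y) (F.prog.getD j (.c 0)) := by
  have h := run_step F.prog [x, y] hwf j hj
  rw [Nat.add_comm j 2]
  exact h

theorem valsAt_zero (F : Fam) (x y : ℝ) : valsAt F x y 0 = x :=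
  run_getD_lt F.prog [x, y] 0 (by simp)

theorem valsAt_one (F : Fam) (x y : ℝ) : valsAt F x y 1 = y :=
  run_getD_lt F.prog [x, y] 1 (by simp)

end Vale.Agent.P211.H626
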