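import Vale.Agent.P211.H626.Good7

set_option linter.all false

/-! P211 (helper626): the tables of the charts I and II. -/

namespace Vale.Agent.P211.H626

open Vale.Agent.P211 Vale.Agent.P211.S4 Vale.Agent.P211.H237

/-- zero test with rational multiplier -/
noncomputable def zt2 (z : ZP) (T : Tab) (i : ℕ) (m r : RE) : Bool :=
  ztest z T i (.mul (.c (12 ^ r.k)) m.e) (.mul (.c (12 ^ m.k)) r.e)

theorem zt2_sound {z : ZP} {T : Tab} {i : ℕ} {m r : RE} (h : zt2 z T i m r = true)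
    (X Y : ℝ) : m.val X Y * T.vals X Y i = r.val X Y := by
  have h1 := ztest_sound h X Y
  have h2 : (12 : ℝ) ^ r.k * m.e.ev X Y * T.vals X Y i = 12 ^ m.k * r.e.ev X Y := by
    have h3 : (((12 ^ r.k : ℤ) : ℝ) * m.e.ev X Y) * T.vals X Y i =
      ((12 ^ m.k : ℤ) : ℝ) * r.e.ev X Y := h1
    push_cast at h3
    exact h3
  unfold RE.val
  rw [div_mul_eq_mul_div, div_eq_div_iff (by positivity) (by positivity)]
  linarith

/-- chart I: `N = x y`, `M = 2 x (1 - y)` -/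
def chR : Ch where
  n := RE.x * RE.y
  m := RE.c 2 * RE.x + RE.c (-2) * (RE.x * RE.y)
  f := RE.c 2 + (RE.c (-2) * RE.x + RE.x * RE.y)
  xi := RE.c 3 * (RE.x * RE.y) + RE.c (-2) * RE.x
  th := RE.c 6 * (RE.c 2 + (RE.c (-2) * RE.x + RE.x * RE.y)) +
    (RE.c 3 * (RE.x * RE.y) + RE.c (-2) * RE.x) ^ 2

theorem chR_at {X Y N M : ℝ} (hN : N = X * Y) (hM : M = 2 * X - 2 * (X * Y)) :
    chR.At X Y N M := by
  subst hN hM
  constructor <;> unfold chR <;> simp only [RE.val_add, RE.val_mul, RE.val_c, RE.val_x, RE.val_y,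
    RE.val_pow] <;> (try unfold Tht) <;> push_cast <;> ring

/-- the bound of `p` -/
def En.cE (s : En) : RE := RE.c 120 * s.h.f + RE.c 8 * s.h.xi ^ 2

/-- the zero tests of chart I -/
noncomputable def okI (s : En) (z : ZP) (T : Tab) (num den : ℤ) : Bool :=
  (zt2 z T 0 (RE.c den * s.h.th ^ 2)
    (RE.c (num * 1400) * s.uu) &&
  (zt2 z T 1 (RE.c den * s.h.th)
    (RE.c (num * 700) * s.uh) &&
  (zt2 z T 2 (RE.c den * s.h.th)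
    (RE.c (num * 700) * s.ug) &&
  (zt2 z T 3 (RE.c den)
    (RE.c (num * 200) * s.hh0) &&
  (zt2 z T 4 (RE.c den)
    (RE.c (num * 200) * s.hh1) &&
  (zt2 z T 5 (RE.c den)
    (RE.c (num * 100) * s.hg0) &&
  (zt2 z T 6 (RE.c den)
    (RE.c (num * 100) * s.hg1) &&
  (zt2 z T 7 (RE.c den)
    (RE.c (num * 100) * s.hz) &&
  (zt2 z T 8 (RE.c den)
    (RE.c num * (RE.c 200 * s.gg0 + s.h.th * s.z10)) &&
  (zt2 z T 9 (RE.c den)
    (RE.c num * (RE.c 200 * s.gg1 + s.h.th * s.z20)) &&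
  (zt2 z T 10 (RE.c den)
    (RE.c (num * 100) * s.gz) &&
  (zt2 z T 11 (RE.c den)
    (RE.c num * (RE.c 200 * s.gz + s.h.th * s.z11)) &&
  (zt2 z T 12 (RE.c den)
    (RE.c num * (s.h.th * s.z00)) &&
  (zt2 z T 13 (RE.c den)
    (RE.c num * (s.h.th * s.z01)) &&
  (zt2 z T 14 (RE.c den)
    (RE.c num * (s.h.th * s.z10)) &&
  (zt2 z T 15 (RE.c den)
    (RE.c num * (s.h.th * s.z11)) &&
  (zt2 z T 16 (RE.c den)
    (RE.c num * (s.h.th * s.z20)) &&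
  (zt2 z T 17 (RE.c 1)
    (RE.c 1) &&
  (zt2 z T 18 (RE.c 1)
    (RE.c (-1)) &&
  (zt2 z T 19 (RE.c 1)
    ((RE.c 2 + RE.c (-1) * s.h.m) ^ 3 + RE.c (-3) * (s.h.n ^ 2 * (RE.c 2 + RE.c (-1) * s.h.m))) &&
  (zt2 z T 20 (RE.c 1)
    (RE.c 2 * s.h.n ^ 3) &&
  (zt2 z T 21 (RE.c 1)
    (RE.c 884 + RE.c 99 * s.h.n ^ 2) &&
  (zt2 z T 22 (RE.c 1)
    (RE.c (-22)) &&
  (zt2 z T 23 (RE.c 1)
    (RE.c (-88) * s.h.n ^ 3) &&
  (zt2 z T 99 (RE.c 1)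
    (RE.c 0) &&
  true)))))))))))))))))))))))))

/-- the zero tests of chart II -/
noncomputable def okII (s : En) (z : ZP) (T : Tab) (num den : ℤ) : Bool :=
  (zt2 z T 0 (RE.c den * s.h.th ^ 2)
    (RE.c (num * 1400) * ((RE.c 2 * RE.y ^ 3) * s.uu)) &&
  (zt2 z T 1 (RE.c den * s.h.th)
    (RE.c (num * 700) * (((RE.c 2 * RE.y ^ 3) * s.cE) * s.uh)) &&
  (zt2 z T 2 (RE.c den * s.h.th)
    (RE.c (num * 700) * (((RE.c 2 * RE.y ^ 3) * s.cE) * s.ug)) &&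
  (zt2 z T 3 (RE.c den)
    (RE.c (num * 200) * (((RE.c 2 * RE.y ^ 3) * s.cE) * s.hh0)) &&
  (zt2 z T 4 (RE.c den)
    (RE.c (num * 200) * (((RE.c 2 * RE.y ^ 3) * (s.cE * s.cE)) * s.hh1)) &&
  (zt2 z T 5 (RE.c den)
    (RE.c (num * 100) * (((RE.c 2 * RE.y ^ 3) * s.cE) * (s.hg0 + s.hz))) &&
  (zt2 z T 6 (RE.c den)
    (RE.c (num * 100) * (((RE.c 2 * RE.y ^ 3) * (s.cE * s.cE)) * s.hg1)) &&
  (zt2 z T 7 (RE.c den)
    (RE.c (num * (-100)) * ((((RE.c 1 + RE.c (-1) * RE.y) ^ 2 * (RE.c 1 + RE.c 2 * RE.y)) * s.cE) * s.hz)) &&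
  (zt2 z T 8 (RE.c den)
    (RE.c (num * 100) * ((RE.c 1 + RE.c (-1) * RE.y) * (((RE.c 2 * RE.y ^ 3) * s.cE) * s.hz))) &&
  (zt2 z T 9 (RE.c den)
    (RE.c num * (((RE.c 2 * RE.y ^ 3) * s.cE) * (RE.c 200 * (s.gg0 + s.gz) + s.h.th * (s.z10 + s.z11)))) &&
  (zt2 z T 10 (RE.c den)
    (RE.c num * (((RE.c 2 * RE.y ^ 3) * (s.cE * s.cE)) * (RE.c 200 * s.gg1 + s.h.th * s.z20))) &&
  (zt2 z T 11 (RE.c den)
    (RE.c (num * (-1)) * ((((RE.c 1 + RE.c (-1) * RE.y) ^ 2 * (RE.c 1 + RE.c 2 * RE.y)) * s.cE) * (RE.c 200 * s.gz + s.h.th * s.z11))) &&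
  (zt2 z T 12 (RE.c den)
    (RE.c (num * 100) * ((RE.c 1 + RE.c (-1) * RE.y) * (((RE.c 2 * RE.y ^ 3) * s.cE) * s.gz))) &&
  (zt2 z T 13 (RE.c den)
    (RE.c num * ((RE.c 2 * RE.y ^ 3) * (s.h.th * (s.z00 + s.z01)))) &&
  (zt2 z T 14 (RE.c den)
    (RE.c (num * (-1)) * (((RE.c 1 + RE.c (-1) * RE.y) ^ 2 * (RE.c 1 + RE.c 2 * RE.y)) * (s.h.th * s.z01))) &&
  (zt2 z T 15 (RE.c den)
    (RE.c num * (((RE.c 2 * RE.y ^ 3) * s.cE) * (s.h.th * (s.z10 + s.z11)))) &&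
  (zt2 z T 16 (RE.c den)
    (RE.c (num * (-1)) * ((((RE.c 1 + RE.c (-1) * RE.y) ^ 2 * (RE.c 1 + RE.c 2 * RE.y)) * s.cE) * (s.h.th * s.z11))) &&
  (zt2 z T 17 (RE.c den)
    (RE.c num * (((RE.c 2 * RE.y ^ 3) * (s.cE * s.cE)) * (s.h.th * s.z20))) &&
  (zt2 z T 18 (RE.c 1)
    (RE.c 4 * RE.y ^ 6) &&
  (zt2 z T 19 (RE.c 1)
    (RE.c 4 * ((RE.c 1 + RE.c 2 * RE.y) * RE.y ^ 3)) &&
  (zt2 z T 20 (RE.c 1)
    (RE.c (-1) * ((RE.c 1 + RE.c 2 * RE.y) ^ 2 * (RE.c 1 + RE.c (-1) * RE.y) ^ 2)) &&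
  (zt2 z T 21 (RE.c 1)
    (RE.c 4 * s.h.th + RE.c (-1)) &&
  (zt2 z T 22 (RE.c 1)
    ((RE.c 884 + RE.c 99 * s.h.n ^ 2) + RE.c (-88) * s.h.n ^ 3) &&
  (zt2 z T 23 (RE.c 1)
    (RE.c (-22) * s.cE) &&
  (zt2 z T 24 (RE.c 1)
    (RE.c 44 * (RE.x ^ 3 * ((RE.c 1 + RE.c (-1) * RE.y) ^ 2 * (RE.c 1 + RE.c 2 * RE.y)))) &&
  (zt2 z T 99 (RE.c 1)
    (RE.c 0) &&
  true))))))))))))))))))))))))))

section fold

variable {s : En} {X Y N M : ℝ}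

theorem f_hh0 (h : s.At X Y N M) : s.hh0.val X Y = s.GF N M * hh0 s N M := h.hh0
theorem f_hh1 (h : s.At X Y N M) : s.hh1.val X Y = s.GF N M * hh1 s N M := h.hh1
theorem f_gg0 (h : s.At X Y N M) : s.gg0.val X Y = s.GF N M * gg0 s N M := h.gg0
theorem f_gg1 (h : s.At X Y N M) : s.gg1.val X Y = s.GF N M * gg1 s N M := h.gg1
theorem f_hg0 (h : s.At X Y N M) : s.hg0.val X Y = s.GF N M * hg0 s N M := h.hg0
theorem f_hg1 (h : s.At X Y N M) : s.hg1.val X Y = s.GF N M * hg1 s N M := h.hg1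
theorem f_hz (h : s.At X Y N M) : s.hz.val X Y = s.GF N M * hz s N M := h.hz
theorem f_gz (h : s.At X Y N M) : s.gz.val X Y = s.GF N M * gz s N M := h.gz
theorem f_z00 (h : s.At X Y N M) : s.z00.val X Y = s.HF N M * z00 s N M := h.z00
theorem f_z01 (h : s.At X Y N M) : s.z01.val X Y = s.HF N M * z01 s N M := h.z01
theorem f_z10 (h : s.At X Y N M) : s.z10.val X Y = s.HF N M * z10 s N M := h.z10
theorem f_z11 (h : s.At X Y N M) : s.z11.val X Y = s.HF N M * z11 s N M := h.z11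
theorem f_z20 (h : s.At X Y N M) : s.z20.val X Y = s.HF N M * z20 s N M := h.z20

theorem f_cE (h : s.At X Y N M) :
    s.cE.val X Y = 120 * (2 - N - M) + 8 * (N - M) ^ 2 := by
  unfold En.cE
  simp only [RE.val_mul, RE.val_add, RE.val_c, RE.val_pow, h.at'.f, h.at'.xi]
  push_cast
  ring

end fold

theorem eqdiv {w v num den : ℝ} (hn : 0 < num) (hd : 0 < den) (h : den * w = num * v) :
    w = v / (den / num) := by
  rw [eq_div_iff (by positivity)]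
  field_simp
  linarith

theorem eqdivm {w v m num den : ℝ} (hn : 0 < num) (hd : 0 < den) (hm : 0 < m)
    (h : den * m * w = num * v) : w = v / (den / num * m) := by
  rw [eq_div_iff (by positivity)]
  field_simp
  linarith

theorem eqI_of_ok {s : En} {z : ZP} {T : Tab} {num den : ℤ} (hn : 0 < num) (hd : 0 < den)
    (h : okI s z T num den = true) {X Y N M : ℝ} (hs : s.At X Y N M) (hT : 0 < Tht N M) :
    EqI s (fun i => T.vals X Y i) N M (den / num) ∧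
      T.vals X Y 19 = (2 - M) ^ 3 - 3 * (N ^ 2 * (2 - M)) ∧ T.vals X Y 20 = 2 * N ^ 3 ∧
      T.vals X Y 21 = 884 + 99 * N ^ 2 ∧ T.vals X Y 22 = -22 ∧ T.vals X Y 23 = -88 * N ^ 3 ∧
      T.vals X Y 99 = 0 := by
  unfold okI at h
  simp only [Bool.and_eq_true, and_true] at h
  obtain ⟨h0, h1, h2, h3, h4, h5, h6, h7, h8, h9, h10, h11, h12, h13, h14, h15, h16, h17, h18, h19, h20, h21, h22, h23, h99⟩ := h
  have hn' : (0 : ℝ) < num := by exact_mod_cast hn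
  have hd' : (0 : ℝ) < den := by exact_mod_cast hd
  have hGH : s.HF N M * Tht N M = 200 * s.GF N M := by unfold En.HF En.GF; rw [pow_succ]; ring
  have k0 := zt2_sound h0 X Y
  simp only [RE.val_mul, RE.val_add, RE.val_c, RE.val_pow, RE.val_x, RE.val_y, hs.at'.th, hs.at'.n,
    hs.at'.m, hs.at'.f, hs.at'.xi, hs.uu, hs.uh, hs.ug, f_hh0 hs, f_hh1 hs, f_hg0 hs, f_hg1 hs,
    f_hz hs, f_gg0 hs, f_gg1 hs, f_gz hs, f_z00 hs, f_z01 hs, f_z10 hs, f_z11 hs,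
    f_z20 hs] at k0
  push_cast at k0
  have k1 := zt2_sound h1 X Y
  simp only [RE.val_mul, RE.val_add, RE.val_c, RE.val_pow, RE.val_x, RE.val_y, hs.at'.th, hs.at'.n,
    hs.at'.m, hs.at'.f, hs.at'.xi, hs.uu, hs.uh, hs.ug, f_hh0 hs, f_hh1 hs, f_hg0 hs, f_hg1 hs,
    f_hz hs, f_gg0 hs, f_gg1 hs, f_gz hs, f_z00 hs, f_z01 hs, f_z10 hs, f_z11 hs,
    f_z20 hs] at k1
  push_cast at k1
  have k2 := zt2_sound h2 X Y
  simp only [RE.val_mul, RE.val_add, RE.val_c, RE.val_pow, RE.val_x, RE.val_y, hs.at'.th, hs.at'.n,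
    hs.at'.m, hs.at'.f, hs.at'.xi, hs.uu, hs.uh, hs.ug, f_hh0 hs, f_hh1 hs, f_hg0 hs, f_hg1 hs,
    f_hz hs, f_gg0 hs, f_gg1 hs, f_gz hs, f_z00 hs, f_z01 hs, f_z10 hs, f_z11 hs,
    f_z20 hs] at k2
  push_cast at k2
  have k3 := zt2_sound h3 X Y
  simp only [RE.val_mul, RE.val_add, RE.val_c, RE.val_pow, RE.val_x, RE.val_y, hs.at'.th, hs.at'.n,
    hs.at'.m, hs.at'.f, hs.at'.xi, hs.uu, hs.uh, hs.ug, f_hh0 hs, f_hh1 hs, f_hg0 hs, f_hg1 hs,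
    f_hz hs, f_gg0 hs, f_gg1 hs, f_gz hs, f_z00 hs, f_z01 hs, f_z10 hs, f_z11 hs,
    f_z20 hs] at k3
  push_cast at k3
  have k4 := zt2_sound h4 X Y
  simp only [RE.val_mul, RE.val_add, RE.val_c, RE.val_pow, RE.val_x, RE.val_y, hs.at'.th, hs.at'.n,
    hs.at'.m, hs.at'.f, hs.at'.xi, hs.uu, hs.uh, hs.ug, f_hh0 hs, f_hh1 hs, f_hg0 hs, f_hg1 hs,
    f_hz hs, f_gg0 hs, f_gg1 hs, f_gz hs, f_z00 hs, f_z01 hs, f_z10 hs, f_z11 hs,
    f_z20 hs] at k4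
  push_cast at k4
  have k5 := zt2_sound h5 X Y
  simp only [RE.val_mul, RE.val_add, RE.val_c, RE.val_pow, RE.val_x, RE.val_y, hs.at'.th, hs.at'.n,
    hs.at'.m, hs.at'.f, hs.at'.xi, hs.uu, hs.uh, hs.ug, f_hh0 hs, f_hh1 hs, f_hg0 hs, f_hg1 hs,
    f_hz hs, f_gg0 hs, f_gg1 hs, f_gz hs, f_z00 hs, f_z01 hs, f_z10 hs, f_z11 hs,
    f_z20 hs] at k5
  push_cast at k5
  have k6 := zt2_sound h6 X Y
  simp only [RE.val_mul, RE.val_add, RE.val_c, RE.val_pow, RE.val_x, RE.val_y, hs.at'.th, hs.at'.n,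
    hs.at'.m, hs.at'.f, hs.at'.xi, hs.uu, hs.uh, hs.ug, f_hh0 hs, f_hh1 hs, f_hg0 hs, f_hg1 hs,
    f_hz hs, f_gg0 hs, f_gg1 hs, f_gz hs, f_z00 hs, f_z01 hs, f_z10 hs, f_z11 hs,
    f_z20 hs] at k6
  push_cast at k6
  have k7 := zt2_sound h7 X Y
  simp only [RE.val_mul, RE.val_add, RE.val_c, RE.val_pow, RE.val_x, RE.val_y, hs.at'.th, hs.at'.n,
    hs.at'.m, hs.at'.f, hs.at'.xi, hs.uu, hs.uh, hs.ug, f_hh0 hs, f_hh1 hs, f_hg0 hs, f_hg1 hs,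
    f_hz hs, f_gg0 hs, f_gg1 hs, f_gz hs, f_z00 hs, f_z01 hs, f_z10 hs, f_z11 hs,
    f_z20 hs] at k7
  push_cast at k7
  have k8 := zt2_sound h8 X Y
  simp only [RE.val_mul, RE.val_add, RE.val_c, RE.val_pow, RE.val_x, RE.val_y, hs.at'.th, hs.at'.n,
    hs.at'.m, hs.at'.f, hs.at'.xi, hs.uu, hs.uh, hs.ug, f_hh0 hs, f_hh1 hs, f_hg0 hs, f_hg1 hs,
    f_hz hs, f_gg0 hs, f_gg1 hs, f_gz hs, f_z00 hs, f_z01 hs, f_z10 hs, f_z11 hs,
    f_z20 hs] at k8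
  push_cast at k8
  have k9 := zt2_sound h9 X Y
  simp only [RE.val_mul, RE.val_add, RE.val_c, RE.val_pow, RE.val_x, RE.val_y, hs.at'.th, hs.at'.n,
    hs.at'.m, hs.at'.f, hs.at'.xi, hs.uu, hs.uh, hs.ug, f_hh0 hs, f_hh1 hs, f_hg0 hs, f_hg1 hs,
    f_hz hs, f_gg0 hs, f_gg1 hs, f_gz hs, f_z00 hs, f_z01 hs, f_z10 hs, f_z11 hs,
    f_z20 hs] at k9
  push_cast at k9
  have k10 := zt2_sound h10 X Y
  simp only [RE.val_mul, RE.val_add, RE.val_c, RE.val_pow, RE.val_x, RE.val_y, hs.at'.th, hs.at'.n,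
    hs.at'.m, hs.at'.f, hs.at'.xi, hs.uu, hs.uh, hs.ug, f_hh0 hs, f_hh1 hs, f_hg0 hs, f_hg1 hs,
    f_hz hs, f_gg0 hs, f_gg1 hs, f_gz hs, f_z00 hs, f_z01 hs, f_z10 hs, f_z11 hs,
    f_z20 hs] at k10
  push_cast at k10
  have k11 := zt2_sound h11 X Y
  simp only [RE.val_mul, RE.val_add, RE.val_c, RE.val_pow, RE.val_x, RE.val_y, hs.at'.th, hs.at'.n,
    hs.at'.m, hs.at'.f, hs.at'.xi, hs.uu, hs.uh, hs.ug, f_hh0 hs, f_hh1 hs, f_hg0 hs, f_hg1 hs,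
    f_hz hs, f_gg0 hs, f_gg1 hs, f_gz hs, f_z00 hs, f_z01 hs, f_z10 hs, f_z11 hs,
    f_z20 hs] at k11
  push_cast at k11
  have k12 := zt2_sound h12 X Y
  simp only [RE.val_mul, RE.val_add, RE.val_c, RE.val_pow, RE.val_x, RE.val_y, hs.at'.th, hs.at'.n,
    hs.at'.m, hs.at'.f, hs.at'.xi, hs.uu, hs.uh, hs.ug, f_hh0 hs, f_hh1 hs, f_hg0 hs, f_hg1 hs,
    f_hz hs, f_gg0 hs, f_gg1 hs, f_gz hs, f_z00 hs, f_z01 hs, f_z10 hs, f_z11 hs,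
    f_z20 hs] at k12
  push_cast at k12
  have k13 := zt2_sound h13 X Y
  simp only [RE.val_mul, RE.val_add, RE.val_c, RE.val_pow, RE.val_x, RE.val_y, hs.at'.th, hs.at'.n,
    hs.at'.m, hs.at'.f, hs.at'.xi, hs.uu, hs.uh, hs.ug, f_hh0 hs, f_hh1 hs, f_hg0 hs, f_hg1 hs,
    f_hz hs, f_gg0 hs, f_gg1 hs, f_gz hs, f_z00 hs, f_z01 hs, f_z10 hs, f_z11 hs,
    f_z20 hs] at k13
  push_cast at k13
  have k14 := zt2_sound h14 X Y
  simp only [RE.val_mul, RE.val_add, RE.val_c, RE.val_pow, RE.val_x, RE.val_y, hs.at'.th, hs.at'.n,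
    hs.at'.m, hs.at'.f, hs.at'.xi, hs.uu, hs.uh, hs.ug, f_hh0 hs, f_hh1 hs, f_hg0 hs, f_hg1 hs,
    f_hz hs, f_gg0 hs, f_gg1 hs, f_gz hs, f_z00 hs, f_z01 hs, f_z10 hs, f_z11 hs,
    f_z20 hs] at k14
  push_cast at k14
  have k15 := zt2_sound h15 X Y
  simp only [RE.val_mul, RE.val_add, RE.val_c, RE.val_pow, RE.val_x, RE.val_y, hs.at'.th, hs.at'.n,
    hs.at'.m, hs.at'.f, hs.at'.xi, hs.uu, hs.uh, hs.ug, f_hh0 hs, f_hh1 hs, f_hg0 hs, f_hg1 hs,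
    f_hz hs, f_gg0 hs, f_gg1 hs, f_gz hs, f_z00 hs, f_z01 hs, f_z10 hs, f_z11 hs,
    f_z20 hs] at k15
  push_cast at k15
  have k16 := zt2_sound h16 X Y
  simp only [RE.val_mul, RE.val_add, RE.val_c, RE.val_pow, RE.val_x, RE.val_y, hs.at'.th, hs.at'.n,
    hs.at'.m, hs.at'.f, hs.at'.xi, hs.uu, hs.uh, hs.ug, f_hh0 hs, f_hh1 hs, f_hg0 hs, f_hg1 hs,
    f_hz hs, f_gg0 hs, f_gg1 hs, f_gz hs, f_z00 hs, f_z01 hs, f_z10 hs, f_z11 hs,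
    f_z20 hs] at k16
  push_cast at k16
  have k17 := zt2_sound h17 X Y
  simp only [RE.val_mul, RE.val_add, RE.val_c, RE.val_pow, RE.val_x, RE.val_y, hs.at'.th, hs.at'.n,
    hs.at'.m, hs.at'.f, hs.at'.xi, hs.uu, hs.uh, hs.ug, f_hh0 hs, f_hh1 hs, f_hg0 hs, f_hg1 hs,
    f_hz hs, f_gg0 hs, f_gg1 hs, f_gz hs, f_z00 hs, f_z01 hs, f_z10 hs, f_z11 hs,
    f_z20 hs] at k17
  push_cast at k17
  have k18 := zt2_sound h18 X Y
  simp only [RE.val_mul, RE.val_add, RE.val_c, RE.val_pow, RE.val_x, RE.val_y, hs.at'.th, hs.at'.n,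
    hs.at'.m, hs.at'.f, hs.at'.xi, hs.uu, hs.uh, hs.ug, f_hh0 hs, f_hh1 hs, f_hg0 hs, f_hg1 hs,
    f_hz hs, f_gg0 hs, f_gg1 hs, f_gz hs, f_z00 hs, f_z01 hs, f_z10 hs, f_z11 hs,
    f_z20 hs] at k18
  push_cast at k18
  have k19 := zt2_sound h19 X Y
  simp only [RE.val_mul, RE.val_add, RE.val_c, RE.val_pow, RE.val_x, RE.val_y, hs.at'.th, hs.at'.n,
    hs.at'.m, hs.at'.f, hs.at'.xi, hs.uu, hs.uh, hs.ug, f_hh0 hs, f_hh1 hs, f_hg0 hs, f_hg1 hs,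
    f_hz hs, f_gg0 hs, f_gg1 hs, f_gz hs, f_z00 hs, f_z01 hs, f_z10 hs, f_z11 hs,
    f_z20 hs] at k19
  push_cast at k19
  have k20 := zt2_sound h20 X Y
  simp only [RE.val_mul, RE.val_add, RE.val_c, RE.val_pow, RE.val_x, RE.val_y, hs.at'.th, hs.at'.n,
    hs.at'.m, hs.at'.f, hs.at'.xi, hs.uu, hs.uh, hs.ug, f_hh0 hs, f_hh1 hs, f_hg0 hs, f_hg1 hs,
    f_hz hs, f_gg0 hs, f_gg1 hs, f_gz hs, f_z00 hs, f_z01 hs, f_z10 hs, f_z11 hs,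
    f_z20 hs] at k20
  push_cast at k20
  have k21 := zt2_sound h21 X Y
  simp only [RE.val_mul, RE.val_add, RE.val_c, RE.val_pow, RE.val_x, RE.val_y, hs.at'.th, hs.at'.n,
    hs.at'.m, hs.at'.f, hs.at'.xi, hs.uu, hs.uh, hs.ug, f_hh0 hs, f_hh1 hs, f_hg0 hs, f_hg1 hs,
    f_hz hs, f_gg0 hs, f_gg1 hs, f_gz hs, f_z00 hs, f_z01 hs, f_z10 hs, f_z11 hs,
    f_z20 hs] at k21
  push_cast at k21
  have k22 := zt2_sound h22 X Y
  simp only [RE.val_mul, RE.val_add, RE.val_c, RE.val_pow, RE.val_x, RE.val_y, hs.at'.th, hs.at'.n,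
    hs.at'.m, hs.at'.f, hs.at'.xi, hs.uu, hs.uh, hs.ug, f_hh0 hs, f_hh1 hs, f_hg0 hs, f_hg1 hs,
    f_hz hs, f_gg0 hs, f_gg1 hs, f_gz hs, f_z00 hs, f_z01 hs, f_z10 hs, f_z11 hs,
    f_z20 hs] at k22
  push_cast at k22
  have k23 := zt2_sound h23 X Y
  simp only [RE.val_mul, RE.val_add, RE.val_c, RE.val_pow, RE.val_x, RE.val_y, hs.at'.th, hs.at'.n,
    hs.at'.m, hs.at'.f, hs.at'.xi, hs.uu, hs.uh, hs.ug, f_hh0 hs, f_hh1 hs, f_hg0 hs, f_hg1 hs,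
    f_hz hs, f_gg0 hs, f_gg1 hs, f_gz hs, f_z00 hs, f_z01 hs, f_z10 hs, f_z11 hs,
    f_z20 hs] at k23
  push_cast at k23
  have k99 := zt2_sound h99 X Y
  simp only [RE.val_mul, RE.val_add, RE.val_c, RE.val_pow, RE.val_x, RE.val_y, hs.at'.th, hs.at'.n,
    hs.at'.m, hs.at'.f, hs.at'.xi, hs.uu, hs.uh, hs.ug, f_hh0 hs, f_hh1 hs, f_hg0 hs, f_hg1 hs,
    f_hz hs, f_gg0 hs, f_gg1 hs, f_gz hs, f_z00 hs, f_z01 hs, f_z10 hs, f_z11 hs,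
    f_z20 hs] at k99
  push_cast at k99
  refine ⟨⟨by positivity, ?_, ?_, ?_, ?_, ?_, ?_, ?_, ?_, ?_, ?_, ?_, ?_, ?_, ?_, ?_, ?_, ?_, ?_, ?_⟩,
    by linear_combination k19, by linear_combination k20, by linear_combination k21, by linear_combination k22, by linear_combination k23, by linear_combination k99⟩
  · exact eqdivm hn' hd' (by positivity) (by linear_combination k0)
  · exact eqdivm hn' hd' (by positivity) (by linear_combination k1)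
  · exact eqdivm hn' hd' (by positivity) (by linear_combination k2)
  · exact eqdiv hn' hd' (by linear_combination k3)
  · exact eqdiv hn' hd' (by linear_combination k4)
  · exact eqdiv hn' hd' (by linear_combination k5)
  · exact eqdiv hn' hd' (by linear_combination k6)
  · exact eqdiv hn' hd' (by linear_combination k7)
  · exact eqdiv hn' hd' (by linear_combination k8 + (num : ℝ) * z10 s N M * hGH)
  · exact eqdiv hn' hd' (by linear_combination k9 + (num : ℝ) * z20 s N M * hGH)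
  · exact eqdiv hn' hd' (by linear_combination k10)
  · exact eqdiv hn' hd' (by linear_combination k11 + (num : ℝ) * z11 s N M * hGH)
  · exact eqdiv hn' hd' (by linear_combination k12 + (num : ℝ) * z00 s N M * hGH)
  · exact eqdiv hn' hd' (by linear_combination k13 + (num : ℝ) * z01 s N M * hGH)
  · exact eqdiv hn' hd' (by linear_combination k14 + (num : ℝ) * z10 s N M * hGH)
  · exact eqdiv hn' hd' (by linear_combination k15 + (num : ℝ) * z11 s N M * hGH)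
  · exact eqdiv hn' hd' (by linear_combination k16 + (num : ℝ) * z20 s N M * hGH)
  · linear_combination k17
  · linear_combination k18

theorem eqII_of_ok {s : En} {z : ZP} {T : Tab} {num den : ℤ} (hn : 0 < num) (hd : 0 < den)
    (h : okII s z T num den = true) {X Y N M : ℝ} (hs : s.At X Y N M) (hT : 0 < Tht N M) :
    EqII s (fun i => T.vals X Y i) N M Y (120 * (2 - N - M) + 8 * (N - M) ^ 2) (den / num) ∧
      T.vals X Y 21 = 4 * Tht N M - 1 ∧ T.vals X Y 22 = 884 + 99 * N ^ 2 - 88 * N ^ 3 ∧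
      T.vals X Y 23 = -22 * (120 * (2 - N - M) + 8 * (N - M) ^ 2) ∧
      T.vals X Y 24 = 44 * (X ^ 3 * ((1 - Y) ^ 2 * (1 + 2 * Y))) ∧ T.vals X Y 99 = 0 := by
  unfold okII at h
  simp only [Bool.and_eq_true, and_true] at h
  obtain ⟨h0, h1, h2, h3, h4, h5, h6, h7, h8, h9, h10, h11, h12, h13, h14, h15, h16, h17, h18, h19, h20, h21, h22, h23, h24, h99⟩ := h
  have hn' : (0 : ℝ) < num := by exact_mod_cast hn
  have hd' : (0 : ℝ) < den := by exact_mod_cast hd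
  have hGH : s.HF N M * Tht N M = 200 * s.GF N M := by unfold En.HF En.GF; rw [pow_succ]; ring
  have k0 := zt2_sound h0 X Y
  simp only [RE.val_mul, RE.val_add, RE.val_c, RE.val_pow, RE.val_x, RE.val_y, hs.at'.th, hs.at'.n,
    hs.at'.m, hs.at'.f, hs.at'.xi, hs.uu, hs.uh, hs.ug, f_hh0 hs, f_hh1 hs, f_hg0 hs, f_hg1 hs,
    f_hz hs, f_gg0 hs, f_gg1 hs, f_gz hs, f_z00 hs, f_z01 hs, f_z10 hs, f_z11 hs,
    f_z20 hs, f_cE hs] at k0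
  push_cast at k0
  have k1 := zt2_sound h1 X Y
  simp only [RE.val_mul, RE.val_add, RE.val_c, RE.val_pow, RE.val_x, RE.val_y, hs.at'.th, hs.at'.n,
    hs.at'.m, hs.at'.f, hs.at'.xi, hs.uu, hs.uh, hs.ug, f_hh0 hs, f_hh1 hs, f_hg0 hs, f_hg1 hs,
    f_hz hs, f_gg0 hs, f_gg1 hs, f_gz hs, f_z00 hs, f_z01 hs, f_z10 hs, f_z11 hs,
    f_z20 hs, f_cE hs] at k1
  push_cast at k1
  have k2 := zt2_sound h2 X Y
  simp only [RE.val_mul, RE.val_add, RE.val_c, RE.val_pow, RE.val_x, RE.val_y, hs.at'.th, hs.at'.n,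
    hs.at'.m, hs.at'.f, hs.at'.xi, hs.uu, hs.uh, hs.ug, f_hh0 hs, f_hh1 hs, f_hg0 hs, f_hg1 hs,
    f_hz hs, f_gg0 hs, f_gg1 hs, f_gz hs, f_z00 hs, f_z01 hs, f_z10 hs, f_z11 hs,
    f_z20 hs, f_cE hs] at k2
  push_cast at k2
  have k3 := zt2_sound h3 X Y
  simp only [RE.val_mul, RE.val_add, RE.val_c, RE.val_pow, RE.val_x, RE.val_y, hs.at'.th, hs.at'.n,
    hs.at'.m, hs.at'.f, hs.at'.xi, hs.uu, hs.uh, hs.ug, f_hh0 hs, f_hh1 hs, f_hg0 hs, f_hg1 hs,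
    f_hz hs, f_gg0 hs, f_gg1 hs, f_gz hs, f_z00 hs, f_z01 hs, f_z10 hs, f_z11 hs,
    f_z20 hs, f_cE hs] at k3
  push_cast at k3
  have k4 := zt2_sound h4 X Y
  simp only [RE.val_mul, RE.val_add, RE.val_c, RE.val_pow, RE.val_x, RE.val_y, hs.at'.th, hs.at'.n,
    hs.at'.m, hs.at'.f, hs.at'.xi, hs.uu, hs.uh, hs.ug, f_hh0 hs, f_hh1 hs, f_hg0 hs, f_hg1 hs,
    f_hz hs, f_gg0 hs, f_gg1 hs, f_gz hs, f_z00 hs, f_z01 hs, f_z10 hs, f_z11 hs,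
    f_z20 hs, f_cE hs] at k4
  push_cast at k4
  have k5 := zt2_sound h5 X Y
  simp only [RE.val_mul, RE.val_add, RE.val_c, RE.val_pow, RE.val_x, RE.val_y, hs.at'.th, hs.at'.n,
    hs.at'.m, hs.at'.f, hs.at'.xi, hs.uu, hs.uh, hs.ug, f_hh0 hs, f_hh1 hs, f_hg0 hs, f_hg1 hs,
    f_hz hs, f_gg0 hs, f_gg1 hs, f_gz hs, f_z00 hs, f_z01 hs, f_z10 hs, f_z11 hs,
    f_z20 hs, f_cE hs] at k5
  push_cast at k5
  have k6 := zt2_sound h6 X Y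
  simp only [RE.val_mul, RE.val_add, RE.val_c, RE.val_pow, RE.val_x, RE.val_y, hs.at'.th, hs.at'.n,
    hs.at'.m, hs.at'.f, hs.at'.xi, hs.uu, hs.uh, hs.ug, f_hh0 hs, f_hh1 hs, f_hg0 hs, f_hg1 hs,
    f_hz hs, f_gg0 hs, f_gg1 hs, f_gz hs, f_z00 hs, f_z01 hs, f_z10 hs, f_z11 hs,
    f_z20 hs, f_cE hs] at k6
  push_cast at k6
  have k7 := zt2_sound h7 X Y
  simp only [RE.val_mul, RE.val_add, RE.val_c, RE.val_pow, RE.val_x, RE.val_y, hs.at'.th, hs.at'.n,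
    hs.at'.m, hs.at'.f, hs.at'.xi, hs.uu, hs.uh, hs.ug, f_hh0 hs, f_hh1 hs, f_hg0 hs, f_hg1 hs,
    f_hz hs, f_gg0 hs, f_gg1 hs, f_gz hs, f_z00 hs, f_z01 hs, f_z10 hs, f_z11 hs,
    f_z20 hs, f_cE hs] at k7
  push_cast at k7
  have k8 := zt2_sound h8 X Y
  simp only [RE.val_mul, RE.val_add, RE.val_c, RE.val_pow, RE.val_x, RE.val_y, hs.at'.th, hs.at'.n,
    hs.at'.m, hs.at'.f, hs.at'.xi, hs.uu, hs.uh, hs.ug, f_hh0 hs, f_hh1 hs, f_hg0 hs, f_hg1 hs,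
    f_hz hs, f_gg0 hs, f_gg1 hs, f_gz hs, f_z00 hs, f_z01 hs, f_z10 hs, f_z11 hs,
    f_z20 hs, f_cE hs] at k8
  push_cast at k8
  have k9 := zt2_sound h9 X Y
  simp only [RE.val_mul, RE.val_add, RE.val_c, RE.val_pow, RE.val_x, RE.val_y, hs.at'.th, hs.at'.n,
    hs.at'.m, hs.at'.f, hs.at'.xi, hs.uu, hs.uh, hs.ug, f_hh0 hs, f_hh1 hs, f_hg0 hs, f_hg1 hs,
    f_hz hs, f_gg0 hs, f_gg1 hs, f_gz hs, f_z00 hs, f_z01 hs, f_z10 hs, f_z11 hs,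
    f_z20 hs, f_cE hs] at k9
  push_cast at k9
  have k10 := zt2_sound h10 X Y
  simp only [RE.val_mul, RE.val_add, RE.val_c, RE.val_pow, RE.val_x, RE.val_y, hs.at'.th, hs.at'.n,
    hs.at'.m, hs.at'.f, hs.at'.xi, hs.uu, hs.uh, hs.ug, f_hh0 hs, f_hh1 hs, f_hg0 hs, f_hg1 hs,
    f_hz hs, f_gg0 hs, f_gg1 hs, f_gz hs, f_z00 hs, f_z01 hs, f_z10 hs, f_z11 hs,
    f_z20 hs, f_cE hs] at k10
  push_cast at k10
  have k11 := zt2_sound h11 X Y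
  simp only [RE.val_mul, RE.val_add, RE.val_c, RE.val_pow, RE.val_x, RE.val_y, hs.at'.th, hs.at'.n,
    hs.at'.m, hs.at'.f, hs.at'.xi, hs.uu, hs.uh, hs.ug, f_hh0 hs, f_hh1 hs, f_hg0 hs, f_hg1 hs,
    f_hz hs, f_gg0 hs, f_gg1 hs, f_gz hs, f_z00 hs, f_z01 hs, f_z10 hs, f_z11 hs,
    f_z20 hs, f_cE hs] at k11
  push_cast at k11
  have k12 := zt2_sound h12 X Y
  simp only [RE.val_mul, RE.val_add, RE.val_c, RE.val_pow, RE.val_x, RE.val_y, hs.at'.th, hs.at'.n,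
    hs.at'.m, hs.at'.f, hs.at'.xi, hs.uu, hs.uh, hs.ug, f_hh0 hs, f_hh1 hs, f_hg0 hs, f_hg1 hs,
    f_hz hs, f_gg0 hs, f_gg1 hs, f_gz hs, f_z00 hs, f_z01 hs, f_z10 hs, f_z11 hs,
    f_z20 hs, f_cE hs] at k12
  push_cast at k12
  have k13 := zt2_sound h13 X Y
  simp only [RE.val_mul, RE.val_add, RE.val_c, RE.val_pow, RE.val_x, RE.val_y, hs.at'.th, hs.at'.n,
    hs.at'.m, hs.at'.f, hs.at'.xi, hs.uu, hs.uh, hs.ug, f_hh0 hs, f_hh1 hs, f_hg0 hs, f_hg1 hs,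
    f_hz hs, f_gg0 hs, f_gg1 hs, f_gz hs, f_z00 hs, f_z01 hs, f_z10 hs, f_z11 hs,
    f_z20 hs, f_cE hs] at k13
  push_cast at k13
  have k14 := zt2_sound h14 X Y
  simp only [RE.val_mul, RE.val_add, RE.val_c, RE.val_pow, RE.val_x, RE.val_y, hs.at'.th, hs.at'.n,
    hs.at'.m, hs.at'.f, hs.at'.xi, hs.uu, hs.uh, hs.ug, f_hh0 hs, f_hh1 hs, f_hg0 hs, f_hg1 hs,
    f_hz hs, f_gg0 hs, f_gg1 hs, f_gz hs, f_z00 hs, f_z01 hs, f_z10 hs, f_z11 hs,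
    f_z20 hs, f_cE hs] at k14
  push_cast at k14
  have k15 := zt2_sound h15 X Y
  simp only [RE.val_mul, RE.val_add, RE.val_c, RE.val_pow, RE.val_x, RE.val_y, hs.at'.th, hs.at'.n,
    hs.at'.m, hs.at'.f, hs.at'.xi, hs.uu, hs.uh, hs.ug, f_hh0 hs, f_hh1 hs, f_hg0 hs, f_hg1 hs,
    f_hz hs, f_gg0 hs, f_gg1 hs, f_gz hs, f_z00 hs, f_z01 hs, f_z10 hs, f_z11 hs,
    f_z20 hs, f_cE hs] at k15
  push_cast at k15
  have k16 := zt2_sound h16 X Y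
  simp only [RE.val_mul, RE.val_add, RE.val_c, RE.val_pow, RE.val_x, RE.val_y, hs.at'.th, hs.at'.n,
    hs.at'.m, hs.at'.f, hs.at'.xi, hs.uu, hs.uh, hs.ug, f_hh0 hs, f_hh1 hs, f_hg0 hs, f_hg1 hs,
    f_hz hs, f_gg0 hs, f_gg1 hs, f_gz hs, f_z00 hs, f_z01 hs, f_z10 hs, f_z11 hs,
    f_z20 hs, f_cE hs] at k16
  push_cast at k16
  have k17 := zt2_sound h17 X Y
  simp only [RE.val_mul, RE.val_add, RE.val_c, RE.val_pow, RE.val_x, RE.val_y, hs.at'.th, hs.at'.n,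
    hs.at'.m, hs.at'.f, hs.at'.xi, hs.uu, hs.uh, hs.ug, f_hh0 hs, f_hh1 hs, f_hg0 hs, f_hg1 hs,
    f_hz hs, f_gg0 hs, f_gg1 hs, f_gz hs, f_z00 hs, f_z01 hs, f_z10 hs, f_z11 hs,
    f_z20 hs, f_cE hs] at k17
  push_cast at k17
  have k18 := zt2_sound h18 X Y
  simp only [RE.val_mul, RE.val_add, RE.val_c, RE.val_pow, RE.val_x, RE.val_y, hs.at'.th, hs.at'.n,
    hs.at'.m, hs.at'.f, hs.at'.xi, hs.uu, hs.uh, hs.ug, f_hh0 hs, f_hh1 hs, f_hg0 hs, f_hg1 hs,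
    f_hz hs, f_gg0 hs, f_gg1 hs, f_gz hs, f_z00 hs, f_z01 hs, f_z10 hs, f_z11 hs,
    f_z20 hs, f_cE hs] at k18
  push_cast at k18
  have k19 := zt2_sound h19 X Y
  simp only [RE.val_mul, RE.val_add, RE.val_c, RE.val_pow, RE.val_x, RE.val_y, hs.at'.th, hs.at'.n,
    hs.at'.m, hs.at'.f, hs.at'.xi, hs.uu, hs.uh, hs.ug, f_hh0 hs, f_hh1 hs, f_hg0 hs, f_hg1 hs,
    f_hz hs, f_gg0 hs, f_gg1 hs, f_gz hs, f_z00 hs, f_z01 hs, f_z10 hs, f_z11 hs,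
    f_z20 hs, f_cE hs] at k19
  push_cast at k19
  have k20 := zt2_sound h20 X Y
  simp only [RE.val_mul, RE.val_add, RE.val_c, RE.val_pow, RE.val_x, RE.val_y, hs.at'.th, hs.at'.n,
    hs.at'.m, hs.at'.f, hs.at'.xi, hs.uu, hs.uh, hs.ug, f_hh0 hs, f_hh1 hs, f_hg0 hs, f_hg1 hs,
    f_hz hs, f_gg0 hs, f_gg1 hs, f_gz hs, f_z00 hs, f_z01 hs, f_z10 hs, f_z11 hs,
    f_z20 hs, f_cE hs] at k20
  push_cast at k20
  have k21 := zt2_sound h21 X Y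
  simp only [RE.val_mul, RE.val_add, RE.val_c, RE.val_pow, RE.val_x, RE.val_y, hs.at'.th, hs.at'.n,
    hs.at'.m, hs.at'.f, hs.at'.xi, hs.uu, hs.uh, hs.ug, f_hh0 hs, f_hh1 hs, f_hg0 hs, f_hg1 hs,
    f_hz hs, f_gg0 hs, f_gg1 hs, f_gz hs, f_z00 hs, f_z01 hs, f_z10 hs, f_z11 hs,
    f_z20 hs, f_cE hs] at k21
  push_cast at k21
  have k22 := zt2_sound h22 X Y
  simp only [RE.val_mul, RE.val_add, RE.val_c, RE.val_pow, RE.val_x, RE.val_y, hs.at'.th, hs.at'.n,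
    hs.at'.m, hs.at'.f, hs.at'.xi, hs.uu, hs.uh, hs.ug, f_hh0 hs, f_hh1 hs, f_hg0 hs, f_hg1 hs,
    f_hz hs, f_gg0 hs, f_gg1 hs, f_gz hs, f_z00 hs, f_z01 hs, f_z10 hs, f_z11 hs,
    f_z20 hs, f_cE hs] at k22
  push_cast at k22
  have k23 := zt2_sound h23 X Y
  simp only [RE.val_mul, RE.val_add, RE.val_c, RE.val_pow, RE.val_x, RE.val_y, hs.at'.th, hs.at'.n,
    hs.at'.m, hs.at'.f, hs.at'.xi, hs.uu, hs.uh, hs.ug, f_hh0 hs, f_hh1 hs, f_hg0 hs, f_hg1 hs,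
    f_hz hs, f_gg0 hs, f_gg1 hs, f_gz hs, f_z00 hs, f_z01 hs, f_z10 hs, f_z11 hs,
    f_z20 hs, f_cE hs] at k23
  push_cast at k23
  have k24 := zt2_sound h24 X Y
  simp only [RE.val_mul, RE.val_add, RE.val_c, RE.val_pow, RE.val_x, RE.val_y, hs.at'.th, hs.at'.n,
    hs.at'.m, hs.at'.f, hs.at'.xi, hs.uu, hs.uh, hs.ug, f_hh0 hs, f_hh1 hs, f_hg0 hs, f_hg1 hs,
    f_hz hs, f_gg0 hs, f_gg1 hs, f_gz hs, f_z00 hs, f_z01 hs, f_z10 hs, f_z11 hs,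
    f_z20 hs, f_cE hs] at k24
  push_cast at k24
  have k99 := zt2_sound h99 X Y
  simp only [RE.val_mul, RE.val_add, RE.val_c, RE.val_pow, RE.val_x, RE.val_y, hs.at'.th, hs.at'.n,
    hs.at'.m, hs.at'.f, hs.at'.xi, hs.uu, hs.uh, hs.ug, f_hh0 hs, f_hh1 hs, f_hg0 hs, f_hg1 hs,
    f_hz hs, f_gg0 hs, f_gg1 hs, f_gz hs, f_z00 hs, f_z01 hs, f_z10 hs, f_z11 hs,
    f_z20 hs, f_cE hs] at k99
  push_cast at k99
  refine ⟨⟨by positivity, ?_, ?_, ?_, ?_, ?_, ?_, ?_, ?_, ?_, ?_, ?_, ?_, ?_, ?_, ?_, ?_, ?_, ?_, ?_, ?_, ?_⟩,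
    by linear_combination k21, by linear_combination k22, by linear_combination k23, by linear_combination k24, by linear_combination k99⟩
  · exact eqdivm hn' hd' (by positivity) (by linear_combination k0)
  · exact eqdivm hn' hd' (by positivity) (by linear_combination k1)
  · exact eqdivm hn' hd' (by positivity) (by linear_combination k2)
  · exact eqdiv hn' hd' (by linear_combination k3)
  · exact eqdiv hn' hd' (by linear_combination k4)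
  · exact eqdiv hn' hd' (by linear_combination k5)
  · exact eqdiv hn' hd' (by linear_combination k6)
  · exact eqdiv hn' hd' (by linear_combination k7)
  · exact eqdiv hn' hd' (by linear_combination k8)
  · exact eqdiv hn' hd' (by linear_combination k9 + (num : ℝ) * (2 * Y ^ 3 * (120 * (2 - N - M) + 8 * (N - M) ^ 2)) * (z10 s N M + z11 s N M) * hGH)
  · exact eqdiv hn' hd' (by linear_combination k10 + (num : ℝ) * (2 * Y ^ 3 * (120 * (2 - N - M) + 8 * (N - M) ^ 2) ^ 2) * z20 s N M * hGH)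
  · exact eqdiv hn' hd' (by linear_combination k11 - (num : ℝ) * ((1 - Y) ^ 2 * (1 + 2 * Y) * (120 * (2 - N - M) + 8 * (N - M) ^ 2)) * z11 s N M * hGH)
  · exact eqdiv hn' hd' (by linear_combination k12)
  · exact eqdiv hn' hd' (by linear_combination k13 + (num : ℝ) * (2 * Y ^ 3) * (z00 s N M + z01 s N M) * hGH)
  · exact eqdiv hn' hd' (by linear_combination k14 - (num : ℝ) * ((1 - Y) ^ 2 * (1 + 2 * Y)) * z01 s N M * hGH)
  · exact eqdiv hn' hd' (by linear_combination k15 + (num : ℝ) * (2 * Y ^ 3 * (120 * (2 - N - M) + 8 * (N - M) ^ 2)) * (z10 s N M + z11 s N M) * hGH)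
  · exact eqdiv hn' hd' (by linear_combination k16 - (num : ℝ) * ((1 - Y) ^ 2 * (1 + 2 * Y) * (120 * (2 - N - M) + 8 * (N - M) ^ 2)) * z11 s N M * hGH)
  · exact eqdiv hn' hd' (by linear_combination k17 + (num : ℝ) * (2 * Y ^ 3 * (120 * (2 - N - M) + 8 * (N - M) ^ 2) ^ 2) * z20 s N M * hGH)
  · linear_combination k18
  · linear_combination k19
  · linear_combination k20

end Vale.Agent.P211.H626
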