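import Vale.Agent.P211.H626.Wrap3

set_option linter.all false

/-! P211 (helper626): certificates at the vertices of the ratio polygon imply `HasCertE`. -/

namespace Vale.Agent.P211.H626

open Topology Filter MeasureTheory Set
open scoped ContDiff
open Vale.Agent.P211 Vale.Agent.P211.S4 Vale.Agent.P211.H56

/-- the four columns -/
noncomputable def CS (A A1 A2 A3 : Fin 4 → ℝ × ℝ × ℝ → ℝ) (P : Pt) : ℝ :=
  P.col (A 0 (P.N, P.M, P.p)) (A1 0 (P.N, P.M, P.p)) (A2 0 (P.N, P.M, P.p))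
    (A3 0 (P.N, P.M, P.p)) P.lB P.dB +
  P.col (A 1 (P.N, P.M, P.p)) (A1 1 (P.N, P.M, P.p)) (A2 1 (P.N, P.M, P.p))
    (A3 1 (P.N, P.M, P.p)) P.lD P.dD +
  P.col (A 2 (P.N, P.M, P.p)) (A1 2 (P.N, P.M, P.p)) (A2 2 (P.N, P.M, P.p))
    (A3 2 (P.N, P.M, P.p)) P.lM P.dM +
  P.col (A 3 (P.N, P.M, P.p)) (A1 3 (P.N, P.M, P.p)) (A2 3 (P.N, P.M, P.p))
    (A3 3 (P.N, P.M, P.p)) P.lN P.dN

/-- the Poincaré part at the vertex `(x, y)` -/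
noncomputable def Poi (a a' : ℝ → ℝ) (x y : ℝ) (P : Pt) : ℝ :=
  4 * (x * a P.N ^ 2 - 2 * (a P.N * a P.M) + y * a P.M ^ 2) -
    (x * (a' P.N ^ 2 * H56.dt P.g P.g) - 2 * (a' P.N * a' P.M * H56.dt P.g P.h) +
      y * (a' P.M ^ 2 * H56.dt P.h P.h))

/-- the open set where the coefficients are defined -/
def Om : Set (ℝ × ℝ × ℝ) := {v | 0 < 6 * (2 - v.1 - v.2.1) + (v.1 - v.2.1) ^ 2}

theorem isOpen_Om : IsOpen Om := by
  unfold Om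
  exact isOpen_lt continuous_const (by fun_prop)

theorem mem_Om {P : Pt} (h : P.Ok) (h1 : ¬ (P.N = 1 ∧ P.M = 1)) : (P.N, P.M, P.p) ∈ Om := by
  show 0 < 6 * (2 - P.N - P.M) + (P.N - P.M) ^ 2
  have h2 : 0 ≤ 2 - P.N - P.M := by linarith [h.NM]
  rcases h2.lt_or_eq with h3 | h3
  · positivity
  · have h4 : P.N - P.M ≠ 0 := by
      intro h4
      exact h1 ⟨by linarith, by linarith⟩
    positivity

variable {M 𝒪 V : Type*} [TopologicalSpace M] [CommRing 𝒪] [Algebra ℝ 𝒪]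
    [AddCommGroup V] [Module 𝒪 V] {G : Geo2 M 𝒪 V}

/-- A certificate at the vertex `(x, y)`. -/
def VC (G : Geo2 M 𝒪 V) (E : Pt → Prop) (a a' : ℝ → ℝ) (x y : ℝ) : Prop :=
  ∃ (A A1 A2 A3 : Fin 4 → ℝ × ℝ × ℝ → ℝ), (∀ i, Sm3 G Om (A i) (A1 i) (A2 i) (A3 i)) ∧
    ∀ P : Pt, P.Ok → E P → ¬ (P.N = 1 ∧ P.M = 1) →
      0 ≤ A 0 (P.N, P.M, P.p) ∧ 0 ≤ A 2 (P.N, P.M, P.p) ∧
      0 ≤ CS A A1 A2 A3 P + Poi a a' x y P ∧
      (0 < P.N → 0 < P.M → 0 < CS A A1 A2 A3 P + Poi a a' x y P)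

/-- the certificates at the vertices form a convex set -/
theorem VC.conv {E : Pt → Prop} {a a' : ℝ → ℝ} {x y x' y' : ℝ} (h : VC G E a a' x y)
    (h' : VC G E a a' x' y') {w w' : ℝ} (hw : 0 ≤ w) (hw' : 0 ≤ w') (hww : w + w' = 1) :
    VC G E a a' (w * x + w' * x') (w * y + w' * y') := by
  obtain ⟨A, A1, A2, A3, hA, hpos⟩ := h
  obtain ⟨B, B1, B2, B3, hB, hpos'⟩ := h'
  refine ⟨fun i v => w * A i v + w' * B i v, fun i v => w * A1 i v + w' * B1 i v,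
    fun i v => w * A2 i v + w' * B2 i v, fun i v => w * A3 i v + w' * B3 i v,
    fun i => ((hA i).smul w).add ((hB i).smul w'), fun P hP hE hne => ?_⟩
  obtain ⟨k1, k2, k3, k4⟩ := hpos P hP hE hne
  obtain ⟨l1, l2, l3, l4⟩ := hpos' P hP hE hne
  have e : CS (fun i v => w * A i v + w' * B i v) (fun i v => w * A1 i v + w' * B1 i v)
      (fun i v => w * A2 i v + w' * B2 i v) (fun i v => w * A3 i v + w' * B3 i v) P +
      Poi a a' (w * x + w' * x') (w * y + w' * y') P =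
      w * (CS A A1 A2 A3 P + Poi a a' x y P) + w' * (CS B B1 B2 B3 P + Poi a a' x' y' P) := by
    obtain rfl : w' = 1 - w := by linarith
    unfold CS Poi Pt.col
    ring
  rw [e]
  refine ⟨by positivity, by positivity, by positivity, fun h1 h2 => ?_⟩
  have m1 := k4 h1 h2
  have m2 := l4 h1 h2
  rcases hw.lt_or_eq with hw0 | hw0
  · exact add_pos_of_pos_of_nonneg (mul_pos hw0 m1) (mul_nonneg hw' l3)
  · have : w' = 1 := by linarith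
    rw [← hw0, this]
    linarith

/-- three vertices: the points `(s, 1/s)` for `1 ≤ s ≤ S` -/
theorem VC.arc {E : Pt → Prop} {a a' : ℝ → ℝ} {S : ℝ} (hS : 1 < S) (h1 : VC G E a a' 1 1)
    (h2 : VC G E a a' (2 * S / (S + 1)) (2 / (S + 1))) (h3 : VC G E a a' S (1 / S)) {s : ℝ}
    (hs1 : 1 ≤ s) (hsS : s ≤ S) : VC G E a a' s (1 / s) := by
  -- the middle vertex is the intersection of the tangents at `1` and `S`
  -- `s` lies on the chord between the tangent points of its own tangent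
  have hs0 : 0 < s := by linarith
  have hS0 : 0 < S := by linarith
  have hSm : S - 1 ≠ 0 := (sub_pos.2 hS).ne'
  -- left point: on the segment from `(1,1)` to the middle vertex, tangent at `s`: `x + s² y = 2 s`
  -- `(x, 2 - x)`, `x = 2 s / (s + 1)`
  have hl : VC G E a a' (2 * s / (s + 1)) (2 / (s + 1)) := by
    have hd : 0 < (S - 1) * (s + 1) := mul_pos (by linarith) (by linarith)
    have := h1.conv h2 (w := 2 * (S - s) / ((S - 1) * (s + 1)))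
      (w' := (s - 1) * (S + 1) / ((S - 1) * (s + 1)))
      (div_nonneg (by linarith) hd.le) (div_nonneg (mul_nonneg (by linarith) (by linarith)) hd.le)
      (by field_simp; ring)
    convert this using 1 <;> field_simp <;> ring
  -- right point: intersection of the tangents at `s` and `S`
  have hr : VC G E a a' (2 * s * S / (s + S)) (2 / (s + S)) := by
    have hd : 0 < (S - 1) * (s + S) := mul_pos (by linarith) (by linarith)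
    have := h2.conv h3 (w := (S - s) * (S + 1) / ((S - 1) * (s + S)))
      (w' := 2 * S * (s - 1) / ((S - 1) * (s + S)))
      (div_nonneg (mul_nonneg (by linarith) (by linarith)) hd.le)
      (div_nonneg (mul_nonneg (by linarith) (by linarith)) hd.le)
      (by field_simp; ring)
    convert this using 1 <;> field_simp <;> ring
  -- `(s, 1/s)` on the segment between the two
  have hd : 0 < 2 * s * (S - 1) := mul_pos (by linarith) (by linarith)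
  have := hl.conv hr (w := (s + 1) * (S - s) / (2 * s * (S - 1)))
    (w' := (s + S) * (s - 1) / (2 * s * (S - 1)))
    (div_nonneg (mul_nonneg (by linarith) (by linarith)) hd.le)
    (div_nonneg (mul_nonneg (by linarith) (by linarith)) hd.le)
    (by field_simp; ring)
  convert this using 1 <;> field_simp <;> ring

/-- the certificate involving only `N`: the mean of `a(N)` is at least `m0`. A singular part
`cs(N) N ∇N` is allowed (for instance `cs N = γ / N`). -/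
def NOnly (G : Geo2 M 𝒪 V) (E : Pt → Prop) (a a' : ℝ → ℝ) (m0 : ℝ) : Prop :=
  ∃ (A A1 A2 A3 : Fin 4 → ℝ × ℝ × ℝ → ℝ) (cs cs' : ℝ → ℝ) (K B : ℝ), 0 ≤ K ∧ 0 ≤ B ∧
    (∀ i, Sm3 G Om (A i) (A1 i) (A2 i) (A3 i)) ∧ C1oc 3 cs cs' ∧ cs 0 = 0 ∧
    (∀ x ∈ Ioc (0 : ℝ) 3, 0 ≤ cs x ∧ cs x * x ^ 2 ≤ B ∧ 0 ≤ 5 / 3 * cs x + x * cs' x + B) ∧
    ∀ P : Pt, P.Ok → E P → ¬ (P.N = 1 ∧ P.M = 1) →
      0 ≤ A 0 (P.N, P.M, P.p) ∧ 0 ≤ A 2 (P.N, P.M, P.p) ∧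
      0 ≤ CS A A1 A2 A3 P + (P.N * cs' P.N * H56.dt P.g P.g + 1 / 2 * cs P.N * P.lN) +
        K * (4 * a P.N ^ 2 - 4 * m0 * a P.N - a' P.N ^ 2 * H56.dt P.g P.g) ∧
      (0 < P.N → 0 < CS A A1 A2 A3 P +
        (P.N * cs' P.N * H56.dt P.g P.g + 1 / 2 * cs P.N * P.lN) +
        K * (4 * a P.N ^ 2 - 4 * m0 * a P.N - a' P.N ^ 2 * H56.dt P.g P.g))

/-- the four families of functions -/
def fφ (a : ℝ → ℝ) : Fin 2 → ℝ → ℝ := ![a, a]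
def fψ (a : ℝ → ℝ) : Fin 2 → ℝ → ℝ := ![a, fun _ => 1]
def fψ' (a' : ℝ → ℝ) : Fin 2 → ℝ → ℝ := ![a', fun _ => 0]

theorem c1on_zero (R : ℝ) : C1on R (fun _ => 0) (fun _ => 0) :=
  ⟨fun s _ => hasDerivWithinAt_const _ _ _, continuousOn_const⟩

theorem c1on_one (R : ℝ) : C1on R (fun _ => 1) (fun _ => 0) :=
  ⟨fun s _ => hasDerivWithinAt_const _ _ _, continuousOn_const⟩

theorem cols_of {a a' : ℝ → ℝ} (ha : C1on 3 a a') {L : ℝ} (hL : ∀ x ∈ Icc (0 : ℝ) 3, a' x ^ 2 ≤ L)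
    (hL0 : 0 ≤ L) {Λ s : Fin 2 → ℝ} (hΛ : ∀ j, 0 ≤ Λ j) {cs cs' : ℝ → ℝ} (hcs : C1oc 3 cs cs')
    {B : ℝ} (hB : 0 ≤ B)
    (hcs2 : ∀ x ∈ Ioc (0 : ℝ) 3, 0 ≤ cs x ∧ cs x * x ^ 2 ≤ B ∧
      0 ≤ 5 / 3 * cs x + x * cs' x + B) :
    Cols (Fin 2) 3 (2 * (Λ 0 * s 0 ^ 2 * L + Λ 1 * s 1 ^ 2 * L) + 2 * (Λ 0 * L) + B) (fun _ => 0)
      (fun _ => 0) (fun _ => 0) (fun _ => 0) cs cs' (fun _ => 0) (fun _ => 0)
      Λ s (fφ a) (fφ a') (fψ a) (fψ' a') where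
  fc := c1on_zero _
  fd := c1on_zero _
  fcs := hcs
  fds := (c1on_zero _).oc
  fφ := fun j => by fin_cases j <;> exact ha.oc
  fψ := fun j => by
    fin_cases j
    · exact ha.oc
    · exact (c1on_one _).oc
  kφ := fun j => by fin_cases j <;> exact ha.cont
  kψ := fun j => by
    fin_cases j
    · exact ha.cont
    · exact continuousOn_const
  Λ0 := hΛ
  hcs := fun x hx => by
    have h1 := hL x ⟨hx.1.le, hx.2⟩
    have h2 : Λ 0 * s 0 ^ 2 * a' x ^ 2 ≤ Λ 0 * s 0 ^ 2 * L :=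
      mul_le_mul_of_nonneg_left h1 (mul_nonneg (hΛ 0) (sq_nonneg _))
    have h3 : Λ 1 * s 1 ^ 2 * a' x ^ 2 ≤ Λ 1 * s 1 ^ 2 * L :=
      mul_le_mul_of_nonneg_left h1 (mul_nonneg (hΛ 1) (sq_nonneg _))
    have h4 : 0 ≤ Λ 0 * L := mul_nonneg (hΛ 0) hL0
    have h5 : 0 ≤ Λ 0 * s 0 ^ 2 * L := mul_nonneg (mul_nonneg (hΛ 0) (sq_nonneg _)) hL0
    have h6 : 0 ≤ Λ 1 * s 1 ^ 2 * L := mul_nonneg (mul_nonneg (hΛ 1) (sq_nonneg _)) hL0
    obtain ⟨k1, k2, k3⟩ := hcs2 x hx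
    refine ⟨k1, by linarith, ?_⟩
    rw [Fin.sum_univ_two]
    show 2 * (Λ 0 * s 0 ^ 2 * a' x ^ 2 + Λ 1 * s 1 ^ 2 * a' x ^ 2) ≤ _
    linarith
  hds := fun x hx => by
    have h1 := hL x ⟨hx.1.le, hx.2⟩
    have h2 : Λ 0 * a' x ^ 2 ≤ Λ 0 * L := mul_le_mul_of_nonneg_left h1 (hΛ 0)
    have h4 : 0 ≤ Λ 0 * L := mul_nonneg (hΛ 0) hL0
    have h5 : 0 ≤ Λ 0 * s 0 ^ 2 * L := mul_nonneg (mul_nonneg (hΛ 0) (sq_nonneg _)) hL0
    have h6 : 0 ≤ Λ 1 * s 1 ^ 2 * L := mul_nonneg (mul_nonneg (hΛ 1) (sq_nonneg _)) hL0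
    refine ⟨le_rfl, by linarith, ?_⟩
    rw [Fin.sum_univ_two]
    show 2 * (Λ 0 * a' x ^ 2 + Λ 1 * (0 : ℝ) ^ 2) ≤ _
    linarith

theorem cs_zero {B : ℝ} (hB : 0 ≤ B) : ∀ x ∈ Ioc (0 : ℝ) 3, (0 : ℝ) ≤ 0 ∧ 0 * x ^ 2 ≤ B ∧
    0 ≤ 5 / 3 * (0 : ℝ) + x * 0 + B := fun x _ => ⟨le_rfl, by simpa using hB, by simpa using hB⟩

/-- the pointwise form for the two Poincaré functions -/
theorem RR_eq {a a' : ℝ → ℝ} {A A1 A2 A3 : Fin 4 → ℝ × ℝ × ℝ → ℝ} {cs cs' : ℝ → ℝ}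
    {Λ γ s : Fin 2 → ℝ} (P : Pt) :
    RR A A1 A2 A3 (fun _ => 0) (fun _ => 0) (fun _ => 0) (fun _ => 0) cs cs'
      (fun _ => 0) (fun _ => 0) Λ γ s (fφ a) (fφ a') (fψ a) (fψ' a') P =
    CS A A1 A2 A3 P + (P.N * cs' P.N * H56.dt P.g P.g + 1 / 2 * cs P.N * P.lN) +
      (Λ 0 * P.PP (s 0) (a P.N) (a' P.N) (a P.M) (a' P.M) + γ 0 * (s 0 * a P.N - a P.M)) +
      (Λ 1 * (4 * (s 1 * a P.N - 1) ^ 2 - s 1 ^ 2 * (a' P.N ^ 2 * H56.dt P.g P.g)) +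
        γ 1 * (s 1 * a P.N - 1)) := by
  unfold RR CS
  rw [Fin.sum_univ_two]
  show _ + _ + _ + _ + _ + _ + ((Λ 0 * P.PP (s 0) (a P.N) (a' P.N) (a P.M) (a' P.M) +
    γ 0 * (s 0 * a P.N - a P.M)) + (Λ 1 * P.PP (s 1) (a P.N) (a' P.N) 1 0 +
    γ 1 * (s 1 * a P.N - 1))) = _
  unfold Pt.PP
  ring

/-- from the certificate for `(s, 1/s)` -/
theorem cert_vertex {E : Pt → Prop} {a a' : ℝ → ℝ} (ha : C1on 3 a a') {L : ℝ}
    (hL : ∀ x ∈ Icc (0 : ℝ) 3, a' x ^ 2 ≤ L) (hL0 : 0 ≤ L) {s : Fin 2 → ℝ} (hs : ∀ j, 0 < s j)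
    (h : VC G E a a' (s 0) (1 / s 0)) : HasCertE G E (fφ a) (fφ a') (fψ a) (fψ' a') s := by
  obtain ⟨A, A1, A2, A3, hA, hpos⟩ := h
  have h0 := hs 0
  have hΛ : ∀ j, 0 ≤ (![1 / s 0, 0] : Fin 2 → ℝ) j := fun j => by
    fin_cases j
    · show 0 ≤ 1 / s 0
      positivity
    · exact le_rfl
  refine ⟨Om, A, A1, A2, A3, _, _, _, _, _, _, _, _, ![1 / s 0, 0], ![0, 0], _, isOpen_Om, hA, ?_,
    cols_of ha hL hL0 hΛ (c1on_zero _).oc le_rfl (cs_zero le_rfl), rfl, rfl,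
    fun P hP hE hne => ?_⟩
  · show 0 ≤ 2 * (1 / s 0 * s 0 ^ 2 * L + 0 * s 1 ^ 2 * L) + 2 * (1 / s 0 * L) + 0
    positivity
  obtain ⟨k1, k2, k3, k4⟩ := hpos P hP hE hne
  have e : RR A A1 A2 A3 (fun _ => 0) (fun _ => 0) (fun _ => 0) (fun _ => 0) (fun _ => 0)
      (fun _ => 0) (fun _ => 0) (fun _ => 0) ![1 / s 0, 0] ![0, 0] s (fφ a) (fφ a') (fψ a)
      (fψ' a') P = CS A A1 A2 A3 P + Poi a a' (s 0) (1 / s 0) P := by
    rw [RR_eq]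
    show _ + (P.N * 0 * H56.dt P.g P.g + 1 / 2 * 0 * P.lN) +
      (1 / s 0 * P.PP (s 0) (a P.N) (a' P.N) (a P.M) (a' P.M) + 0 * (s 0 * a P.N - a P.M)) +
      (0 * (4 * (s 1 * a P.N - 1) ^ 2 - s 1 ^ 2 * (a' P.N ^ 2 * H56.dt P.g P.g)) +
        0 * (s 1 * a P.N - 1)) = _
    unfold Pt.PP Poi
    field_simp
    ring
  refine ⟨mem_Om hP hne, k1, by simpa using k2, ?_, ?_⟩
  · rw [e]; exact k3
  · rw [e]; exact k4

/-- the certificate for a large mean value -/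
theorem cert_nonly {E : Pt → Prop} {a a' : ℝ → ℝ} (ha : C1on 3 a a') {L : ℝ}
    (hL : ∀ x ∈ Icc (0 : ℝ) 3, a' x ^ 2 ≤ L) (hL0 : 0 ≤ L)
    (ha0 : ∀ x ∈ Icc (0 : ℝ) 2, 0 ≤ a x) {m0 : ℝ} {s : Fin 2 → ℝ}
    (hs : ∀ j, 0 < s j) (hm : 1 / s 1 ≤ m0) (h : NOnly G E a a' m0) :
    HasCertE G E (fφ a) (fφ a') (fψ a) (fψ' a') s := by
  obtain ⟨A, A1, A2, A3, cs, cs', K, B, hK, hB, hA, hcs, hcs0, hcs2, hpos⟩ := h
  have h1 := hs 1
  have hΛ : ∀ j, 0 ≤ (![0, K / s 1 ^ 2] : Fin 2 → ℝ) j := fun j => by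
    fin_cases j
    · exact le_rfl
    · show 0 ≤ K / s 1 ^ 2
      positivity
  refine ⟨Om, A, A1, A2, A3, _, _, _, _, _, _, _, _, ![0, K / s 1 ^ 2], ![0, 4 * K / s 1 ^ 2], _,
    isOpen_Om, hA, ?_, cols_of ha hL hL0 hΛ hcs hB hcs2, hcs0, rfl, fun P hP hE hne => ?_⟩
  · show 0 ≤ 2 * (0 * s 0 ^ 2 * L + K / s 1 ^ 2 * s 1 ^ 2 * L) + 2 * (0 * L) + B
    positivity
  obtain ⟨k1, k2, k3, k4⟩ := hpos P hP hE hne
  have e : RR A A1 A2 A3 (fun _ => 0) (fun _ => 0) (fun _ => 0) (fun _ => 0) cs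
      cs' (fun _ => 0) (fun _ => 0) ![0, K / s 1 ^ 2] ![0, 4 * K / s 1 ^ 2] s (fφ a)
      (fφ a') (fψ a) (fψ' a') P = CS A A1 A2 A3 P +
        (P.N * cs' P.N * H56.dt P.g P.g + 1 / 2 * cs P.N * P.lN) +
        K * (4 * a P.N ^ 2 - 4 * (1 / s 1) * a P.N - a' P.N ^ 2 * H56.dt P.g P.g) := by
    rw [RR_eq]
    show _ + _ + (0 * P.PP (s 0) (a P.N) (a' P.N) (a P.M) (a' P.M) + 0 * (s 0 * a P.N - a P.M)) +
      (K / s 1 ^ 2 * (4 * (s 1 * a P.N - 1) ^ 2 - s 1 ^ 2 * (a' P.N ^ 2 * H56.dt P.g P.g)) +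
        4 * K / s 1 ^ 2 * (s 1 * a P.N - 1)) = _
    field_simp
    ring
  have hN2 : P.N ≤ 2 := by linarith [hP.NM, hP.M0]
  have h3 : 0 ≤ K * (4 * (m0 - 1 / s 1) * a P.N) :=
    mul_nonneg hK (mul_nonneg (by linarith) (ha0 _ ⟨hP.N0, hN2⟩))
  refine ⟨mem_Om hP hne, k1, by simpa using k2, ?_, fun h4 h5 => ?_⟩
  · rw [e]; linarith
  · rw [e]
    have := k4 h4
    linarith

/-- the certificate for a large ratio: no columns -/
theorem cert_large {E : Pt → Prop} {a a' : ℝ → ℝ} (ha : C1on 3 a a') {L : ℝ}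
    (hL : ∀ x ∈ Icc (0 : ℝ) 3, a' x ^ 2 ≤ L) (hL0 : 0 ≤ L) {α β : ℝ} (hα : 0 < α)
    (hβ : ∀ N M : ℝ, 0 ≤ N → 0 ≤ M → N + M ≤ 2 → a M ≤ α - β * a N) {s : Fin 2 → ℝ}
    (hs : ∀ j, 0 < s j) (hm : α * s 1 < s 0 + β) :
    HasCertE G E (fφ a) (fφ a') (fψ a) (fψ' a') s := by
  have h1 := hs 1
  have hΛ : ∀ j, 0 ≤ (![0, 0] : Fin 2 → ℝ) j := fun j => by
    fin_cases j <;> exact le_rfl
  refine ⟨Om, fun _ _ => 0, fun _ _ => 0, fun _ _ => 0, fun _ _ => 0, _, _, _, _, _, _, _, _,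
    ![0, 0], ![1, -((s 0 + β) / s 1)], _,
    isOpen_Om, fun i => Sm3.const 0, ?_,
    cols_of ha hL hL0 hΛ (c1on_zero _).oc le_rfl (cs_zero le_rfl), rfl, rfl,
    fun P hP hE hne => ?_⟩
  · show 0 ≤ 2 * (0 * s 0 ^ 2 * L + 0 * s 1 ^ 2 * L) + 2 * (0 * L) + 0
    linarith
  have e : RR (fun _ _ => 0) (fun _ _ => 0) (fun _ _ => 0) (fun _ _ => 0) (fun _ => 0)
      (fun _ => 0) (fun _ => 0) (fun _ => 0) (fun _ => 0) (fun _ => 0) (fun _ => 0) (fun _ => 0)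
      ![0, 0] ![1, -((s 0 + β) / s 1)] s (fφ a) (fφ a') (fψ a) (fψ' a') P =
      (s 0 + β) / s 1 - (a P.M + β * a P.N) := by
    rw [RR_eq]
    show CS _ _ _ _ P + (P.N * 0 * H56.dt P.g P.g + 1 / 2 * 0 * P.lN) + (0 * P.PP (s 0) (a P.N) (a' P.N) (a P.M) (a' P.M) +
      1 * (s 0 * a P.N - a P.M)) +
      (0 * (4 * (s 1 * a P.N - 1) ^ 2 - s 1 ^ 2 * (a' P.N ^ 2 * H56.dt P.g P.g)) +
        -((s 0 + β) / s 1) * (s 1 * a P.N - 1)) = _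
    unfold CS Pt.col
    field_simp
    ring
  have h3 := hβ P.N P.M hP.N0 hP.M0 hP.NM
  have h4 : α < (s 0 + β) / s 1 := by rwa [lt_div_iff₀ h1]
  refine ⟨mem_Om hP hne, le_rfl, by simp, ?_, fun h4 h5 => ?_⟩
  · rw [e]; linarith
  · rw [e]; linarith

/-- **The certificates at three vertices and the certificate for `N` imply `HasCertE`.** -/
theorem hasCert_of {E : Pt → Prop} {a a' : ℝ → ℝ} (ha : C1on 3 a a') {L : ℝ}
    (hL : ∀ x ∈ Icc (0 : ℝ) 3, a' x ^ 2 ≤ L) (hL0 : 0 ≤ L)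
    (ha0 : ∀ x ∈ Icc (0 : ℝ) 2, 0 ≤ a x) {α β : ℝ} (hα : 0 < α)
    (hβ : ∀ N M : ℝ, 0 ≤ N → 0 ≤ M → N + M ≤ 2 → a M ≤ α - β * a N) {m0 S : ℝ} (hm0 : 0 < m0)
    (hS : 1 < S) (hSm : α ≤ m0 * (S + β)) (hN : NOnly G E a a' m0) (h1 : VC G E a a' 1 1)
    (h2 : VC G E a a' (2 * S / (S + 1)) (2 / (S + 1))) (h3 : VC G E a a' S (1 / S))
    (s : Fin 2 → ℝ) (hs : ∀ j, 0 < s j) (hs1 : 1 ≤ s 0) :
    HasCertE G E (fφ a) (fφ a') (fψ a) (fψ' a') s := by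
  by_cases hc : 1 / s 1 ≤ m0
  · exact cert_nonly ha hL hL0 ha0 hs hc hN
  push Not at hc
  rcases le_or_gt (s 0) S with h | h
  · exact cert_vertex ha hL hL0 hs (VC.arc hS h1 h2 h3 hs1 h)
  · refine cert_large ha hL hL0 hα hβ hs ?_
    have h4 : m0 * s 1 < 1 := by
      rwa [lt_div_iff₀ (hs 1)] at hc
    have h5 : 0 < S + β := by
      by_contra hn
      push Not at hn
      nlinarith
    calc α * s 1 ≤ m0 * (S + β) * s 1 := mul_le_mul_of_nonneg_right hSm (hs 1).le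
      _ = (S + β) * (m0 * s 1) := by ring
      _ ≤ (S + β) * 1 := mul_le_mul_of_nonneg_left h4.le h5.le
      _ < s 0 + β := by linarith

/-- the function used in the certificates -/
noncomputable def aa (x : ℝ) : ℝ := x - x ^ 2 / 5
noncomputable def aa' (x : ℝ) : ℝ := 1 - 2 / 5 * x

theorem aa_c1 : C1on 3 aa aa' := by
  refine ⟨fun s _ => ?_, ?_⟩
  · have h := ((hasDerivAt_id' s).fun_sub ((hasDerivAt_pow 2 s).div_const 5)).hasDerivWithinAt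
      (s := Icc (0 : ℝ) 3)
    have e : aa' s = 1 - ((2 : ℕ) : ℝ) * s ^ (2 - 1) / 5 := by unfold aa'; norm_num; ring
    rw [e]
    exact h
  · unfold aa'
    fun_prop

theorem aa'_sq : ∀ x ∈ Icc (0 : ℝ) 3, aa' x ^ 2 ≤ 1 := by
  intro x hx
  unfold aa'
  nlinarith [hx.1, hx.2]

theorem aa_nonneg : ∀ x ∈ Icc (0 : ℝ) 2, 0 ≤ aa x := by
  intro x hx
  unfold aa
  nlinarith [hx.1, hx.2]

theorem aa_pos : ∀ x ∈ Icc (1 : ℝ) 2, 0 < aa x := by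
  intro x hx
  unfold aa
  nlinarith [hx.1, hx.2]

theorem aa_le (N M : ℝ) (hN : 0 ≤ N) (hM : 0 ≤ M) (hNM : N + M ≤ 2) :
    aa M ≤ 6 / 5 - 1 / 5 * aa N := by
  unfold aa
  nlinarith

/-- **Everything from the certificates.** -/
theorem core_of_vertices {m0 S : ℝ} (hm0 : 0 < m0) (hS : 1 < S) (hSm : 6 / 5 ≤ m0 * (S + 1 / 5))
    (hN : ∀ {M 𝒪 V : Type} [TopologicalSpace M] [CommRing 𝒪] [Algebra ℝ 𝒪]
      [AddCommGroup V] [Module 𝒪 V] (G : Geo2 M 𝒪 V), NOnly G E3 aa aa' m0)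
    (h1 : ∀ {M 𝒪 V : Type} [TopologicalSpace M] [CommRing 𝒪] [Algebra ℝ 𝒪]
      [AddCommGroup V] [Module 𝒪 V] (G : Geo2 M 𝒪 V), VC G E3 aa aa' 1 1)
    (h2 : ∀ {M 𝒪 V : Type} [TopologicalSpace M] [CommRing 𝒪] [Algebra ℝ 𝒪]
      [AddCommGroup V] [Module 𝒪 V] (G : Geo2 M 𝒪 V),
      VC G E3 aa aa' (2 * S / (S + 1)) (2 / (S + 1)))
    (h3 : ∀ {M 𝒪 V : Type} [TopologicalSpace M] [CommRing 𝒪] [Algebra ℝ 𝒪]
      [AddCommGroup V] [Module 𝒪 V] (G : Geo2 M 𝒪 V), VC G E3 aa aa' S (1 / S)) :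
    H210.Core := by
  refine core_of3 (J := Fin 2) (φ := fφ aa) (φ' := fφ aa') (ψ := fψ aa) (ψ' := fψ' aa')
    (fun j => ?_) (fun j => ?_) (fun j => ?_) (fun j => ?_) (fun j => ?_) (fun j => ?_) 0 rfl
    (fun G s hs hs1 => hasCert_of aa_c1 aa'_sq zero_le_one aa_nonneg (by norm_num) aa_le hm0 hS
      hSm (hN G) (h1 G) (h2 G) (h3 G) s hs hs1)
  · fin_cases j <;> exact aa_c1.cont
  · fin_cases j
    · exact aa_c1.cont
    · exact continuousOn_const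
  · fin_cases j <;> exact aa_nonneg
  · fin_cases j <;> exact aa_pos
  · fin_cases j
    · exact aa_nonneg
    · exact fun x _ => zero_le_one
  · fin_cases j
    · exact aa_pos
    · exact fun x _ => zero_lt_one

end Vale.Agent.P211.H626
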