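import Vale.Agent.P211.H56.CoreOf
import Vale.Agent.P211.H56.TouchInst
import Vale.Agent.P211.H958.Meas
import Vale.Agent.P211.H210.Close

set_option linter.all false

/-! P211 (helper626): from the certificate to `H210.Core`, hence to the final statement. -/

namespace Vale.Agent.P211.H626

open scoped Manifold ContDiff Topology
open Bundle Filter MeasureTheory Set
open Vale.Agent.P211 Vale.Agent.P211.S4 Vale.Agent.P211.H56

/-- **The core statement from a certificate.** -/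
theorem core_of {J : Type} [Fintype J] {φ φ' ψ ψ' : J → ℝ → ℝ}
    (cφ : ∀ j, ContinuousOn (φ j) (Icc 0 3)) (cψ : ∀ j, ContinuousOn (ψ j) (Icc 0 3))
    (hφ0 : ∀ j, ∀ x ∈ Icc (0 : ℝ) 2, 0 ≤ φ j x) (hφ1 : ∀ j, ∀ x ∈ Icc (1 : ℝ) 2, 0 < φ j x)
    (hψ0 : ∀ j, ∀ x ∈ Icc (0 : ℝ) 2, 0 ≤ ψ j x) (hψ1 : ∀ j, ∀ x ∈ Icc (1 : ℝ) 2, 0 < ψ j x)
    (hcert : ∀ {M 𝒪 V : Type} [TopologicalSpace M] [CommRing 𝒪] [Algebra ℝ 𝒪]
      [AddCommGroup V] [Module 𝒪 V] (G : Geo2 M 𝒪 V) (s : J → ℝ), (∀ j, 0 < s j) →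
      HasCert G φ φ' ψ ψ' s) : H210.Core := by
  intro E _ _ _ M _ _ _ _ _ _ _ _ cov h hE om n m e1 e2 ho hn hm hN hM
  letI mM : MeasurableSpace M := borel M
  haveI bM : BorelSpace M := ⟨rfl⟩
  obtain ⟨μ, i1, i2, hdiv, hP⟩ := H958.exists_measure h hE e1
  haveI := i1
  haveI := i2
  obtain ⟨n0, dl, b, hB⟩ := exists_basic e1 ho
  obtain ⟨m0, dl', b', hB'⟩ := exists_basic e1 (orient_neg ho)
  have key := core_of_cert hdiv hP (touch_geo2Of h hE) e1 e2 ho hB hB' cφ cψ hφ0 hφ1 hψ0 hψ1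
    (fun s hs => hcert (geo2Of h hE) s hs)
  have en : ∀ q, (geo2Of h hE).ev q n = (geo2Of h hE).ev q n0 := by
    intro q
    obtain ⟨F, hF⟩ := H56.exists_pos ho q
    have h1 := hn q F hF
    have h2 : 6 * (geo2Of h hE).ev q n0 + 3 = nA ((geo2Of h hE).rr q F) := by
      rw [hB.n_ev q F hF, nW, nA]; ring
    linarith
  have em : ∀ q, (geo2Of h hE).ev q m = (geo2Of h hE).ev q m0 := by
    intro q
    obtain ⟨F, hF⟩ := H56.exists_pos ho q
    have h1 := hm q F hF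
    have h2 := basic_nB ho hB' hF
    linarith
  rcases key with h1 | h1 | h1
  · exact Or.inl fun p => (en p).trans (h1 p)
  · exact Or.inr (Or.inl fun p => (em p).trans (h1 p))
  · exact Or.inr (Or.inr fun p => ⟨(en p).trans (h1 p).1, (em p).trans (h1 p).2⟩)

end Vale.Agent.P211.H626
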