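import Vale.Agent.P211.H626.Wrap2

set_option linter.all false

/-! P211 (helper626): the wrapper with more pointwise information. -/

namespace Vale.Agent.P211.H626

open scoped Manifold ContDiff Topology
open Bundle Filter MeasureTheory Set
open Vale.Agent.P211 Vale.Agent.P211.S4 Vale.Agent.P211.H56

/-- additional information at a point: both a-priori bounds, and the gradients at the zeros -/
structure E3 (P : Pt) : Prop where
  p_le : P.p ≤ 20 * (6 * (2 - P.N - P.M) + 2 / 5 * (P.N - P.M) ^ 2)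
  h_le : H56.dt P.h P.h ≤ 20 * (6 * (2 - P.N - P.M) + 2 / 5 * (P.N - P.M) ^ 2)
  g0 : P.N = 0 → P.g = 0
  h0 : P.M = 0 → P.h = 0

variable {M 𝒪 V : Type*} [TopologicalSpace M] [CommRing 𝒪] [Algebra ℝ 𝒪]
    [AddCommGroup V] [Module 𝒪 V] {G : Geo2 M 𝒪 V} {om : V → V → V → V → 𝒪}

theorem e3_of [CompactSpace M] (hE : G.Einstein 3) (hK : G.SecGe 0) (ho : Orient G om)
    {n dl b m dl' b' : 𝒪} (hB : Basic G om n dl b) (hB' : Basic G (omn om) m dl' b')
    (hB2 : Basic G (omn (omn om)) n dl b)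
    (h : ∀ q, ¬ (G.ev q n = 1 ∧ G.ev q m = 1)) (q : M) (P : Pt)
    (hP : AtP G n dl b m dl' b' q P) : E3 P := by
  have k1 := apriori2_E hE hK ho hB hB' h q P hP
  have k2 := apriori2 hE hK (orient_neg ho) hB' hB2 (fun q hq => h q hq.symm) q
  obtain ⟨F, Q, κ', σ', Q', z', t', u', hF, hok, hN, hM, hp, hSV, hSV'⟩ := hP
  refine ⟨k1, ?_, fun h0 => ?_, fun h0 => ?_⟩
  · have h1 : H56.dt P.h P.h ≤ G.ev q b' := by
      rw [hSV'.b_eq]
      have e1 := dt_self_nonneg z'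
      have e2 := dt_self_nonneg t'
      linarith
    refine h1.trans (k2.trans (le_of_eq ?_))
    unfold Th
    rw [hSV.n_eq, hSV'.n_eq, Real.sqrt_sq hok.N0, Real.sqrt_sq hok.M0]
    ring
  · funext i
    rw [← hSV.dn0 i, h0]
    simp
  · funext i
    rw [← hSV'.dn0 i, h0]
    simp

/-- **The core statement from a certificate** which may use `E3` and one ratio `≥ 1`. -/
theorem core_of3 {J : Type} [Fintype J] {φ φ' ψ ψ' : J → ℝ → ℝ}
    (cφ : ∀ j, ContinuousOn (φ j) (Icc 0 3)) (cψ : ∀ j, ContinuousOn (ψ j) (Icc 0 3))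
    (hφ0 : ∀ j, ∀ x ∈ Icc (0 : ℝ) 2, 0 ≤ φ j x) (hφ1 : ∀ j, ∀ x ∈ Icc (1 : ℝ) 2, 0 < φ j x)
    (hψ0 : ∀ j, ∀ x ∈ Icc (0 : ℝ) 2, 0 ≤ ψ j x) (hψ1 : ∀ j, ∀ x ∈ Icc (1 : ℝ) 2, 0 < ψ j x)
    (j0 : J) (hj0 : φ j0 = ψ j0)
    (hcert : ∀ {M 𝒪 V : Type} [TopologicalSpace M] [CommRing 𝒪] [Algebra ℝ 𝒪]
      [AddCommGroup V] [Module 𝒪 V] (G : Geo2 M 𝒪 V) (s : J → ℝ), (∀ j, 0 < s j) → 1 ≤ s j0 →
      HasCertE G E3 φ φ' ψ ψ' s) : H210.Core := by
  intro E _ _ _ M _ _ _ _ _ _ _ _ cov h hE om n m e1 e2 ho hn hm hN hM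
  letI mM : MeasurableSpace M := borel M
  haveI bM : BorelSpace M := ⟨rfl⟩
  obtain ⟨μ, i1, i2, hdiv, hP⟩ := H958.exists_measure h hE e1
  haveI := i1
  haveI := i2
  obtain ⟨n0, dl, b, hB⟩ := exists_basic e1 ho
  obtain ⟨m0, dl', b', hB'⟩ := exists_basic e1 (orient_neg ho)
  have hB2 : Basic (geo2Of h hE) (omn (omn om)) n0 dl b := by rw [omn_omn]; exact hB
  have hB2' : Basic (geo2Of h hE) (omn (omn (omn om))) m0 dl' b' := by rw [omn_omn]; exact hB'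
  have key := core_of_cert2 hdiv hP (touch_geo2Of h hE) e1 e2 ho hB hB' (E := E3)
    (fun h1 q P hP => e3_of e1 e2 ho hB hB' hB2 h1 q P hP)
    (fun h1 q P hP => e3_of e1 e2 (orient_neg ho) hB' hB2 hB2'
      (fun q hq => h1 q hq.symm) q P hP)
    cφ cψ hφ0 hφ1 hψ0 hψ1 j0 hj0
    (fun s hs hs1 => hcert (geo2Of h hE) s hs hs1)
  have en : ∀ q, (geo2Of h hE).ev q n = (geo2Of h hE).ev q n0 := by
    intro q
    obtain ⟨F, hF⟩ := H56.exists_pos ho q
    have h1 := hn q F hF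
    have h2 : 6 * (geo2Of h hE).ev q n0 + 3 = nA ((geo2Of h hE).rr q F) := by
      rw [hB.n_ev q F hF, nW, nA]; ring
    linarith
  have em : ∀ q, (geo2Of h hE).ev q m = (geo2Of h hE).ev q m0 := by
    intro q
    obtain ⟨F, hF⟩ := H56.exists_pos ho q
    have h1 := hm q F hF
    have h2 := basic_nB ho hB' hF
    linarith
  rcases key with h1 | h1 | h1
  · exact Or.inl fun p => (en p).trans (h1 p)
  · exact Or.inr (Or.inl fun p => (em p).trans (h1 p))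
  · exact Or.inr (Or.inr fun p => ⟨(en p).trans (h1 p).1, (em p).trans (h1 p).2⟩)

end Vale.Agent.P211.H626
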